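import Vale.Agent.P240.MathlibUsed
import Vale.Agent.P240.K.FamDefs

namespace Vale.Agent.P240.K

open Subgroup

section
variable {G : Type*} [Group G]

/-- `M` is a minimal normal subgroup. -/
def MinNormal (M : Subgroup G) : Prop :=
  M.Normal ∧ M ≠ ⊥ ∧ ∀ N : Subgroup G, N.Normal → N ≤ M → N = ⊥ ∨ N = M

/-- The minimal normal subgroups of the minimal normal subgroups of `G`. If `O_p(G) = 1` and
`O_{p'}(G) = 1`, these are the components of `G`. -/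
def Comp (G : Type*) [Group G] : Set (Subgroup G) :=
  {L | ∃ M : Subgroup G, MinNormal M ∧ ∃ K : Subgroup M, MinNormal K ∧ L = K.map M.subtype}

/-- The elements of `N_G(L)` that commute with `s`. -/
def Cn (L : Subgroup G) (s : G) : Subgroup G := normalizer (L : Set G) ⊓ centralizer {s}

/-- The local condition on `L` and the elements `s ∈ S ∩ L`. -/
structure LocalGood (p : ℕ) (S : Set G) (L : Subgroup G) : Prop where
  ne : ∃ s ∈ S, s ∈ L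
  move : ∀ h : G, h ^ p = 1 → h ∉ normalizer (L : Set G) → ∀ s ∈ S, s ∈ L → h * s * h⁻¹ ∈ S
  order : ∀ s ∈ S, s ∈ L → ¬ p ∣ orderOf s
  fix : ∀ s ∈ S, s ∈ L → ∀ E ≤ normalizer (L : Set G), ElemAb p E →
    (∀ e ∈ E, s * e * s⁻¹ ∈ E ⊔ centralizer (L : Set G)) →
    (∀ e ∈ E, s * e * s⁻¹ * e⁻¹ ∈ centralizer (L : Set G) → e ∈ centralizer (L : Set G)) →
    E ≤ centralizer (L : Set G)
  kernel : ∀ s ∈ S, s ∈ L → ∃ W ≤ L ⊓ Cn L s, Group.IsSolvable W ∧ ¬ p ∣ Nat.card W ∧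
    (∀ x ∈ Cn L s, ∀ w ∈ W, x * w * x⁻¹ ∈ W) ∧
    ∀ x ∈ Cn L s, x ^ p = 1 → ((∀ w ∈ W, x * w = w * x) → x ∈ centralizer (L : Set G)) ∧
      ∀ y ∈ Cn L s, y ^ p = 1 → x * y * x⁻¹ * y⁻¹ ∈ W ⊔ centralizer (L : Set G)
  same : ∀ s ∈ S, s ∈ L → ∀ t ∈ S, t ∈ L → (∃ g ∈ normalizer (L : Set G), g * s * g⁻¹ = t) ∧
    ∀ x ∈ Cn L s, x ^ p = 1 → ∃ n ∈ L, x * n ∈ Cn L t ∧ (x * n) ^ p ∈ centralizer (L : Set G)

end

end Vale.Agent.P240.K
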