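import Vale.Agent.P240.MathlibUsed
import Vale.Agent.P240.K.FamDefs

namespace Vale.Agent.P240.K

open Subgroup

section
variable {G : Type*} [Group G]

/-- Minus the reduced Euler characteristic of the order complex of the finite poset of elementary
abelian `p`-subgroups of `K` normalized by `z`. -/
noncomputable def eulerFix (p : ℕ) (K : Subgroup G) (z : G) : ℤ :=
  ∑ᶠ n : ℕ, (-1) ^ n * (Nat.card
    {l : List {E : Subgroup G // ElemAb p E ∧ E ≤ K ∧ z ∈ normalizer (E : Set G)} //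
      l.length = n ∧ l.Pairwise (· < ·)} : ℤ)

/-- The sum of `eulerFix p K x` over all `x ∈ S ∩ K`. -/
noncomputable def wsum (p : ℕ) (S : Set G) (K : Subgroup G) : ℤ :=
  ∑ᶠ x ∈ S ∩ (K : Set G), eulerFix p K x

/-- The `l`-adic condition on `L` and `S ∩ L`: for every elementary abelian `p`-subgroup `E` of
`N_G(L)` that does not centralize `L`, the number `|L : C_L(E)| * wsum p S (C_L(E))` is divisible by
a higher power of `l` than `wsum p S L`. -/
structure AdicGood (p l : ℕ) (S : Set G) (L : Subgroup G) : Prop where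
  move : ∀ h : G, h ^ p = 1 → h ∉ normalizer (L : Set G) → ∀ s ∈ S, s ∈ L → h * s * h⁻¹ ∈ S
  conj : ∀ g ∈ L, ∀ s ∈ S, s ∈ L → g * s * g⁻¹ ∈ S
  adic : ∃ k : ℕ, ¬ (l : ℤ) ^ (k + 1) ∣ wsum p S L ∧ ∀ E ≤ normalizer (L : Set G), ElemAb p E →
    ¬ E ≤ centralizer (L : Set G) → (l : ℤ) ^ (k + 1) ∣
      ((L ⊓ centralizer (E : Set G)).relIndex L : ℤ) * wsum p S (L ⊓ centralizer (E : Set G))

end

end Vale.Agent.P240.K
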