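import Vale.Agent.P240.MathlibUsed
import Vale.Agent.P240.K.FamDefs

namespace Vale.Agent.P240.K

open Subgroup

/-- `O_{p'}(G) = 1`: the only normal subgroup of `G` of order prime to `p` is the trivial one. -/
def OpPrimeTrivial (p : ℕ) (G : Type*) [Group G] : Prop :=
  ∀ N : Subgroup G, N.Normal → ¬ p ∣ Nat.card N → N = ⊥

/-- Every elementary abelian `p`-subgroup `A` of `G` acting faithfully on `N` acts faithfully on a
solvable subgroup of `N`. (If `N` is solvable this is trivial; if `p` does not divide `|N|`, it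
follows from the classification of the finite simple groups.) -/
def SolvableFaithful {G : Type*} [Group G] (p : ℕ) (N : Subgroup G) : Prop :=
  ∀ A : Subgroup G, ElemAb p A → A ⊓ centralizer (N : Set G) = ⊥ →
    ∃ Y ≤ N, Group.IsSolvable Y ∧ (∀ x ∈ A, ∀ y ∈ Y, x * y * x⁻¹ ∈ Y) ∧
      ∀ x ∈ A, (∀ y ∈ Y, x * y = y * x) → x = 1

/-- The group `C_G(N) / (N ∩ C_G(N))`. -/
abbrev Reduced {G : Type*} [Group G] (N : Subgroup G) [N.Normal] : Type _ :=
  centralizer (N : Set G) ⧸ N.subgroupOf (centralizer (N : Set G))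

end Vale.Agent.P240.K
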