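import Mathlib
import Vale.Agent.P240.K.Final

namespace Vale.Agent.P240.K

open Finsupp Subgroup

section
variable {G : Type*} [Group G]

/-- minus the reduced Euler characteristic of the poset of fixed points of `g` on the elementary
abelian `p`-subgroups of `K` -/
noncomputable def lam (p : ℕ) (K : Subgroup G) (g : G) : ℤ :=
  eu {E | E ∈ Ain p K ∧ g ∈ normalizer (E : Set G)}

end

end Vale.Agent.P240.K
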