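import Vale.Agent.P240.V.Abs
import Vale.Agent.P240.V.Defs

/-!
P240-W5. Attaching elementary abelian complements.

`lam_attach`: put `S = {E | E ∈ Ain p H ∧ g ∈ normalizer E}`, `B = {E ∈ S | E ⊓ N = ⊥}` and use
`eu_attach`. `S \ B` coreflects (`eu_coreflect`, `E ↦ E ⊓ N`) onto `{E | E ∈ Ain p N ∧ g ∈ normalizer E}`
(`g ∈ N`); this is the term `F = ⊥` of the right side (`mb p ⊥ = 1`, `centralizer ⊥ = ⊤`). For `F ∈ B`:
for `f ∈ F` the commutator `g * f * g⁻¹ * f⁻¹` lies in `F` and in `N` (as `N` is normalized by `H`), so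
it is `1`: `F ≤ centralizer {g}`; hence `g` normalizes every subgroup of `F`, and
`eu {y | y ∈ S ∧ y < F} = eu {Y | Y ∈ ApS p G ∧ Y < F} = - mb p F` (`mb_of_mem`). It remains that
`eu {E | E ∈ S \ B ∧ F < E} = lam p (N ⊓ centralizer F) g`. Let `Z` be the union of
`A = {E | E ∈ S \ B ∧ F < E}` and `C = {E | E ∈ Ain p (N ⊓ centralizer F) ∧ g ∈ normalizer E}`. The map
`E ↦ E ⊓ N` is a coreflection of `Z` onto `C` (for `E ∈ A`, `E ⊓ N ≠ ⊥` and `E ⊓ N ≤ centralizer F` as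
`E` is abelian and contains `F`; for `E ∈ C`, `E ⊓ N = E`), the map `E ↦ E ⊔ F` is a reflection of `Z`
onto `A` (for `E ∈ C`: `E ⊔ F ∈ ApS` by `sup_mem_ApS`, it contains `F` properly since `E ≤ N`, `E ≠ ⊥`,
`F ⊓ N = ⊥`; and `E ≤ (E ⊔ F) ⊓ N`). So `eu A = eu Z = eu C`.
-/

namespace Vale.Agent.P240.K

open Finsupp Subgroup

section
variable {G : Type*} [Group G] {p : ℕ}

/-- the elementary abelian subgroups of `H` normalized by `g` -/
def aS (p : ℕ) (H : Subgroup G) (g : G) : Set (Subgroup G) :=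
  {E | E ∈ Ain p H ∧ g ∈ normalizer (E : Set G)}

/-- those meeting `N` trivially -/
def aB (p : ℕ) (H N : Subgroup G) (g : G) : Set (Subgroup G) :=
  {E | E ∈ aS p H g ∧ E ⊓ N = ⊥}

lemma norm_inf_mem {E N : Subgroup G} {g : G} (hE : g ∈ normalizer (E : Set G)) (hg : g ∈ N) :
    g ∈ normalizer ((E ⊓ N : Subgroup G) : Set G) := by
  rw [mem_normalizer_iff] at hE ⊢
  intro y
  constructor
  · intro hy
    have hy' := Subgroup.mem_inf.1 hy
    exact Subgroup.mem_inf.2 ⟨(hE y).1 hy'.1, mul_mem (mul_mem hg hy'.2) (inv_mem hg)⟩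
  · intro hy
    have hy' := Subgroup.mem_inf.1 hy
    refine Subgroup.mem_inf.2 ⟨(hE y).2 hy'.1, ?_⟩
    have h1 : y = g⁻¹ * (g * y * g⁻¹) * g := by group
    rw [h1]
    exact mul_mem (mul_mem (inv_mem hg) hy'.2) hg

lemma att_bot [Finite G] {H N : Subgroup G} (hNH : N ≤ H) {g : G} (hg : g ∈ N) :
    eu (aS p H g \ aB p H N g) = lam p N g := by
  refine eu_coreflect (fun E => E ⊓ N) _ _ _ (Set.toFinite _) rfl ?_ ?_ ?_ ?_
  · rintro E ⟨hE, hE3⟩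
    refine ⟨⟨⟨hE.1, hE.2.trans hNH⟩, hE3⟩, fun h => hE.1.1 ?_⟩
    have h2 := h.2
    rwa [inf_eq_left.2 hE.2] at h2
  · rintro E ⟨⟨hE, hE3⟩, h⟩
    have hne : E ⊓ N ≠ ⊥ := fun h' => h ⟨⟨hE, hE3⟩, h'⟩
    exact ⟨⟨mem_ApS_of_le hE.1 inf_le_left hne, inf_le_right⟩, norm_inf_mem hE3 hg⟩
  · intro E _
    exact inf_le_left
  · rintro E _ Y ⟨⟨_, hY2⟩, _⟩ hYE
    exact le_inf hYE hY2

lemma att_cent {H N : Subgroup G} (hN : ∀ h ∈ H, ∀ n ∈ N, h * n * h⁻¹ ∈ N) {g : G}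
    (hg : g ∈ N) {F : Subgroup G} (hF : F ∈ aB p H N g) : ∀ f ∈ F, g * f = f * g := by
  intro f hf
  obtain ⟨⟨hF1, hF2⟩, hF3⟩ := hF
  rw [mem_normalizer_iff] at hF2
  have h1 : g * f * g⁻¹ ∈ F := (hF2 f).1 hf
  have h2 : g * f * g⁻¹ * f⁻¹ ∈ F := mul_mem h1 (inv_mem hf)
  have h3 : g * f * g⁻¹ * f⁻¹ ∈ N := by
    have h4 : f * g⁻¹ * f⁻¹ ∈ N := hN f (hF1.2 hf) _ (inv_mem hg)
    have h5 : g * f * g⁻¹ * f⁻¹ = g * (f * g⁻¹ * f⁻¹) := by group
    rw [h5]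
    exact mul_mem hg h4
  have h6 : g * f * g⁻¹ * f⁻¹ ∈ F ⊓ N := Subgroup.mem_inf.2 ⟨h2, h3⟩
  rw [hF3, Subgroup.mem_bot] at h6
  calc g * f = (g * f * g⁻¹ * f⁻¹) * (f * g) := by group
    _ = f * g := by rw [h6, one_mul]

lemma att_low {H N : Subgroup G} (hN : ∀ h ∈ H, ∀ n ∈ N, h * n * h⁻¹ ∈ N) {g : G}
    (hg : g ∈ N) {F : Subgroup G} (hF : F ∈ aB p H N g) :
    {y | y ∈ aS p H g ∧ y < F} = {Y | Y ∈ ApS p G ∧ Y < F} := by
  ext E
  constructor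
  · rintro ⟨h1, h2⟩
    exact ⟨h1.1.1, h2⟩
  · rintro ⟨h1, h2⟩
    exact ⟨⟨⟨h1, h2.le.trans hF.1.1.2⟩, mem_of_comm fun y hy => att_cent hN hg hF y (h2.le hy)⟩,
      h2⟩

lemma norm_sup_mem {E F : Subgroup G} {g : G} (hE : g ∈ normalizer (E : Set G))
    (hF : ∀ f ∈ F, g * f = f * g) : g ∈ normalizer ((E ⊔ F : Subgroup G) : Set G) := by
  rw [← cj_eq_iff] at hE ⊢
  have h1 : cj g F = F := cj_eq_iff.2 (mem_of_comm hF)
  have h2 : cj g (E ⊔ F) = cj g E ⊔ cj g F := by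
    rw [cj, cj, cj, Subgroup.map_sup]
  rw [h2, hE, h1]

lemma att_up [Finite G] {H N : Subgroup G} (hNH : N ≤ H)
    (hN : ∀ h ∈ H, ∀ n ∈ N, h * n * h⁻¹ ∈ N) {g : G} (hg : g ∈ N) {F : Subgroup G}
    (hF : F ∈ aB p H N g) :
    eu {y | y ∈ aS p H g \ aB p H N g ∧ F < y} = lam p (N ⊓ centralizer (F : Set G)) g := by
  set A : Set (Subgroup G) := {y | y ∈ aS p H g \ aB p H N g ∧ F < y} with hA
  set C : Set (Subgroup G) :=
    {E | E ∈ Ain p (N ⊓ centralizer (F : Set G)) ∧ g ∈ normalizer (E : Set G)} with hC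
  have hgF := att_cent hN hg hF
  have hAC : ∀ E ∈ A, E ⊓ N ∈ C := by
    rintro E ⟨⟨⟨hE, hE3⟩, h⟩, hFE⟩
    have hne : E ⊓ N ≠ ⊥ := fun h' => h ⟨⟨hE, hE3⟩, h'⟩
    refine ⟨⟨mem_ApS_of_le hE.1 inf_le_left hne, le_inf inf_le_right ?_⟩, norm_inf_mem hE3 hg⟩
    intro x hx
    rw [mem_centralizer_iff]
    intro y hy
    exact hE.1.2.1 y (hFE.le hy) x (Subgroup.mem_inf.1 hx).1
  have hCA : ∀ E ∈ C, E ⊔ F ∈ A := by
    rintro E ⟨⟨hE1, hE2⟩, hE3⟩
    have hEN : E ≤ N := hE2.trans inf_le_left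
    have hEF : E ⊔ F ∈ ApS p G := by
      refine sup_mem_ApS hE1 hF.1.1.1 fun x hx y hy => ?_
      exact (mem_centralizer_iff.1 (Subgroup.mem_inf.1 (hE2 hx)).2 y hy).symm
    have hne : ¬ E ≤ F := fun h => hE1.1 (le_bot_iff.1 ((le_inf h hEN).trans hF.2.le))
    refine ⟨⟨⟨⟨hEF, sup_le (hEN.trans hNH) hF.1.1.2⟩, norm_sup_mem hE3 hgF⟩, fun h => ?_⟩, ?_⟩
    · exact hE1.1 (le_bot_iff.1 ((le_inf le_sup_left hEN).trans h.2.le))
    · refine lt_of_le_of_ne le_sup_right fun h => hne ?_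
      rw [h]
      exact le_sup_left
  have hCN : ∀ E ∈ C, E ⊓ N = E := fun E hE => inf_eq_left.2 (hE.1.2.trans inf_le_left)
  have hAF : ∀ E ∈ A, E ⊔ F = E := fun E hE => sup_eq_left.2 hE.2.le
  have h1 : eu (A ∪ C) = eu C := by
    refine eu_coreflect (fun E => E ⊓ N) _ _ _ (Set.toFinite _) rfl Set.subset_union_right
      ?_ ?_ ?_
    · rintro E (hE | hE)
      · exact hAC E hE
      · rw [hCN E hE]
        exact hE
    · intro E _
      exact inf_le_left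
    · rintro E _ Y hY hYE
      exact le_inf hYE (hY.1.2.trans inf_le_left)
  have h2 : eu (A ∪ C) = eu A := by
    refine eu_reflect (fun E => E ⊔ F) _ _ (Set.toFinite _) Set.subset_union_left ?_ ?_ ?_
    · rintro E (hE | hE)
      · rw [hAF E hE]
        exact hE
      · exact hCA E hE
    · intro E _
      exact le_sup_left
    · rintro E _ Y hY hEY
      exact sup_le hEY hY.2.le
  rw [← h2, h1]
  rfl

lemma att_inf_bot (N : Subgroup G) : N ⊓ centralizer ((⊥ : Subgroup G) : Set G) = N := by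
  refine inf_eq_left.2 fun x _ => mem_centralizer_iff.2 fun y hy => ?_
  have hy1 : y = 1 := Subgroup.mem_bot.1 hy
  rw [hy1, one_mul, mul_one]

theorem lam_attach [hp : Fact p.Prime] [Finite G] {H N : Subgroup G} (hNH : N ≤ H)
    (hN : ∀ h ∈ H, ∀ n ∈ N, h * n * h⁻¹ ∈ N) {g : G} (hg : g ∈ N) :
    lam p H g = ∑ F ∈ (Set.toFinite {F | F ∈ ApB p G ∧ F ≤ H ∧ F ⊓ N = ⊥ ∧
      F ≤ centralizer ({g} : Set G)}).toFinset,
        mb p F * lam p (N ⊓ centralizer (F : Set G)) g := by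
  classical
  have hS : (aS p H g).Finite := Set.toFinite _
  have hB : aB p H N g ⊆ aS p H g := fun E hE => hE.1
  have hdown : ∀ x ∈ aB p H N g, ∀ y ∈ aS p H g, y ≤ x → y ∈ aB p H N g := by
    intro x hx y hy hyx
    exact ⟨hy, le_bot_iff.1 ((inf_le_inf_right N hyx).trans hx.2.le)⟩
  have h := eu_attach hS hB hdown
  have h0 : lam p H g = eu (aS p H g) := rfl
  have hidx : (Set.toFinite {F | F ∈ ApB p G ∧ F ≤ H ∧ F ⊓ N = ⊥ ∧
      F ≤ centralizer ({g} : Set G)}).toFinset = insert ⊥ (hS.subset hB).toFinset := by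
    ext F
    rw [Finset.mem_insert, Set.Finite.mem_toFinset, Set.Finite.mem_toFinset]
    constructor
    · rintro ⟨h1, h2, h3, h4⟩
      rcases h1 with h1 | h1
      · exact Or.inl h1
      · refine Or.inr ⟨⟨⟨h1, h2⟩, mem_of_comm fun y hy => ?_⟩, h3⟩
        exact mem_centralizer_iff.1 (h4 hy) g rfl
    · rintro (h1 | h1)
      · subst h1
        exact ⟨Or.inl rfl, bot_le, bot_inf_eq _, bot_le⟩
      · refine ⟨Or.inr h1.1.1.1, h1.1.1.2, h1.2, fun f hf => ?_⟩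
        rw [mem_centralizer_iff]
        intro y hy
        rw [Set.mem_singleton_iff.1 hy]
        exact att_cent hN hg h1 f hf
  have hnb : (⊥ : Subgroup G) ∉ (hS.subset hB).toFinset := by
    rw [Set.Finite.mem_toFinset]
    exact fun h' => h'.1.1.1.1 rfl
  have hmb : mb p (⊥ : Subgroup G) = 1 := if_pos rfl
  rw [hidx, Finset.sum_insert hnb, hmb, one_mul, att_inf_bot, ← att_bot hNH hg, h0, h,
    sub_eq_add_neg, ← Finset.sum_neg_distrib]
  congr 1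
  refine Finset.sum_congr rfl fun F hF => ?_
  rw [Set.Finite.mem_toFinset] at hF
  rw [att_low hN hg hF, att_up hNH hN hg hF, mb_of_mem hF.1.1.1, neg_mul]

end

end Vale.Agent.P240.K
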