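import Mathlib
import Vale.Agent.P240.K.WDefs

namespace Vale.Agent.P240.K

open Subgroup

section
variable {G : Type*} [Group G]

/-- The elements `z` of the subgroup generated by the members of `D` such that for every `L ∈ D` the
`L`-component of `z`, that is, the element `s ∈ L` acting on `L` like `z`, lies in `S`. -/
def Sel (D : Set (Subgroup G)) (S : Set G) : Set G :=
  {z | z ∈ ⨆ L ∈ D, L ∧ ∀ L ∈ D, ∃ s ∈ S, s ∈ L ∧ s⁻¹ * z ∈ centralizer (L : Set G)}

/-- The centralizer of `z` in the group of all elements of `Rest F D` normalizing all `L ∈ D`. -/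
def Cent0 (F D : Set (Subgroup G)) (z : G) : Subgroup G :=
  Cent F D z ⊓ ⨅ L ∈ D, normalizer (L : Set G)

end

/-- The `p`-rank of `C` is `k`: the largest elementary abelian `p`-subgroups have order `p ^ k`. -/
def RankIs (p : ℕ) (C : Type*) [Group C] (k : ℕ) : Prop :=
  (∃ E : Subgroup C, (E = ⊥ ∨ ElemAb p E) ∧ Nat.card E = p ^ k) ∧
    ∀ E : Subgroup C, ElemAb p E → Nat.card E ≤ p ^ k

end Vale.Agent.P240.K
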