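import Vale.Agent.P240.V.Main

namespace Vale.Agent.P240.K

open Finsupp Subgroup

universe u v

variable {𝕜 : Type v} [Field 𝕜]

section
variable {G : Type u} [Group G] {p : ℕ}

lemma Cent0_eq (F D : Set (Subgroup G)) (z : G) :
    Cent0 F D z = Rz (Rest F D) D ⊓ centralizer {z} := by
  rw [Cent0, Cent, Rz, inf_right_comm]

/-- elementary abelian subgroups normalized by a good element -/
lemma GoodElement.fixed [hp : Fact p.Prime] [Finite G] {F : Set (Subgroup G)}
    (hF : Family p F) {D : Set (Subgroup G)} {z : G} (hz : GoodElement p F D z)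
    {E : Subgroup G} (hE : E ∈ ApS p G) (hzE : z ∈ normalizer (E : Set G)) :
    E ⊓ centralizer {z} ∈ ApS p G := by
  have hw : FreeWeight p (F \ D) (∅ : Set (Subgroup G)) (fun _ : G => (0 : ℂ)) :=
    { sub := Set.empty_subset _
      conj := fun L hL => absurd hL (Set.notMem_empty L)
      inv := fun _ _ _ => rfl
      free := fun L hL => absurd hL (Set.notMem_empty L)
      sum := fun L hL => absurd hL (Set.notMem_empty L)
      pow := fun L hL => absurd hL (Set.notMem_empty L) }
  have h := fixed_prod (c := fun _ => 1) hF hz hw (fun L hL => absurd hL (Set.notMem_empty L))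
    (fun L hL => absurd hL (Set.notMem_empty L)) (d := 1) (one_mem _)
    (fun L hL => absurd hL (Set.notMem_empty L)) hE (by rw [mul_one]; exact hzE)
  rwa [mul_one] at h

/-- coreflection to the centralizer of the good element -/
lemma GoodElement.lam_eq' [hp : Fact p.Prime] [Finite G] {F : Set (Subgroup G)}
    (hF : Family p F) {D : Set (Subgroup G)} {z : G} (hz : GoodElement p F D z)
    (K : Subgroup G) : lam p K z = eu (Ain p (K ⊓ centralizer {z})) := by
  rw [lam]
  refine eu_coreflect (fun E => E ⊓ centralizer {z}) _ _ _ (Set.toFinite _) rfl ?_ ?_ ?_ ?_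
  · rintro E ⟨hE1, hE2⟩
    exact ⟨⟨hE1, hE2.trans inf_le_left⟩, mem_of_comm fun y hy =>
      (mem_centralizer_iff.1 (Subgroup.mem_inf.1 (hE2 hy)).2) z rfl⟩
  · rintro E ⟨⟨hE1, hE2⟩, hE3⟩
    exact ⟨hz.fixed hF hE1 hE3, le_inf (inf_le_left.trans hE2) inf_le_right⟩
  · intro E _
    exact inf_le_left
  · rintro E _ Y ⟨hY1, hY2⟩ hYE
    exact le_inf hYE (hY2.trans inf_le_right)

lemma GoodElement.lam_eq [hp : Fact p.Prime] [Finite G] {F : Set (Subgroup G)}
    (hF : Family p F) {D : Set (Subgroup G)} {z : G} (hz : GoodElement p F D z) :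
    lam p (Rz (Rest F D) D) z = eu (Ain p (Cent0 F D z)) := by
  rw [hz.lam_eq' hF, Cent0_eq]

end

end Vale.Agent.P240.K
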