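import Vale.Agent.P240.V.Defs

/-!
P240-W3. Fixed points of `p`-groups.

`dvd_card_inf_centralizer`: `B` acts by conjugation on the set `L`; the number of fixed points is
congruent to `card L` modulo `p` (`IsPGroup.card_modEq_card_fixedPoints`), hence divisible by `p`,
and it is the order of `L ⊓ centralizer B`.
-/

namespace Vale.Agent.P240.K

open Finsupp Subgroup

section
variable {G : Type*} [Group G] {p : ℕ}

lemma dvd_card_inf_centralizer [hp : Fact p.Prime] [Finite G] {L B : Subgroup G}
    (hB : IsPGroup p B) (hn : B ≤ normalizer (L : Set G)) (hL : p ∣ Nat.card L) :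
    p ∣ Nat.card (L ⊓ centralizer (B : Set G) : Subgroup G) := by
  have hmem : ∀ (b : B) (x : L), (b : G) * (x : G) * (b : G)⁻¹ ∈ L := fun b x =>
    (Subgroup.mem_normalizer_iff.1 (hn b.2) (x : G)).1 x.2
  let act : MulAction B L :=
    { smul := fun b x => ⟨(b : G) * (x : G) * (b : G)⁻¹, hmem b x⟩
      one_smul := by
        intro x
        apply Subtype.ext
        change ((1 : B) : G) * (x : G) * ((1 : B) : G)⁻¹ = x
        simp
      mul_smul := by
        intro a b x
        apply Subtype.ext
        change ((a * b : B) : G) * (x : G) * ((a * b : B) : G)⁻¹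
          = (a : G) * ((b : G) * (x : G) * (b : G)⁻¹) * (a : G)⁻¹
        push_cast
        group }
  have hmod : Nat.card L ≡ Nat.card (MulAction.fixedPoints B L) [MOD p] :=
    hB.card_modEq_card_fixedPoints (α := L)
  have hcard : Nat.card (L ⊓ centralizer (B : Set G) : Subgroup G)
      = Nat.card (MulAction.fixedPoints B L) := by
    refine Nat.card_congr
      { toFun := fun x => ⟨⟨x.1, x.2.1⟩, ?_⟩
        invFun := fun y => ⟨y.1.1, y.1.2, ?_⟩
        left_inv := fun x => rfl
        right_inv := fun y => rfl }
    · intro b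
      apply Subtype.ext
      change (b : G) * (x.1 : G) * (b : G)⁻¹ = x.1
      have h := Subgroup.mem_centralizer_iff.1 x.2.2 b b.2
      rw [h]
      group
    · refine Subgroup.mem_centralizer_iff.2 fun b hb => ?_
      have h := congrArg Subtype.val (y.2 ⟨b, hb⟩)
      have h' : b * (y.1.1 : G) * b⁻¹ = y.1.1 := h
      exact mul_inv_eq_iff_eq_mul.1 h'
  rw [hcard]
  exact (Nat.modEq_zero_iff_dvd.1 (hmod.symm.trans (Nat.modEq_zero_iff_dvd.2 hL)))

end

end Vale.Agent.P240.K
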