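import Vale.Agent.P240.V.Final

/-!
P240-L1. Groups `C` with a solvable normal `p'`-subgroup `W` such that the elements of order `p` commute modulo
`W` and act nontrivially on `W`: the sign of `eu (Ain p C)` (`eu` = minus the reduced Euler characteristic,
`Ain p C` = the nontrivial elementary abelian `p`-subgroups contained in `C`).

`comm_sign`: in `H ⧸ W` let `F = {v | v ^ p = 1}`. Every `v ∈ F` is the image of some `e : H` with `e ^ p = 1`
(take `x` over `v`, `x ^ p ∈ W`, `m = Nat.card W` prime to `p`, choose `j` with `m * j ≡ 1 [MOD p]`, put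
`e = x ^ (m * j)`; `e ^ p = (x ^ p) ^ (m * j) = 1`, and `e`, `x` have the same image as `v ^ (m * j) = v`).
So `F` is an abelian subgroup of exponent `p`, i.e. `F ∈ ApB p (H ⧸ W)`, `Nat.card F = p ^ k` (cf. `cs_apB`;
`IsPGroup.iff_card`). `Om = F.comap (mk' W)`; `Nat.card Om = p ^ k * Nat.card W` (e.g. `Subgroup.card_comap` ...).
All `x` with `x ^ p = 1` are in `Om`, so `ApS p H = Ain p Om` and `eu_comap_pos` (K/CM.lean) gives the sign.

`comm_sign_sub`: apply `comm_sign` to `H = C` (a subgroup of `G`) and `W.subgroupOf C`, and transport: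
`eu_sub : eu (Ain p H) = eu (ApS p H)` (K/Elements.lean), `Om.map C.subtype`.
-/

namespace Vale.Agent.P240.K

open Finsupp Subgroup

universe u

section
variable {G : Type u} [Group G] {p : ℕ}

lemma l1_lift [hp : Fact p.Prime] [Finite G] {W : Subgroup G} [hW : W.Normal]
    (hpW : ¬ p ∣ Nat.card W) {v : G ⧸ W} (hv : v ^ p = 1) :
    ∃ e : G, e ^ p = 1 ∧ (e : G ⧸ W) = v := by
  obtain ⟨x, rfl⟩ := QuotientGroup.mk_surjective v
  have hxW : x ^ p ∈ W := by
    rw [← QuotientGroup.eq_one_iff, QuotientGroup.mk_pow]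
    exact hv
  have hcop : Nat.Coprime (Nat.card W) p :=
    ((Nat.Prime.coprime_iff_not_dvd hp.out).2 hpW).symm
  obtain ⟨j, -, hj⟩ := Nat.exists_mul_mod_eq_one_of_coprime hcop hp.out.one_lt
  have h1 : (x ^ p) ^ Nat.card W = 1 := by
    have h2 : (⟨x ^ p, hxW⟩ : W) ^ Nat.card W = 1 := pow_card_eq_one'
    exact congrArg Subtype.val h2
  refine ⟨x ^ (Nat.card W * j), ?_, ?_⟩
  · rw [← pow_mul, mul_comm (Nat.card W * j) p, ← mul_assoc, pow_mul, pow_mul, h1, one_pow]
  · have h3 : Nat.card W * j = p * (Nat.card W * j / p) + 1 := by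
      conv_lhs => rw [← Nat.div_add_mod (Nat.card W * j) p, hj]
    rw [h3, QuotientGroup.mk_pow, pow_succ, pow_mul, hv, one_pow, one_mul]

lemma comm_sign [hp : Fact p.Prime] [Finite G] {W : Subgroup G} [hW : W.Normal]
    (hsol : Group.IsSolvable W) (hpW : ¬ p ∣ Nat.card W)
    (hfaith : ∀ x : G, x ^ p = 1 → (∀ w ∈ W, x * w = w * x) → x = 1)
    (hcomm : ∀ x y : G, x ^ p = 1 → y ^ p = 1 → x * y * x⁻¹ * y⁻¹ ∈ W) :
    ∃ (k : ℕ) (Om : Subgroup G), W ≤ Om ∧ Nat.card Om = p ^ k * Nat.card W ∧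
      (∀ x : G, x ^ p = 1 → x ∈ Om) ∧ (∀ x ∈ Om, ∃ e : G, e ^ p = 1 ∧ e⁻¹ * x ∈ W) ∧
      0 < (-1 : ℤ) ^ k * eu (ApS p G) := by
  have hc : ∀ v w : G ⧸ W, v ^ p = 1 → w ^ p = 1 → v * w = w * v := by
    intro v w hv hw
    obtain ⟨e, he, rfl⟩ := l1_lift hpW hv
    obtain ⟨f, hf, rfl⟩ := l1_lift hpW hw
    have h1 := hcomm e f he hf
    rw [← QuotientGroup.eq_one_iff, QuotientGroup.mk_mul, QuotientGroup.mk_mul,
      QuotientGroup.mk_mul, QuotientGroup.mk_inv, QuotientGroup.mk_inv] at h1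
    rw [mul_inv_eq_one, mul_inv_eq_iff_eq_mul] at h1
    exact h1
  let F : Subgroup (G ⧸ W) :=
    { carrier := {v | v ^ p = 1}
      mul_mem' := fun {v w} hv hw => by
        have h1 : Commute v w := hc v w hv hw
        have hv' : v ^ p = 1 := hv
        have hw' : w ^ p = 1 := hw
        change (v * w) ^ p = 1
        rw [h1.mul_pow, hv', hw', one_mul]
      one_mem' := one_pow p
      inv_mem' := fun {v} hv => by
        have hv' : v ^ p = 1 := hv
        change v⁻¹ ^ p = 1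
        rw [inv_pow, hv', inv_one] }
  have hF : F ∈ ApB p (G ⧸ W) := cs_apB.2 ⟨fun x hx y hy => hc x y hx hy, fun x hx => hx⟩
  have hP : IsPGroup p F := fun g => ⟨1, by
    rw [pow_one]
    exact Subtype.ext g.2⟩
  obtain ⟨k, hk⟩ := IsPGroup.iff_card.1 hP
  have hOm : ∀ x : G, x ^ p = 1 → x ∈ F.comap (QuotientGroup.mk' W) := by
    intro x hx
    change ((x : G ⧸ W)) ^ p = 1
    rw [← QuotientGroup.mk_pow, hx, QuotientGroup.mk_one]
  have hA : ApS p G = Ain p (F.comap (QuotientGroup.mk' W)) := by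
    ext E
    constructor
    · intro hE
      exact ⟨hE, fun x hx => hOm x (hE.2.2 x hx)⟩
    · intro hE
      exact hE.1
  refine ⟨k, F.comap (QuotientGroup.mk' W), ?_, ?_, hOm, ?_, ?_⟩
  · intro w hw
    change ((w : G ⧸ W)) ∈ F
    rw [(QuotientGroup.eq_one_iff w).2 hw]
    exact one_mem F
  · have h1 := Subgroup.index_comap_of_surjective F (QuotientGroup.mk'_surjective W)
    have h2 := (F.comap (QuotientGroup.mk' W)).card_mul_index
    have h3 := F.card_mul_index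
    have h4 := Subgroup.card_eq_card_quotient_mul_card_subgroup W
    have h5 : 0 < F.index := Nat.pos_of_ne_zero Subgroup.index_ne_zero_of_finite
    rw [h1, h4, ← h3, hk] at h2
    refine Nat.eq_of_mul_eq_mul_right h5 (h2.trans ?_)
    ring
  · intro x hx
    obtain ⟨e, he, hex⟩ := l1_lift hpW (v := (x : G ⧸ W)) hx
    exact ⟨e, he, QuotientGroup.eq.1 hex⟩
  · rw [hA]
    exact eu_comap_pos hsol hpW hfaith hF hk

lemma comm_sign_sub [hp : Fact p.Prime] [Finite G] {C W : Subgroup G} (hWC : W ≤ C)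
    (hn : ∀ x ∈ C, ∀ w ∈ W, x * w * x⁻¹ ∈ W)
    (hsol : Group.IsSolvable W) (hpW : ¬ p ∣ Nat.card W)
    (hfaith : ∀ x ∈ C, x ^ p = 1 → (∀ w ∈ W, x * w = w * x) → x = 1)
    (hcomm : ∀ x ∈ C, ∀ y ∈ C, x ^ p = 1 → y ^ p = 1 → x * y * x⁻¹ * y⁻¹ ∈ W) :
    ∃ (k : ℕ) (Om : Subgroup G), Om ≤ C ∧ W ≤ Om ∧ Nat.card Om = p ^ k * Nat.card W ∧
      (∀ x ∈ C, x ^ p = 1 → x ∈ Om) ∧ (∀ x ∈ Om, ∃ e ∈ C, e ^ p = 1 ∧ e⁻¹ * x ∈ W) ∧
      0 < (-1 : ℤ) ^ k * eu (Ain p C) := by
  have hN : (W.subgroupOf C).Normal := ⟨fun n hn' g => by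
    rw [Subgroup.mem_subgroupOf] at hn' ⊢
    exact hn g g.2 n hn'⟩
  have hcard : Nat.card (W.subgroupOf C) = Nat.card W :=
    Nat.card_congr (Subgroup.subgroupOfEquivOfLe hWC).toEquiv
  have hs : Group.IsSolvable (W.subgroupOf C) := by
    have := hsol
    exact Group.isSolvable_of_isSolvable_injective
      (f := (Subgroup.subgroupOfEquivOfLe hWC).toMonoidHom) (Subgroup.subgroupOfEquivOfLe hWC).injective
  obtain ⟨k, Om, h1, h2, h3, h4, h5⟩ := comm_sign (G := C) (W := W.subgroupOf C) (p := p) hs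
    (by rw [hcard]; exact hpW)
    (fun x hx hxw => by
      refine Subtype.ext (hfaith x x.2 (by
        have := congrArg Subtype.val hx
        exact this) fun w hw => ?_)
      have := hxw ⟨w, hWC hw⟩ (by rw [Subgroup.mem_subgroupOf]; exact hw)
      exact congrArg Subtype.val this)
    (fun x y hx hy => by
      rw [Subgroup.mem_subgroupOf]
      exact hcomm x x.2 y y.2 (congrArg Subtype.val hx) (congrArg Subtype.val hy))
  refine ⟨k, Om.map C.subtype, Subgroup.map_subtype_le Om, ?_, ?_, ?_, ?_, ?_⟩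
  · intro w hw
    exact ⟨⟨w, hWC hw⟩, h1 (by rw [Subgroup.mem_subgroupOf]; exact hw), rfl⟩
  · rw [← hcard, ← h2]
    exact Nat.card_congr (Om.equivMapOfInjective C.subtype C.subtype_injective).toEquiv.symm
  · intro x hx hxp
    exact ⟨⟨x, hx⟩, h3 _ (Subtype.ext hxp), rfl⟩
  · rintro _ ⟨x, hx, rfl⟩
    obtain ⟨e, he, hex⟩ := h4 x hx
    rw [Subgroup.mem_subgroupOf] at hex
    exact ⟨e, e.2, congrArg Subtype.val he, hex⟩
  · rw [eu_sub]
    exact h5

end

end Vale.Agent.P240.K
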