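import Vale.Agent.P240.V.L2Fam

/-!
P240-L2. The components of a group with `O_p(G) = O_{p'}(G) = 1`.

`Comp G = {L | L is a minimal normal subgroup of a minimal normal subgroup M of G}`.
Facts: (1) conjugation: if `L = K.map M.subtype`, then `g L g⁻¹ = (K^g).map M.subtype` (`M` is normal), and `K^g` is
minimal normal in `M` again (conjugation by `g` is an automorphism of `M`).
(2) distinct members commute: members of the same `M`: `K ⊓ K'` is normal in `M`, so trivial, so
`[K, K'] ≤ K ⊓ K' = ⊥`; members of different `M ≠ M'`: `M ⊓ M'` is normal in `G`, so trivial.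
(3) centre: `Z = L ⊓ centralizer L` corresponds to a normal subgroup of `M` contained in `K`, so `Z = ⊥` or `Z = L`.
In the second case `L` is abelian. The subgroup generated by the conjugates of `L` in `G` is a nontrivial normal
subgroup of `G` contained in `M`, so equal to `M`; the conjugates commute (by (2)) and are abelian, so `M` is
abelian. Then `M` is abelian and normal: if `p ∣ Nat.card M`, then `{x ∈ M | x ^ p = 1}` is a nontrivial normal
`p`-subgroup of `G`, contradicting `hO`; if not, `hO'` gives `M = ⊥`.
(4) `p ∣ Nat.card L`: otherwise `M`, generated by the commuting conjugates of `L`, of order prime to `p`, has order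
prime to `p` (a finite join of commuting subgroups of order prime to `p`, each normal in the join), so `M = ⊥`.
`comp_rest`: `Rest (Comp G) ∅` is the intersection of the centralizers of all members; it is normal; if nontrivial it
contains a minimal normal subgroup `M` of `G` (finite group), `M` contains a minimal normal subgroup `K` of `M`,
`L = K.map M.subtype ∈ Comp G`, and `L ≤ M ≤ centralizer L`, so `L = L ⊓ centralizer L = ⊥` by (3). -/

namespace Vale.Agent.P240.K

open Subgroup

section
variable {G : Type*} [Group G] {p : ℕ}

theorem comp_family [hp : Fact p.Prime] [Finite G] (hO : OpTrivial p G)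
    (hO' : ∀ N : Subgroup G, N.Normal → ¬ p ∣ Nat.card N → N = ⊥) : Family p (Comp G) :=
  l2_comp_family hO hO'

theorem comp_rest [hp : Fact p.Prime] [Finite G] (hO : OpTrivial p G)
    (hO' : ∀ N : Subgroup G, N.Normal → ¬ p ∣ Nat.card N → N = ⊥) :
    Rest (Comp G) (∅ : Set (Subgroup G)) = ⊥ :=
  l2_comp_rest (l2_comp_family hO hO')

end

end Vale.Agent.P240.K
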