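import Vale.Agent.P240.V.L2Rest

/-! P240-L2, first half: `Comp G` is a family. -/

namespace Vale.Agent.P240.K

open Subgroup

section
variable {G : Type*} [Group G] {p : ℕ}

/-- Automorphisms preserve minimal normal subgroups. -/
theorem l2_min_map {H : Type*} [Group H] {K : Subgroup H} (hK : MinNormal K) (e : H ≃* H) :
    MinNormal (K.map e.toMonoidHom) := by
  refine ⟨hK.1.map _ e.surjective, ?_, ?_⟩
  · intro h
    exact hK.2.1 ((map_eq_bot_iff_of_injective K e.injective).1 h)
  · intro N hN hNK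
    have h1 : (N.comap e.toMonoidHom).Normal := hN.comap _
    have h2 : N.comap e.toMonoidHom ≤ K := by
      intro x hx
      obtain ⟨y, hy, hxy⟩ := hNK (show e x ∈ N from hx)
      have : y = x := e.injective hxy
      exact this ▸ hy
    have h3 : (N.comap e.toMonoidHom).map e.toMonoidHom = N :=
      map_comap_eq_self_of_surjective e.surjective N
    rcases hK.2.2 _ h1 h2 with h | h
    · left; rw [← h3, h, Subgroup.map_bot]
    · right; rw [← h3, h]

theorem l2_conj : ∀ L ∈ Comp G, ∀ g : G, L.map (MulAut.conj g).toMonoidHom ∈ Comp G := by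
  rintro L ⟨M, hM, K, hK, rfl⟩ g
  have := hM.1
  refine ⟨M, hM, K.map (MulAut.conjNormal g : MulAut M).toMonoidHom, l2_min_map hK _, ?_⟩
  ext x
  simp only [mem_map]
  constructor
  · rintro ⟨_, ⟨y, hy, rfl⟩, rfl⟩
    exact ⟨_, ⟨y, hy, rfl⟩, by simp⟩
  · rintro ⟨_, ⟨y, hy, rfl⟩, rfl⟩
    exact ⟨_, ⟨y, hy, rfl⟩, by simp⟩

theorem l2_disj {H : Type*} [Group H] {A B : Subgroup H} (hA : MinNormal A) (hB : MinNormal B)
    (hAB : A ≠ B) : Disjoint A B := by
  rw [disjoint_iff]
  have hn : (A ⊓ B).Normal := by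
    have := hA.1
    have := hB.1
    infer_instance
  rcases hA.2.2 _ hn inf_le_left with h | h
  · exact h
  · have h1 : A ≤ B := h ▸ inf_le_right
    rcases hB.2.2 _ hA.1 h1 with h2 | h2
    · exact absurd h2 hA.2.1
    · exact absurd h2 hAB

theorem l2_comm : ∀ L ∈ Comp G, ∀ M ∈ Comp G, L ≠ M → ∀ x ∈ L, ∀ y ∈ M, x * y = y * x := by
  rintro L ⟨M, hM, K, hK, rfl⟩ L' ⟨M', hM', K', hK', rfl⟩ hne x hx y hy
  by_cases h : M = M'
  · subst h
    have hKK : K ≠ K' := fun h => hne (by rw [h])
    obtain ⟨a, ha, rfl⟩ := hx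
    obtain ⟨b, hb, rfl⟩ := hy
    have := commute_of_normal_of_disjoint K K' hK.1 hK'.1 (l2_disj hK hK' hKK) a b ha hb
    exact congrArg Subtype.val this.eq
  · exact (commute_of_normal_of_disjoint M M' hM.1 hM'.1 (l2_disj hM hM' h) x y
      (map_subtype_le K hx) (map_subtype_le K' hy)).eq

/-- The normal closure of `L ∈ Comp G` is the minimal normal subgroup containing it; here in the
form: a normal subgroup containing `L` contains `M`. -/
theorem l2_le_of_normal {M : Subgroup G} (hM : MinNormal M) {K : Subgroup M} (hK : MinNormal K)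
    {N : Subgroup G} (hN : N.Normal) (h : K.map M.subtype ≤ N) : M ≤ N := by
  have := hM.1
  have hn : (M ⊓ N).Normal := inferInstance
  rcases hM.2.2 _ hn inf_le_left with h0 | h0
  · exfalso
    apply hK.2.1
    rw [← map_eq_bot_iff_of_injective K M.subtype_injective, eq_bot_iff, ← h0]
    exact le_inf (map_subtype_le K) h
  · exact h0 ▸ inf_le_right

/-- The join of two normal subgroups of order prime to `p` has order prime to `p`. -/
theorem l2_sup_card [hp : Fact p.Prime] {H : Type*} [Group H] [Finite H] {A B : Subgroup H}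
    (hB : B.Normal) (h1 : ¬ p ∣ Nat.card A) (h2 : ¬ p ∣ Nat.card B) :
    ¬ p ∣ Nat.card (A ⊔ B : Subgroup H) := by
  intro h
  have h3 := relIndex_mul_relIndex (⊥ : Subgroup H) B (A ⊔ B) bot_le le_sup_right
  rw [relIndex_bot_left, relIndex_bot_left, relIndex_sup_right] at h3
  rw [← h3] at h
  rcases hp.out.dvd_mul.1 h with h | h
  · exact h2 h
  · exact h1 (h.trans (relIndex_dvd_card B A))

/-- The largest normal subgroup of order prime to `p`. -/
theorem l2_exists_pprime [hp : Fact p.Prime] {H : Type*} [Group H] [Finite H] :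
    ∃ Q : Subgroup H, Q.Normal ∧ ¬ p ∣ Nat.card Q ∧
      ∀ N : Subgroup H, N.Normal → ¬ p ∣ Nat.card N → N ≤ Q := by
  obtain ⟨Q, hQ⟩ := (Set.toFinite {N : Subgroup H | N.Normal ∧ ¬ p ∣ Nat.card N}).exists_maximal
    ⟨⊥, inferInstance, by simpa using hp.out.one_lt.ne'⟩
  refine ⟨Q, hQ.1.1, hQ.1.2, fun N hN h => ?_⟩
  have h1 : (N ⊔ Q).Normal := by
    have := hQ.1.1
    infer_instance
  exact le_sup_left.trans (hQ.2 ⟨h1, l2_sup_card hQ.1.1 h hQ.1.2⟩ le_sup_right)

theorem l2_dvd [hp : Fact p.Prime] [Finite G]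
    (hO' : ∀ N : Subgroup G, N.Normal → ¬ p ∣ Nat.card N → N = ⊥) :
    ∀ L ∈ Comp G, p ∣ Nat.card L := by
  rintro L ⟨M, hM, K, hK, rfl⟩
  by_contra hL
  have hMn := hM.1
  obtain ⟨Q, hQn, hQc, hQ⟩ := l2_exists_pprime (p := p) (H := M)
  have hcard : Nat.card (K.map M.subtype) = Nat.card K :=
    (Nat.card_congr (K.equivMapOfInjective M.subtype M.subtype_injective).toEquiv).symm
  have hcardQ : Nat.card (Q.map M.subtype) = Nat.card Q :=
    (Nat.card_congr (Q.equivMapOfInjective M.subtype M.subtype_injective).toEquiv).symm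
  have hKQ : K ≤ Q := hQ K hK.1 (hcard ▸ hL)
  have hQG : (Q.map M.subtype).Normal := by
    constructor
    rintro _ ⟨x, hx, rfl⟩ g
    have h1 : Q.map (MulAut.conjNormal g : MulAut M).toMonoidHom ≤ Q := by
      apply hQ
      · exact hQn.map _ (MulAut.conjNormal g : MulAut M).surjective
      · have : Nat.card (Q.map (MulAut.conjNormal g : MulAut M).toMonoidHom) = Nat.card Q :=
          (Nat.card_congr (Q.equivMapOfInjective _
            (MulAut.conjNormal g : MulAut M).injective).toEquiv).symm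
        rw [this]
        exact hQc
    exact ⟨_, h1 ⟨x, hx, rfl⟩, by simp⟩
  have hbot := hO' _ hQG (hcardQ ▸ hQc)
  rw [map_eq_bot_iff_of_injective Q M.subtype_injective] at hbot
  exact hK.2.1 (eq_bot_iff.2 (hbot ▸ hKQ))

theorem l2_centre [hp : Fact p.Prime] [Finite G] (hO : OpTrivial p G)
    (hO' : ∀ N : Subgroup G, N.Normal → ¬ p ∣ Nat.card N → N = ⊥) :
    ∀ L ∈ Comp G, L ⊓ centralizer (L : Set G) = ⊥ := by
  rintro L ⟨M, hM, K, hK, rfl⟩
  have hMn := hM.1
  have hKn := hK.1
  have hZ : (K ⊓ centralizer (K : Set M)).Normal := by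
    infer_instance
  have key : K ⊓ centralizer (K : Set M) = ⊥ → K.map M.subtype ⊓
      centralizer ((K.map M.subtype : Subgroup G) : Set G) = ⊥ := by
    intro h
    rw [eq_bot_iff]
    rintro _ ⟨⟨x, hx, rfl⟩, h2⟩
    have h4 : x ∈ centralizer (K : Set M) := by
      rw [mem_centralizer_iff]
      intro y hy
      have := mem_centralizer_iff.1 h2 (y : G) ⟨y, hy, rfl⟩
      exact Subtype.ext this
    have h3 : x ∈ K ⊓ centralizer (K : Set M) := ⟨hx, h4⟩
    rw [h, mem_bot] at h3
    rw [mem_bot, h3]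
    rfl
  rcases hK.2.2 _ hZ inf_le_left with h | h
  · exact key h
  · exfalso
    -- `K` is abelian
    have hab : ∀ x ∈ K, ∀ y ∈ K, x * y = y * x := by
      intro x hx y hy
      have : y ∈ K ⊓ centralizer (K : Set M) := h.symm ▸ hy
      exact mem_centralizer_iff.1 this.2 x hx
    set L := K.map M.subtype with hLdef
    have hLC : L ∈ Comp G := ⟨M, hM, K, hK, rfl⟩
    have habL : ∀ x ∈ L, ∀ y ∈ L, x * y = y * x := by
      rintro _ ⟨x, hx, rfl⟩ _ ⟨y, hy, rfl⟩
      exact congrArg Subtype.val (hab x hx y hy)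
    -- all conjugates of `L` commute with `L`
    have hcc : ∀ g : G, ∀ x ∈ L, ∀ y ∈ L, x * (g * y * g⁻¹) = g * y * g⁻¹ * x := by
      intro g x hx y hy
      have hm : g * y * g⁻¹ ∈ L.map (MulAut.conj g).toMonoidHom := ⟨y, hy, by simp⟩
      by_cases he : L = L.map (MulAut.conj g).toMonoidHom
      · exact habL x hx _ (he.symm ▸ hm)
      · exact l2_comm L hLC _ (l2_conj L hLC g) he x hx _ hm
    -- `M` centralizes all the conjugates of `L`
    let C : Subgroup G := ⨅ g : G, centralizer {z : G | ∃ y ∈ L, z = g * y * g⁻¹}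
    have hCn : C.Normal := by
      constructor
      intro n hn g
      simp only [C, mem_iInf, mem_centralizer_iff] at hn ⊢
      rintro k z ⟨y, hy, rfl⟩
      have h1 := hn (g⁻¹ * k) (g⁻¹ * k * y * (g⁻¹ * k)⁻¹) ⟨y, hy, rfl⟩
      calc k * y * k⁻¹ * (g * n * g⁻¹) = g * ((g⁻¹ * k * y * (g⁻¹ * k)⁻¹) * n) * g⁻¹ := by group
        _ = g * (n * (g⁻¹ * k * y * (g⁻¹ * k)⁻¹)) * g⁻¹ := by rw [h1]
        _ = g * n * g⁻¹ * (k * y * k⁻¹) := by group
    have hLC' : L ≤ C := by
      intro x hx
      simp only [C, mem_iInf, mem_centralizer_iff]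
      rintro g z ⟨y, hy, rfl⟩
      exact (hcc g x hx y hy).symm
    have hMC : M ≤ C := l2_le_of_normal hM hK hCn hLC'
    -- hence `M` is abelian
    have hLM : M ≤ centralizer (M : Set G) := by
      have hn : (centralizer (M : Set G)).Normal := inferInstance
      apply l2_le_of_normal hM hK hn
      intro x hx
      rw [mem_centralizer_iff]
      intro m hm
      have h1 := hMC hm
      simp only [C, mem_iInf, mem_centralizer_iff] at h1
      have := h1 1 x ⟨x, hx, by simp⟩
      exact this.symm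
    have habM : ∀ x ∈ M, ∀ y ∈ M, x * y = y * x := by
      intro x hx y hy
      exact mem_centralizer_iff.1 (hLM hy) x hx
    by_cases hpM : p ∣ Nat.card M
    · let Ω : Subgroup G :=
        { carrier := {x | x ∈ M ∧ x ^ p = 1}
          mul_mem' := by
            rintro a b ⟨ha, ha'⟩ ⟨hb, hb'⟩
            refine ⟨M.mul_mem ha hb, ?_⟩
            have : Commute a b := habM a ha b hb
            rw [this.mul_pow, ha', hb', one_mul]
          one_mem' := ⟨M.one_mem, one_pow p⟩
          inv_mem' := by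
            rintro a ⟨ha, ha'⟩
            exact ⟨M.inv_mem ha, by rw [inv_pow, ha', inv_one]⟩ }
      have hΩn : Ω.Normal := by
        constructor
        rintro n ⟨hn, hn'⟩ g
        refine ⟨hMn.conj_mem n hn g, ?_⟩
        rw [conj_pow, hn', mul_one, mul_inv_cancel]
      have hΩp : IsPGroup p Ω := by
        rintro ⟨x, hx, hx'⟩
        exact ⟨1, Subtype.ext (by simpa using hx')⟩
      have h0 := hO Ω hΩn hΩp
      obtain ⟨x, hx⟩ := exists_prime_orderOf_dvd_card' (G := M) p hpM
      have hxp : (x : G) ^ p = 1 := by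
        have := pow_orderOf_eq_one x
        rw [hx] at this
        exact congrArg Subtype.val this
      have hxΩ : (x : G) ∈ Ω := ⟨x.2, hxp⟩
      rw [h0, mem_bot] at hxΩ
      have hx1 : x = 1 := Subtype.ext hxΩ
      rw [hx1, orderOf_one] at hx
      exact hp.out.one_lt.ne hx
    · exact hM.2.1 (hO' M hMn hpM)

theorem l2_comp_family [hp : Fact p.Prime] [Finite G] (hO : OpTrivial p G)
    (hO' : ∀ N : Subgroup G, N.Normal → ¬ p ∣ Nat.card N → N = ⊥) : Family p (Comp G) :=
  ⟨l2_conj, l2_comm, l2_centre hO hO', l2_dvd hO'⟩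

end

end Vale.Agent.P240.K
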