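import Mathlib
import Vale.Agent.P240.V.LDefs
import Vale.Agent.P240.K.WDefs

/-! P240-L2, second half: `Rest (Comp G) ∅ = ⊥` from the family properties. -/

namespace Vale.Agent.P240.K

open Subgroup

section
variable {G : Type*} [Group G] {p : ℕ}

/-- A nontrivial normal subgroup of a finite group contains a minimal normal subgroup. -/
theorem l2_exists_min [Finite G] (R : Subgroup G) (hR : R.Normal) (hne : R ≠ ⊥) :
    ∃ M ≤ R, MinNormal M := by
  classical
  have hfin : (Set.univ : Set (Subgroup G)).Finite := Set.toFinite _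
  obtain ⟨M, hM⟩ := (Set.toFinite {N : Subgroup G | N.Normal ∧ N ≠ ⊥ ∧ N ≤ R}).exists_minimal
    ⟨R, hR, hne, le_rfl⟩
  refine ⟨M, hM.1.2.2, hM.1.1, hM.1.2.1, fun N hN hNM => ?_⟩
  by_cases h0 : N = ⊥
  · exact Or.inl h0
  · right
    exact le_antisymm hNM (hM.2 ⟨hN, h0, hNM.trans hM.1.2.2⟩ hNM)

theorem l2_rest_normal {F : Set (Subgroup G)}
    (hF : ∀ L ∈ F, ∀ g : G, L.map (MulAut.conj g).toMonoidHom ∈ F) :
    (Rest F (∅ : Set (Subgroup G))).Normal := by
  constructor
  intro n hn g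
  simp only [Rest, Set.sdiff_empty, mem_iInf, mem_centralizer_iff] at hn ⊢
  intro L hL h hh
  have h1 := hn _ (hF L hL g⁻¹) (g⁻¹ * h * g) ⟨h, hh, by simp⟩
  calc h * (g * n * g⁻¹) = g * ((g⁻¹ * h * g) * n) * g⁻¹ := by group
    _ = g * (n * (g⁻¹ * h * g)) * g⁻¹ := by rw [h1]
    _ = g * n * g⁻¹ * h := by group

/-- `comp_rest` from `comp_family`. -/
theorem l2_comp_rest [Finite G] (hF : Family p (Comp G)) :
    Rest (Comp G) (∅ : Set (Subgroup G)) = ⊥ := by
  by_contra hne
  obtain ⟨M, hMR, hM⟩ := l2_exists_min _ (l2_rest_normal hF.conj) hne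
  have hMt : (⊤ : Subgroup M) ≠ ⊥ := by
    intro h
    apply hM.2.1
    rw [eq_bot_iff]
    intro x hx
    have hx' : (⟨x, hx⟩ : M) ∈ (⊤ : Subgroup M) := mem_top _
    rw [h, mem_bot] at hx'
    exact mem_bot.2 (congrArg Subtype.val hx')
  obtain ⟨K, -, hK⟩ := l2_exists_min (⊤ : Subgroup M) inferInstance hMt
  have hL : K.map M.subtype ∈ Comp G := ⟨M, hM, K, hK, rfl⟩
  have hLM : K.map M.subtype ≤ M := map_subtype_le K
  have hLC : K.map M.subtype ≤ centralizer ((K.map M.subtype : Subgroup G) : Set G) := by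
    refine (hLM.trans hMR).trans ?_
    simp only [Rest, Set.sdiff_empty]
    exact iInf₂_le _ hL
  have h0 : K.map M.subtype = ⊥ := by
    rw [eq_bot_iff, ← hF.centre _ hL]
    exact le_inf le_rfl hLC
  exact hK.2.1 ((map_eq_bot_iff_of_injective K M.subtype_injective).1 h0)

end

end Vale.Agent.P240.K
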