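import Vale.Agent.P240.V.Final
import Vale.Agent.P240.V.LDefs

/-!
P240-L3. Basic facts on `z ∈ Sel D S` (products of elements `s ∈ S ∩ L`, `L ∈ D`).

Here `Sel D S = {z | z ∈ ⨆ L ∈ D, L ∧ ∀ L ∈ D, ∃ s ∈ S, s ∈ L ∧ s⁻¹ * z ∈ centralizer L}`.
`sel_comm`: if `x` normalizes `L` and `s⁻¹ * z` centralizes `L` (`s ∈ L`), then `x * z = z * x` implies
`x * s = s * x`: `x s x⁻¹ s⁻¹ ∈ L` and it acts on `L` as `x z x⁻¹ z⁻¹ = 1`, so it lies in `L ⊓ centralizer L = ⊥`.
`sel_good`: `z` lies in `⨆ L ∈ D, L`, so it centralizes `F \ D` and everything centralizing all of `F`,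
normalizes the members; order: `z ^ m = 1` for the product `m` of the orders of the components (cf. the proof of
`fixed_prod` in K/WMain.lean, `Family.center_trivial` in K/FreeEl.lean); `fix` follows from `LocalGood.fix`, as `z` and
`s` act on `L` in the same way.
`exists_kernel`: choose `s L` and `W L` for `L ∈ D` from `LocalGood.kernel`, `W = ⨆ L ∈ D, W L`.
`W ≤ Gn D`, its elements commute with `z` and centralize `F \ D` and normalize all members; normality: `x ∈ Cent0`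
satisfies `x ∈ Cn L (s L)` by `sel_comm`. Solvable, order prime to `p`: finite join of commuting subgroups
(`Set.Finite.induction_on`; `solvable_of_ker_le_range`/products of commuting solvable groups; card divides the product).
Faithful: `x` of order `p` centralizing `W` centralizes all `L ∈ D` (kernel) and all `L ∈ F \ D` (`Cent0 ≤ Rest F D`),
so `x ∈ Rest F ∅ = ⊥`. Commutators: `x y x⁻¹ y⁻¹ = w_L c_L` for every `L ∈ D` with `w_L ∈ W L`, `c_L ∈ centralizer L`;
by `exists_prod` there is `w ∈ W` (product of the `w_L`; apply the argument of `exists_prod` to the `W L`) acting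
on every `L ∈ D` like `w_L`, and `w⁻¹ x y x⁻¹ y⁻¹` centralizes all members of `F`, so it is `1`. -/

namespace Vale.Agent.P240.K

open Finsupp Subgroup

universe u

section
variable {G : Type u} [Group G] {p : ℕ}

/-- the action of `s` and `z` on `L` -/
private lemma l3_act {L : Subgroup G} {s z e : G} (hs : s ∈ L)
    (hsz : s⁻¹ * z ∈ centralizer (L : Set G)) (he : e ∈ normalizer (L : Set G)) :
    ∃ k ∈ centralizer (L : Set G), s * e * s⁻¹ = k * (z * e * z⁻¹) := by
  have hsN : s ∈ normalizer (L : Set G) := Subgroup.le_normalizer hs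
  set c := s⁻¹ * z with hc
  have h1 : e * c⁻¹ * e⁻¹ ∈ centralizer (L : Set G) := conj_centralizer he (inv_mem hsz)
  have h2 : c * (e * c⁻¹ * e⁻¹) ∈ centralizer (L : Set G) :=
    (centralizer (L : Set G)).mul_mem hsz h1
  have h3 := conj_centralizer hsN ((centralizer (L : Set G)).inv_mem h2)
  refine ⟨_, h3, ?_⟩
  rw [hc]
  group

private lemma l3_mem_Cn {L : Subgroup G} {s x : G} (h1 : x ∈ normalizer (L : Set G))
    (h2 : x * s = s * x) : x ∈ Cn L s := by
  refine Subgroup.mem_inf.2 ⟨h1, ?_⟩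
  rw [mem_centralizer_iff]
  intro y hy
  rw [Set.mem_singleton_iff.1 hy]
  exact h2.symm

lemma sel_comm {L : Subgroup G} (hcentre : L ⊓ centralizer (L : Set G) = ⊥) {s z x : G}
    (hs : s ∈ L) (hsz : s⁻¹ * z ∈ centralizer (L : Set G)) (hx : x ∈ normalizer (L : Set G))
    (hxz : x * z = z * x) : x ∈ Cn L s := by
  refine l3_mem_Cn hx ?_
  have hsN : s ∈ normalizer (L : Set G) := Subgroup.le_normalizer hs
  have h1 : x * s * x⁻¹ * s⁻¹ ∈ L :=
    mul_mem ((mem_normalizer_iff.1 hx s).1 hs) (inv_mem hs)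
  have h2 : x * s * x⁻¹ * s⁻¹ ∈ centralizer (L : Set G) := by
    have h3 : x * (s⁻¹ * z)⁻¹ * x⁻¹ ∈ centralizer (L : Set G) :=
      conj_centralizer hx (inv_mem hsz)
    have h4 := conj_centralizer hsN ((centralizer (L : Set G)).mul_mem hsz h3)
    have h5 : x * s * x⁻¹ * s⁻¹ = s * (s⁻¹ * z * (x * (s⁻¹ * z)⁻¹ * x⁻¹)) * s⁻¹ := by
      have h6 : x * z⁻¹ = z⁻¹ * x := by
        rw [eq_inv_mul_iff_mul_eq, ← mul_assoc, ← hxz, mul_assoc, mul_inv_cancel, mul_one]
      calc x * s * x⁻¹ * s⁻¹ = z * (z⁻¹ * x) * s * x⁻¹ * s⁻¹ := by group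
        _ = z * (x * z⁻¹) * s * x⁻¹ * s⁻¹ := by rw [h6]
        _ = _ := by group
    rw [h5]
    exact h4
  have h3 : x * s * x⁻¹ * s⁻¹ ∈ L ⊓ centralizer (L : Set G) := ⟨h1, h2⟩
  rw [hcentre, mem_bot] at h3
  have h4 := mul_inv_eq_one.1 h3
  exact mul_inv_eq_iff_eq_mul.1 h4

private lemma l3_Gn_eq (D : Set (Subgroup G)) : (⨆ L ∈ D, L) = sSup D := sSup_eq_iSup.symm

private lemma l3_rest {F D : Set (Subgroup G)} (hF : Family p F) (hDF : D ⊆ F) :
    sSup D ≤ Rest F D := by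
  refine le_Rest fun M hM hMD => sSup_le fun L hL x hx => ?_
  rw [mem_centralizer_iff]
  intro y hy
  refine hF.comm M hM L (hDF hL) ?_ y hy x hx
  rintro rfl
  exact hMD hL

theorem sel_good [hp : Fact p.Prime] [Finite G] {F D : Set (Subgroup G)} {S : Set G}
    (hF : Family p F) (hDF : D ⊆ F)
    (hconj : ∀ L ∈ D, ∀ g : G, L.map (MulAut.conj g).toMonoidHom ∈ D)
    (hloc : ∀ L ∈ D, LocalGood p S L) {z : G} (hz : z ∈ Sel D S) : GoodElement p F D z := by
  obtain ⟨hz1, hz2⟩ := hz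
  rw [l3_Gn_eq] at hz1
  choose! s hsS hsL hsz using hz2
  refine
    { sub := hDF
      conj := hconj
      rest := l3_rest hF hDF hz1
      order := ?_
      comm := ?_
      norm := fun L hL => sSup_le_norm hF hDF (hDF hL) hz1
      fix := ?_ }
  · have hd1 : ∃ m, ¬ p ∣ m ∧ z ^ m = 1 := by
      classical
      refine ⟨∏ L ∈ (Set.toFinite D).toFinset, orderOf (s L), ?_, ?_⟩
      · intro h
        obtain ⟨L, hL, h1⟩ := (hp.out.prime.dvd_finsetProd_iff _).1 h
        rw [Set.Finite.mem_toFinset] at hL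
        exact (hloc L hL).order (s L) (hsS L hL) (hsL L hL) h1
      · refine hF.center_trivial hDF (pow_mem hz1 _) fun L hL => ?_
        have hc' := hsz L hL
        have h1 : Commute (s L) ((s L)⁻¹ * z) := (mem_centralizer_iff.1 hc') _ (hsL L hL)
        have h0 : z = s L * ((s L)⁻¹ * z) := by group
        rw [h0, h1.mul_pow]
        have h2 : (s L) ^ (∏ M ∈ (Set.toFinite D).toFinset, orderOf (s M)) = 1 := by
          rw [← orderOf_dvd_iff_pow_eq_one]
          exact Finset.dvd_prod_of_mem (fun M => orderOf (s M))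
            ((Set.Finite.mem_toFinset _).2 hL)
        rw [h2, one_mul]
        exact pow_mem hc' _
    obtain ⟨m, hm1, hm2⟩ := hd1
    exact fun h => hm1 (h.trans (orderOf_dvd_of_pow_eq_one hm2))
  · intro g hg _
    have h1 : sSup D ≤ centralizer ({g} : Set G) := by
      refine sSup_le fun L hL x hx => ?_
      rw [mem_centralizer_iff]
      intro y hy
      rw [Set.mem_singleton_iff.1 hy]
      exact ((mem_centralizer_iff.1 (mem_Rest.1 hg L (hDF hL) (Set.notMem_empty L))) x hx).symm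
    exact ((mem_centralizer_iff.1 (h1 hz1)) g rfl).symm
  · intro L hL E hE hEA h1 h2
    refine (hloc L hL).fix (s L) (hsS L hL) (hsL L hL) E (hE.trans inf_le_right) hEA ?_ ?_
    · intro e he
      obtain ⟨k, hk, hk2⟩ := l3_act (hsL L hL) (hsz L hL) (Subgroup.mem_inf.1 (hE he)).2
      rw [hk2]
      exact mul_mem (mem_sup_right hk) (h1 e he)
    · intro e he h3
      obtain ⟨k, hk, hk2⟩ := l3_act (hsL L hL) (hsz L hL) (Subgroup.mem_inf.1 (hE he)).2
      refine h2 e he ?_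
      have h4 : z * e * z⁻¹ * e⁻¹ = k⁻¹ * (s L * e * (s L)⁻¹ * e⁻¹) := by
        rw [hk2]
        group
      rw [h4]
      exact (centralizer (L : Set G)).mul_mem ((centralizer (L : Set G)).inv_mem hk) h3

/-- the join of two commuting subgroups is an image of their product -/
private lemma l3_range {A B : Subgroup G} (h : ∀ a ∈ A, ∀ b ∈ B, a * b = b * a) :
    ∃ f : A × B →* G, f.range = A ⊔ B := by
  have hc : ∀ (a : A) (b : B), Commute (A.subtype a) (B.subtype b) := fun a b => h a a.2 b b.2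
  refine ⟨MonoidHom.noncommCoprod A.subtype B.subtype hc, ?_⟩
  rw [MonoidHom.noncommCoprod_range, Subgroup.range_subtype, Subgroup.range_subtype]

private lemma l3_two {A B : Subgroup G} [Finite G] [hp : Fact p.Prime]
    (h : ∀ a ∈ A, ∀ b ∈ B, a * b = b * a)
    (hA : Group.IsSolvable A) (hB : Group.IsSolvable B) (hA' : ¬ p ∣ Nat.card A)
    (hB' : ¬ p ∣ Nat.card B) :
    Group.IsSolvable (A ⊔ B : Subgroup G) ∧ ¬ p ∣ Nat.card (A ⊔ B : Subgroup G) := by
  obtain ⟨f, hf⟩ := l3_range h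
  rw [← hf]
  constructor
  · exact Group.isSolvable_of_surjective f.rangeRestrict_surjective
  · intro hd
    have h1 := hd.trans (Subgroup.card_range_dvd f)
    rw [Nat.card_prod] at h1
    exact (hp.out.dvd_mul.1 h1).elim hA' hB'

/-- joins of commuting solvable subgroups -/
private lemma l3_fin [hp : Fact p.Prime] [Finite G] {F D : Set (Subgroup G)}
    (hF : Family p F) (hDF : D ⊆ F) (W : Subgroup G → Subgroup G) (hW : ∀ L ∈ D, W L ≤ L)
    (hW1 : ∀ L ∈ D, Group.IsSolvable (W L)) (hW2 : ∀ L ∈ D, ¬ p ∣ Nat.card (W L)) :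
    Group.IsSolvable (⨆ L ∈ D, W L : Subgroup G) ∧ ¬ p ∣ Nat.card (⨆ L ∈ D, W L : Subgroup G) ∧
      ∀ l : Subgroup G → G, (∀ L ∈ D, l L ∈ W L) → ∃ d ∈ (⨆ L ∈ D, W L : Subgroup G),
        ∀ L ∈ D, ∃ c ∈ centralizer (L : Set G), d = l L * c := by
  have key : ∀ T : Set (Subgroup G), T.Finite → T ⊆ D →
      Group.IsSolvable (⨆ L ∈ T, W L : Subgroup G) ∧
      ¬ p ∣ Nat.card (⨆ L ∈ T, W L : Subgroup G) ∧
      ∀ l : Subgroup G → G, (∀ L ∈ D, l L ∈ W L) → ∃ d ∈ (⨆ L ∈ T, W L : Subgroup G),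
        ∀ L ∈ T, ∃ c ∈ centralizer (L : Set G), d = l L * c := by
    intro T hfin
    induction T, hfin using Set.Finite.induction_on with
    | empty =>
      intro _
      have h0 : (⨆ L ∈ (∅ : Set (Subgroup G)), W L : Subgroup G) = ⊥ := by simp
      rw [h0]
      refine ⟨inferInstance, ?_, fun l _ => ⟨1, one_mem _, by simp⟩⟩
      rw [Subgroup.card_bot]
      exact hp.out.not_dvd_one
    | @insert M T hMT _ ih =>
      intro hsub
      obtain ⟨i1, i2, i3⟩ := ih fun L hL => hsub (Set.mem_insert_of_mem _ hL)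
      have hMD : M ∈ D := hsub (Set.mem_insert _ _)
      have hTD : ∀ L ∈ T, L ∈ D := fun L hL => hsub (Set.mem_insert_of_mem _ hL)
      have hTM : (⨆ L ∈ T, W L : Subgroup G) ≤ centralizer (M : Set G) := by
        refine iSup₂_le fun L hL x hx => ?_
        rw [mem_centralizer_iff]
        intro y hy
        refine hF.comm M (hDF hMD) L (hDF (hTD L hL)) ?_ y hy x (hW L (hTD L hL) hx)
        rintro rfl
        exact hMT hL
      have hsup : (⨆ L ∈ insert M T, W L : Subgroup G) = W M ⊔ ⨆ L ∈ T, W L := iSup_insert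
      have htwo := l3_two (A := W M) (B := ⨆ L ∈ T, W L)
        (fun a ha b hb => (mem_centralizer_iff.1 (hTM hb)) a (hW M hMD ha))
        (hW1 M hMD) i1 (hW2 M hMD) i2
      rw [hsup]
      refine ⟨htwo.1, htwo.2, fun l hl => ?_⟩
      obtain ⟨d, hd, h1⟩ := i3 l hl
      refine ⟨l M * d, mul_mem (mem_sup_left (hl M hMD)) (mem_sup_right hd), ?_⟩
      intro L hL
      rcases Set.mem_insert_iff.1 hL with h | hL2
      · subst h
        exact ⟨d, hTM hd, rfl⟩
      · obtain ⟨c, hc, hdc⟩ := h1 L hL2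
        have hLD : L ∈ D := hTD L hL2
        have hne : L ≠ M := by
          rintro rfl
          exact hMT hL2
        have hlM : l M ∈ centralizer (L : Set G) := by
          rw [mem_centralizer_iff]
          intro y hy
          exact hF.comm L (hDF hLD) M (hDF hMD) hne y hy _ (hW M hMD (hl M hMD))
        refine ⟨l M * c, mul_mem hlM hc, ?_⟩
        have h3 : l L * l M = l M * l L := (mem_centralizer_iff.1 hlM) _ (hW L hLD (hl L hLD))
        rw [hdc, ← mul_assoc, ← h3, mul_assoc]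
  exact key D (Set.toFinite _) (Set.Subset.refl _)

theorem exists_kernel [hp : Fact p.Prime] [Finite G] {F D : Set (Subgroup G)} {S : Set G}
    (hF : Family p F) (hDF : D ⊆ F)
    (hconj : ∀ L ∈ D, ∀ g : G, L.map (MulAut.conj g).toMonoidHom ∈ D)
    (hC : Rest F (∅ : Set (Subgroup G)) = ⊥)
    (hloc : ∀ L ∈ D, LocalGood p S L) {z : G} (hz : z ∈ Sel D S) :
    ∃ W : Subgroup G, W ≤ Gn D ∧ W ≤ Cent0 F D z ∧
      (∀ x ∈ Cent0 F D z, ∀ w ∈ W, x * w * x⁻¹ ∈ W) ∧ Group.IsSolvable W ∧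
      ¬ p ∣ Nat.card W ∧
      (∀ x ∈ Cent0 F D z, x ^ p = 1 → (∀ w ∈ W, x * w = w * x) → x = 1) ∧
      ∀ x ∈ Cent0 F D z, ∀ y ∈ Cent0 F D z, x ^ p = 1 → y ^ p = 1 → x * y * x⁻¹ * y⁻¹ ∈ W := by
  have hgood := sel_good hF hDF hconj hloc hz
  obtain ⟨hz1, hz2⟩ := hz
  choose! s hsS hsL hsz using hz2
  have hker : ∀ L ∈ D, ∃ W : Subgroup G, W ≤ L ⊓ Cn L (s L) ∧ Group.IsSolvable W ∧
      ¬ p ∣ Nat.card W ∧ (∀ x ∈ Cn L (s L), ∀ w ∈ W, x * w * x⁻¹ ∈ W) ∧
      ∀ x ∈ Cn L (s L), x ^ p = 1 →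
        ((∀ w ∈ W, x * w = w * x) → x ∈ centralizer (L : Set G)) ∧
        ∀ y ∈ Cn L (s L), y ^ p = 1 → x * y * x⁻¹ * y⁻¹ ∈ W ⊔ centralizer (L : Set G) :=
    fun L hL => (hloc L hL).kernel (s L) (hsS L hL) (hsL L hL)
  choose! W hW1 hW2 hW3 hW4 hW5 using hker
  have hWL : ∀ L ∈ D, W L ≤ L := fun L hL => (hW1 L hL).trans inf_le_left
  have hWC : ∀ L ∈ D, W L ≤ Cn L (s L) := fun L hL => (hW1 L hL).trans inf_le_right
  obtain ⟨f1, f2, f3⟩ := l3_fin hF hDF W hWL hW2 hW3
  -- elements of `Cent0`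
  have hC0 : ∀ x ∈ Cent0 F D z, x ∈ Rest F D ∧ ∀ L ∈ D, x ∈ Cn L (s L) := by
    intro x hx
    obtain ⟨hx1, hx2⟩ := Subgroup.mem_inf.1 hx
    obtain ⟨hx3, hx4⟩ := Subgroup.mem_inf.1 hx1
    refine ⟨hx3, fun L hL => ?_⟩
    simp only [mem_iInf] at hx2
    exact sel_comm (hF.centre L (hDF hL)) (hsL L hL) (hsz L hL) (hx2 L hL)
      ((mem_centralizer_iff.1 hx4) z rfl).symm
  have hWG : (⨆ L ∈ D, W L : Subgroup G) ≤ Gn D := iSup₂_mono hWL
  have hWR : (⨆ L ∈ D, W L : Subgroup G) ≤ Rest F D :=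
    hWG.trans ((l3_Gn_eq D).le.trans (l3_rest hF hDF))
  have hall : ∀ x ∈ Rest F D, (∀ L ∈ D, x ∈ centralizer (L : Set G)) → x = 1 := by
    intro x hx h
    have h1 : x ∈ Rest F (∅ : Set (Subgroup G)) := by
      refine mem_Rest.2 fun M hM _ => ?_
      by_cases hMD : M ∈ D
      · exact h M hMD
      · exact mem_Rest.1 hx M hM hMD
    rw [hC, mem_bot] at h1
    exact h1
  refine ⟨⨆ L ∈ D, W L, hWG, ?_, ?_, f1, f2, ?_, ?_⟩
  · refine iSup₂_le fun L hL w hw => ?_
    have hwL : w ∈ L := hWL L hL hw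
    have hwG : w ∈ sSup D := (le_sSup hL : L ≤ sSup D) hwL
    refine Subgroup.mem_inf.2 ⟨Subgroup.mem_inf.2 ⟨l3_rest hF hDF hwG, ?_⟩, ?_⟩
    · rw [mem_centralizer_iff]
      intro y hy
      rw [Set.mem_singleton_iff.1 hy]
      have h1 : s L * w = w * s L :=
        (mem_centralizer_iff.1 (Subgroup.mem_inf.1 (hWC L hL hw)).2) _ rfl
      have h2 : w * ((s L)⁻¹ * z) = ((s L)⁻¹ * z) * w := (mem_centralizer_iff.1 (hsz L hL)) w hwL
      calc z * w = s L * (((s L)⁻¹ * z) * w) := by group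
        _ = s L * (w * ((s L)⁻¹ * z)) := by rw [h2]
        _ = (s L * w) * ((s L)⁻¹ * z) := by group
        _ = (w * s L) * ((s L)⁻¹ * z) := by rw [h1]
        _ = w * z := by group
    · simp only [mem_iInf]
      exact fun M hM => sSup_le_norm hF hDF (hDF hM) hwG
  · intro x hx w hw
    have h1 : (⨆ L ∈ D, W L : Subgroup G) ≤
        (⨆ L ∈ D, W L : Subgroup G).comap (MulAut.conj x).toMonoidHom := by
      refine iSup₂_le fun L hL w hw => ?_
      have h2 : W L ≤ ⨆ L ∈ D, W L := le_iSup₂_of_le L hL le_rfl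
      exact h2 (hW4 L hL x ((hC0 x hx).2 L hL) w hw)
    exact h1 hw
  · intro x hx hxp hxw
    refine hall x (hC0 x hx).1 fun L hL => ?_
    refine (hW5 L hL x ((hC0 x hx).2 L hL) hxp).1 fun w hw => hxw w ?_
    exact (le_iSup₂_of_le L hL le_rfl : W L ≤ ⨆ L ∈ D, W L) hw
  · intro x hx y hy hxp hyp
    have h1 : ∀ L ∈ D, ∃ w ∈ W L, ∃ c ∈ centralizer (L : Set G),
        x * y * x⁻¹ * y⁻¹ = w * c := by
      intro L hL
      refine mem_sup_comm (fun a ha b hb => ?_)
        ((hW5 L hL x ((hC0 x hx).2 L hL) hxp).2 y ((hC0 y hy).2 L hL) hyp)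
      exact (mem_centralizer_iff.1 hb) a (hWL L hL ha)
    choose! l hl c hc hlc using h1
    obtain ⟨d, hd, hdc⟩ := f3 l hl
    have h2 : d⁻¹ * (x * y * x⁻¹ * y⁻¹) = 1 := by
      refine hall _ ?_ fun L hL => ?_
      · exact mul_mem (inv_mem (hWR hd)) (mul_mem (mul_mem (mul_mem (hC0 x hx).1 (hC0 y hy).1)
          (inv_mem (hC0 x hx).1)) (inv_mem (hC0 y hy).1))
      · obtain ⟨c', hc', hd'⟩ := hdc L hL
        rw [hlc L hL, hd']
        have h3 : (l L * c')⁻¹ * (l L * c L) = c'⁻¹ * c L := by group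
        rw [h3]
        exact (centralizer (L : Set G)).mul_mem ((centralizer (L : Set G)).inv_mem hc') (hc L hL)
    rw [← inv_mul_eq_one.1 h2]
    exact hd

end

end Vale.Agent.P240.K
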