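import Vale.Agent.P240.V.L3

/-!
P240-L4. Lifting elements of order `p` from the centralizer of `z ∈ Sel D S` to that of `y ∈ Sel D S`.

Let `x ∈ Cent0 F D z`, `x ^ p = 1`. For `L ∈ D` let `s, t ∈ S ∩ L` be the components of `z`, `y`; `x ∈ Cn L s` by
`sel_comm`, so `LocalGood.same` gives `n_L ∈ L` with `x n_L ∈ Cn L t`, `(x n_L) ^ p ∈ centralizer L`. Let
`n ∈ ⨆ L ∈ D, L` act on every `L ∈ D` as `n_L` (`exists_prod`, K/FreeEl.lean; `sSup D = ⨆ L ∈ D, L`). Then
`x n` normalizes all `L ∈ D`, centralizes `F \ D`; `x n y (x n)⁻¹ y⁻¹ ∈ Gn D` acts trivially on all `L ∈ D`, so it is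
`1` (`Family.center_trivial`); `(x n) ^ p` acts on `L` as `(x n_L) ^ p`, i.e. trivially, and centralizes `F \ D`, so it lies
in `Rest F ∅ = ⊥`. -/

namespace Vale.Agent.P240.K

open Finsupp Subgroup

universe u

section
variable {G : Type u} [Group G] {p : ℕ}

lemma l4_pow {L : Subgroup G} {a c : G} (ha : a ∈ normalizer (L : Set G))
    (hc : c ∈ centralizer (L : Set G)) (k : ℕ) :
    ∃ c' ∈ centralizer (L : Set G), (a * c) ^ k = c' * a ^ k := by
  induction k with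
  | zero => exact ⟨1, one_mem _, by simp⟩
  | succ k ih =>
    obtain ⟨c', hc', h⟩ := ih
    have h1 : a ^ (k + 1) * c * (a ^ (k + 1))⁻¹ ∈ centralizer (L : Set G) :=
      conj_centralizer ((normalizer (L : Set G)).pow_mem ha (k + 1)) hc
    refine ⟨c' * (a ^ (k + 1) * c * (a ^ (k + 1))⁻¹), mul_mem hc' h1, ?_⟩
    rw [pow_succ, h, pow_succ]
    group

lemma l4_comm {L : Subgroup G} {a c t c' : G} (ha : a ∈ normalizer (L : Set G))
    (hc : c ∈ centralizer (L : Set G)) (ht : t ∈ L) (hc' : c' ∈ centralizer (L : Set G))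
    (hat : a * t = t * a) :
    (a * c) * (t * c') * (a * c)⁻¹ * (t * c')⁻¹ ∈ centralizer (L : Set G) := by
  have h1 : t * c = c * t := mem_centralizer_iff.1 hc t ht
  have h2 : c * c' * c⁻¹ ∈ centralizer (L : Set G) := mul_mem (mul_mem hc hc') (inv_mem hc)
  have h3 : a * (c * c' * c⁻¹) * a⁻¹ ∈ centralizer (L : Set G) := conj_centralizer ha h2
  have h4 : a * (c * c' * c⁻¹) * a⁻¹ * c'⁻¹ ∈ centralizer (L : Set G) := mul_mem h3 (inv_mem hc')
  have h5 : (a * c) * (t * c') * (a * c)⁻¹ * (t * c')⁻¹ =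
      t * (a * (c * c' * c⁻¹) * a⁻¹ * c'⁻¹) * t⁻¹ := by
    have e1 : (a * c) * (t * c') * (a * c)⁻¹ * (t * c')⁻¹ =
        a * (c * t) * c' * (a * c)⁻¹ * (t * c')⁻¹ := by group
    rw [e1, ← h1]
    have e2 : a * (t * c) * c' * (a * c)⁻¹ * (t * c')⁻¹ =
        (a * t) * c * c' * (a * c)⁻¹ * (t * c')⁻¹ := by group
    rw [e2, hat]
    group
  rw [h5]
  exact conj_centralizer (Subgroup.le_normalizer ht) h4

theorem lift_elt [hp : Fact p.Prime] [Finite G] {F D : Set (Subgroup G)} {S : Set G}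
    (hF : Family p F) (hDF : D ⊆ F)
    (hconj : ∀ L ∈ D, ∀ g : G, L.map (MulAut.conj g).toMonoidHom ∈ D)
    (hC : Rest F (∅ : Set (Subgroup G)) = ⊥)
    (hloc : ∀ L ∈ D, LocalGood p S L) {z y : G} (hz : z ∈ Sel D S) (hy : y ∈ Sel D S)
    {x : G} (hx : x ∈ Cent0 F D z) (hxp : x ^ p = 1) :
    ∃ n ∈ Gn D, x * n ∈ Cent0 F D y ∧ (x * n) ^ p = 1 := by
  have hx1 := Subgroup.mem_inf.1 hx
  have hx2 := Subgroup.mem_inf.1 hx1.1
  have hxN : ∀ L ∈ D, x ∈ normalizer (L : Set G) := fun L hL => by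
    have h1 := mem_iInf.1 hx1.2 L
    exact mem_iInf.1 h1 hL
  have hxz : x * z = z * x := ((mem_centralizer_iff.1 hx2.2) z rfl).symm
  have hsel : ∀ L : Subgroup G, L ∈ D → ∃ t n : G, t ∈ L ∧ t⁻¹ * y ∈ centralizer (L : Set G) ∧
      n ∈ L ∧ x * n ∈ Cn L t ∧ (x * n) ^ p ∈ centralizer (L : Set G) := by
    intro L hL
    obtain ⟨s, hsS, hsL, hsz⟩ := hz.2 L hL
    obtain ⟨t, htS, htL, hty⟩ := hy.2 L hL
    have h1 : x ∈ Cn L s := sel_comm (hF.centre L (hDF hL)) hsL hsz (hxN L hL) hxz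
    obtain ⟨n, hn, hn1, hn2⟩ := ((hloc L hL).same s hsS hsL t htS htL).2 x h1 hxp
    exact ⟨t, n, htL, hty, hn, hn1, hn2⟩
  choose! t l htL hty hlL hlC hlp using hsel
  obtain ⟨d, hd, hdc⟩ := exists_prod hF hDF l hlL
  have hySup : y ∈ sSup D := by
    rw [sSup_eq_iSup]
    exact hy.1
  have hdGn : d ∈ Gn D := by
    rw [Gn, ← sSup_eq_iSup]
    exact hd
  have hdC : ∀ M ∈ F, M ∉ D → d ∈ centralizer (M : Set G) := by
    intro M hM hMD
    have : sSup D ≤ centralizer (M : Set G) := by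
      refine sSup_le fun L hL => ?_
      intro w hw
      rw [mem_centralizer_iff]
      intro v hv
      refine hF.comm M hM L (hDF hL) ?_ v hv w hw
      rintro rfl
      exact hMD hL
    exact this hd
  have hxdR : x * d ∈ Rest F D := mem_Rest.2 fun M hM hMD =>
    mul_mem (mem_Rest.1 hx2.1 M hM hMD) (hdC M hM hMD)
  have hxdN : ∀ L ∈ D, x * d ∈ normalizer (L : Set G) := fun L hL =>
    mul_mem (hxN L hL) (sSup_le_norm hF hDF (hDF hL) hd)
  have hcm : (x * d) * y * (x * d)⁻¹ * y⁻¹ = 1 := by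
    refine hF.center_trivial hDF (mul_mem (sSup_conj hconj (x * d) hySup) (inv_mem hySup))
      fun L hL => ?_
    obtain ⟨c, hc, hdl⟩ := hdc L hL
    have h1 := Subgroup.mem_inf.1 (hlC L hL)
    have h2 : (x * l L) * t L = t L * (x * l L) :=
      ((mem_centralizer_iff.1 h1.2) (t L) rfl).symm
    have h3 := l4_comm h1.1 hc (htL L hL) (hty L hL) h2
    have h4 : x * d = (x * l L) * c := by rw [hdl, mul_assoc]
    have h5 : y = t L * ((t L)⁻¹ * y) := by rw [mul_inv_cancel_left]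
    rw [← h5, ← h4] at h3
    exact h3
  refine ⟨d, hdGn, ?_, ?_⟩
  · refine Subgroup.mem_inf.2 ⟨Subgroup.mem_inf.2 ⟨hxdR, ?_⟩, ?_⟩
    · rw [mem_centralizer_iff]
      intro w hw
      rw [Set.mem_singleton_iff.1 hw]
      have h1 : (x * d) * y * (x * d)⁻¹ = y := mul_inv_eq_one.1 hcm
      exact (mul_inv_eq_iff_eq_mul.1 h1).symm
    · rw [mem_iInf]
      intro L
      rw [mem_iInf]
      exact hxdN L
  · have h1 : (x * d) ^ p ∈ Rest F (∅ : Set (Subgroup G)) := by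
      refine mem_Rest.2 fun M hM _ => ?_
      by_cases hMD : M ∈ D
      · obtain ⟨c, hc, hdl⟩ := hdc M hMD
        have h2 := (Subgroup.mem_inf.1 (hlC M hMD)).1
        obtain ⟨c', hc', h3⟩ := l4_pow h2 hc p
        have h4 : x * d = (x * l M) * c := by rw [hdl, mul_assoc]
        rw [h4, h3]
        exact mul_mem hc' (hlp M hMD)
      · exact (centralizer (M : Set G)).pow_mem (mem_Rest.1 hxdR M hM hMD) p
    rw [hC, mem_bot] at h1
    exact h1

end

end Vale.Agent.P240.K
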