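import Vale.Agent.P240.V.L3

/-!
P240-L5. The Lefschetz number of `z ∈ Sel D S` on `𝒜ₚ(⨆ L ∈ D, L)` does not depend on `z`.

`lam_prod`: by `Set.Finite.induction_on` for `O ⊆ D`: `lam p (Gn O) z = ∏ L ∈ O, lam p L z` for `z ∈ Gn D`
(`Gn (insert L O) = L ⊔ Gn O`, `lam_sup` in V/ProdF.lean, `Fam.gn_comm`, `Fam.gn_inf` in V/Split.lean; `z`
normalizes all members; `lam p ⊥ z = 1` since `Ain p ⊥ = ∅`, `eu_empty`).
`lam_same`: for `L ∈ D` let `s, t` be the components of `z`, `y`. `lam p L z = lam p L s` (`lam_mul_right` with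
`z = s * (s⁻¹ * z)`), `lam p L y = lam p L t`, and `t = g s g⁻¹` with `g ∈ N(L)` (`LocalGood.same`): conjugation by
`g` is an isomorphism of posets, `lam p L (g s g⁻¹) = lam p L s` (`eu_emb` in K/Elements.lean or the transport lemma
used there). -/

namespace Vale.Agent.P240.K

open Finsupp Subgroup

universe u

section
variable {G : Type u} [Group G] {p : ℕ}

lemma l5_eu_empty {α : Type*} [PartialOrder α] : eu (∅ : Set α) = 1 := by
  rw [eu_rec Set.finite_empty]
  simp

lemma l5_lam_bot {z : G} : lam p (⊥ : Subgroup G) z = 1 := by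
  unfold lam
  have h : {E | E ∈ Ain p (⊥ : Subgroup G) ∧ z ∈ normalizer (E : Set G)} = ∅ := by
    rw [Set.eq_empty_iff_forall_notMem]
    rintro E ⟨⟨h1, h2⟩, _⟩
    exact h1.1 (le_bot_iff.1 h2)
  rw [h, l5_eu_empty]

lemma l5_le_nz {R : Subgroup G} {D : Set (Subgroup G)} (hD : Fam p R D) {L : Subgroup G}
    (hL : L ∈ D) : Gn D ≤ normalizer (L : Set G) := by
  unfold Gn
  refine iSup₂_le fun M hM => ?_
  by_cases h : M = L
  · subst h
    exact le_normalizer
  · intro x hx
    exact pf_nz_of_comm (fun y hy => hD.comm M hM L hL h x hx y hy) le_rfl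

lemma l5_prod [hp : Fact p.Prime] [Finite G] {R : Subgroup G} {D : Set (Subgroup G)}
    (hD : Fam p R D) {z : G} (hz : ∀ L ∈ D, z ∈ normalizer (L : Set G)) (T : Set (Subgroup G))
    (hT : T ⊆ D) : lam p (Gn T) z = ∏ L ∈ (Set.toFinite T).toFinset, lam p L z := by
  classical
  induction T, Set.toFinite T using Set.Finite.induction_on with
  | empty =>
    have h1 : Gn (∅ : Set (Subgroup G)) = ⊥ := by
      unfold Gn
      simp
    rw [h1, l5_lam_bot]
    simp
  | @insert L T hLT hTf ih =>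
    have hTD : T ⊆ D := (Set.subset_insert L T).trans hT
    have hLD : L ∈ D := hT (Set.mem_insert L T)
    have h1 : Gn (insert L T) = L ⊔ Gn T := by
      unfold Gn
      exact iSup_insert
    have h2 : Gn ({L} : Set (Subgroup G)) = L := by
      unfold Gn
      exact iSup_singleton
    have hsub : ({L} : Set (Subgroup G)) ⊆ D := Set.singleton_subset_iff.2 hLD
    have hdis : Disjoint ({L} : Set (Subgroup G)) T := Set.disjoint_singleton_left.2 hLT
    have hcom := hD.gn_comm hsub hTD hdis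
    have hint := hD.gn_inf hsub hTD hdis
    rw [h2] at hcom hint
    have h3 : z ∈ normalizer (Gn T : Set G) := by
      refine mem_normalizer_Gn fun M hM => ?_
      rw [cj_eq_iff.2 (hz M (hTD hM))]
      exact hM
    have h4 : (Set.toFinite (insert L T)).toFinset = insert L (Set.toFinite T).toFinset := by
      ext M
      simp
    rw [h1, lam_sup hcom hint (hz L hLD) h3, ih hTD, h4, Finset.prod_insert]
    rw [Set.Finite.mem_toFinset]
    exact hLT

lemma lam_prod [hp : Fact p.Prime] [Finite G] {R : Subgroup G} {D : Set (Subgroup G)}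
    (hD : Fam p R D) {z : G} (hz : z ∈ Gn D) :
    lam p (Gn D) z = ∏ L ∈ (Set.toFinite D).toFinset, lam p L z :=
  l5_prod hD (fun _ hL => l5_le_nz hD hL hz) D subset_rfl

lemma lam_cj [Finite G] {L : Subgroup G} {g s : G} (hg : g ∈ normalizer (L : Set G)) :
    lam p L (g * s * g⁻¹) = lam p L s := by
  have h : {E | E ∈ Ain p L ∧ g * s * g⁻¹ ∈ normalizer (E : Set G)} =
      cjIso g '' {E | E ∈ Ain p L ∧ s ∈ normalizer (E : Set G)} := by
    ext E
    constructor
    · rintro ⟨⟨h1, h2⟩, h3⟩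
      refine ⟨cj g⁻¹ E, ⟨⟨cj_mem_ApS.2 h1, ?_⟩, ?_⟩, ?_⟩
      · have h4 : cj g⁻¹ L = L := cj_eq_iff.2 (inv_mem hg)
        rw [← h4]
        exact cj_le.2 h2
      · rw [← cj_eq_iff] at h3 ⊢
        rw [← cj_mul]
        have h4 : s * g⁻¹ = g⁻¹ * (g * s * g⁻¹) := by group
        rw [h4, cj_mul, h3]
      · change cj g (cj g⁻¹ E) = E
        rw [← cj_mul, mul_inv_cancel, cj_one]
    · rintro ⟨F, ⟨⟨h1, h2⟩, h3⟩, rfl⟩
      change cj g F ∈ Ain p L ∧ g * s * g⁻¹ ∈ normalizer ((cj g F : Subgroup G) : Set G)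
      refine ⟨⟨cj_mem_ApS.2 h1, ?_⟩, ?_⟩
      · have h4 : cj g L = L := cj_eq_iff.2 hg
        rw [← h4]
        exact cj_le.2 h2
      · rw [← cj_eq_iff] at h3 ⊢
        rw [← cj_mul]
        have h4 : g * s * g⁻¹ * g = g * s := by group
        rw [h4, cj_mul, h3]
  unfold lam
  rw [h, eu_image]

theorem lam_same [hp : Fact p.Prime] [Finite G] {F D : Set (Subgroup G)} {S : Set G}
    (hF : Family p F) (hDF : D ⊆ F)
    (hconj : ∀ L ∈ D, ∀ g : G, L.map (MulAut.conj g).toMonoidHom ∈ D)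
    (hloc : ∀ L ∈ D, LocalGood p S L) {z y : G} (hz : z ∈ Sel D S) (hy : y ∈ Sel D S) :
    lam p (Gn D) z = lam p (Gn D) y := by
  have hD : Fam p (⊤ : Subgroup G) D :=
    { le := fun _ _ => le_top
      conj := fun L hL g _ => hconj L hL g
      comm := fun L hL M hM hne => hF.comm L (hDF hL) M (hDF hM) hne
      centre := fun L hL => hF.centre L (hDF hL)
      dvd := fun L hL => hF.dvd L (hDF hL) }
  have key : ∀ L : Subgroup G, ∀ s x : G, s⁻¹ * x ∈ centralizer (L : Set G) →
      lam p L x = lam p L s := by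
    intro L s x hx
    have h1 : lam p L (s * (s⁻¹ * x)) = lam p L s :=
      lam_mul_right fun y hy => (mem_centralizer_iff.1 hx y hy).symm
    rwa [mul_inv_cancel_left] at h1
  rw [lam_prod hD hz.1, lam_prod hD hy.1]
  refine Finset.prod_congr rfl fun L hL => ?_
  rw [Set.Finite.mem_toFinset] at hL
  obtain ⟨s, hs, hsL, hsz⟩ := hz.2 L hL
  obtain ⟨t, ht, htL, hty⟩ := hy.2 L hL
  obtain ⟨⟨g, hg, hgst⟩, _⟩ := (hloc L hL).same s hs hsL t ht htL
  rw [key L s z hsz, key L t y hty, ← hgst, lam_cj hg]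

end

end Vale.Agent.P240.K
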