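import Vale.Agent.P240.V.L1
import Vale.Agent.P240.V.L2
import Vale.Agent.P240.V.L4
import Vale.Agent.P240.V.L5

/-!
P240-L6. The local theorem.

`sign_const`: let `z ∈ Sel D S`, `W` from `exists_kernel`, `k`, `Om` from `comm_sign_sub` for `C = Cent0 F D z`. So
`0 < (-1) ^ k * eu (Ain p (Cent0 F D z))` and `Nat.card Om = p ^ k * Nat.card W`. Put `N = Gn D` (normal in `G`),
`H = N ⊓ centralizer {z}` and apply `comm_sign_sub` to `H`, `W`: `κ`, `Om'`. Then `Om' = Om ⊓ N` (an element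
`x ∈ Om ⊓ N` is `e * w`, `e ∈ Cent0`, `e ^ p = 1`, `w ∈ W ≤ N`, so `e ∈ N ⊓ centralizer {z}`), so
`Nat.card (Om ⊓ N) = p ^ κ * Nat.card W` and `0 < (-1) ^ κ * eu (Ain p H)`, `eu (Ain p H) = lam p N z`
(`GoodElement.lam_eq'`). For another `y ∈ Sel D S`, `Om_z ⊔ N = Om_y ⊔ N` by `lift_elt`, so
`p ^ (k_z - κ_z) = Nat.card Om_z / Nat.card (Om_z ⊓ N)` does not depend on `z`, and the sign of `(-1) ^ κ_z` is that of
`lam p N z`, which does not depend on `z` (`lam_same`). -/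

namespace Vale.Agent.P240.K

open Finsupp Subgroup

universe u v

variable {𝕜 : Type v} [Field 𝕜]

section
variable {G : Type u} [Group G] {p : ℕ}

lemma l6_card [Finite G] {H N : Subgroup G} (hN : N.Normal) :
    Nat.card (H ⊔ N : Subgroup G) * Nat.card (H ⊓ N : Subgroup G) = Nat.card H * Nat.card N := by
  have h1 := Subgroup.relIndex_mul_relIndex ⊥ N (H ⊔ N) bot_le le_sup_right
  have h2 := Subgroup.relIndex_mul_relIndex ⊥ (H ⊓ N) H bot_le inf_le_left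
  rw [relIndex_bot_left, relIndex_bot_left, relIndex_sup_right] at h1
  rw [relIndex_bot_left, relIndex_bot_left, inf_relIndex_left] at h2
  rw [← h1, ← h2]
  ring

lemma l6_normal [Finite G] {D : Set (Subgroup G)}
    (hconj : ∀ L ∈ D, ∀ g : G, L.map (MulAut.conj g).toMonoidHom ∈ D) : (Gn D).Normal := by
  refine ⟨fun n hn g => ?_⟩
  have h1 : g ∈ normalizer (Gn D : Set G) := mem_normalizer_Gn fun L hL => hconj L hL g
  exact (mem_normalizer_iff.1 h1 n).1 hn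

/-- the data attached to one `z` -/
lemma l6_data [hp : Fact p.Prime] [Finite G] {F D : Set (Subgroup G)} {S : Set G}
    (hF : Family p F) (hDF : D ⊆ F)
    (hconj : ∀ L ∈ D, ∀ g : G, L.map (MulAut.conj g).toMonoidHom ∈ D)
    (hC : Rest F (∅ : Set (Subgroup G)) = ⊥)
    (hloc : ∀ L ∈ D, LocalGood p S L) {z : G} (hz : z ∈ Sel D S) :
    ∃ (k κ : ℕ) (Om : Subgroup G), 0 < (-1 : ℤ) ^ k * lam p (Rz (Rest F D) D) z ∧
      0 < (-1 : ℤ) ^ κ * lam p (Gn D) z ∧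
      (∀ x ∈ Cent0 F D z, x ^ p = 1 → x ∈ Om) ∧
      (∀ x ∈ Om, ∃ e ∈ Cent0 F D z, e ^ p = 1 ∧ e⁻¹ * x ∈ Gn D) ∧
      Nat.card (Om ⊔ Gn D : Subgroup G) * p ^ κ = p ^ k * Nat.card (Gn D) := by
  obtain ⟨W, hWN, hWC, hnorm, hsol, hpW, hfaith, hcomm⟩ :=
    exists_kernel hF hDF hconj hC hloc hz
  have hgood := sel_good hF hDF hconj hloc hz
  have hFam := family_Fam hF hDF hconj
  have hNC : Gn D ⊓ centralizer {z} ≤ Cent0 F D z := by
    rw [Cent0_eq]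
    exact inf_le_inf_right _ hFam.gn_le_Rz
  have hCz : Cent0 F D z ≤ centralizer {z} := by
    rw [Cent0_eq]
    exact inf_le_right
  obtain ⟨k, Om, hOmC, hWOm, hcard, hall, hex, hpos⟩ :=
    comm_sign_sub hWC hnorm hsol hpW hfaith hcomm
  obtain ⟨κ, Om', hOmC', hWOm', hcard', hall', hex', hpos'⟩ :=
    comm_sign_sub (C := Gn D ⊓ centralizer {z}) (le_inf hWN (hWC.trans hCz))
      (fun x hx => hnorm x (hNC hx)) hsol hpW (fun x hx => hfaith x (hNC hx))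
      (fun x hx y hy => hcomm x (hNC hx) y (hNC hy))
  have hOmeq : Om ⊓ Gn D = Om' := by
    apply le_antisymm
    · intro x hx
      obtain ⟨hx1, hx2⟩ := Subgroup.mem_inf.1 hx
      obtain ⟨e, he, hep, hew⟩ := hex x hx1
      have heN : e ∈ Gn D := by
        have h1 : e = x * (e⁻¹ * x)⁻¹ := by group
        rw [h1]
        exact mul_mem hx2 (inv_mem (hWN hew))
      have h2 : e ∈ Om' := hall' e (Subgroup.mem_inf.2 ⟨heN, hCz he⟩) hep
      have h3 : x = e * (e⁻¹ * x) := by group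
      rw [h3]
      exact mul_mem h2 (hWOm' hew)
    · intro x hx
      obtain ⟨e, he, hep, hew⟩ := hex' x hx
      refine Subgroup.mem_inf.2 ⟨?_, (Subgroup.mem_inf.1 (hOmC' hx)).1⟩
      have h3 : x = e * (e⁻¹ * x) := by group
      rw [h3]
      exact mul_mem (hall e (hNC he) hep) (hWOm hew)
  refine ⟨k, κ, Om, ?_, ?_, hall, ?_, ?_⟩
  · rw [hgood.lam_eq hF]
    exact hpos
  · rw [hgood.lam_eq' hF]
    exact hpos'
  · intro x hx
    obtain ⟨e, he, hep, hew⟩ := hex x hx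
    exact ⟨e, he, hep, hWN hew⟩
  · have h1 := l6_card (H := Om) (l6_normal hconj)
    rw [hOmeq, hcard, hcard'] at h1
    have hW0 : 0 < Nat.card W := Nat.card_pos
    refine Nat.eq_of_mul_eq_mul_right hW0 ?_
    calc Nat.card (Om ⊔ Gn D : Subgroup G) * p ^ κ * Nat.card W
        = Nat.card (Om ⊔ Gn D : Subgroup G) * (p ^ κ * Nat.card W) := by ring
      _ = p ^ k * Nat.card W * Nat.card (Gn D) := h1
      _ = p ^ k * Nat.card (Gn D) * Nat.card W := by ring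

lemma l6_sup_le [hp : Fact p.Prime] [Finite G] {F D : Set (Subgroup G)} {S : Set G}
    (hF : Family p F) (hDF : D ⊆ F)
    (hconj : ∀ L ∈ D, ∀ g : G, L.map (MulAut.conj g).toMonoidHom ∈ D)
    (hC : Rest F (∅ : Set (Subgroup G)) = ⊥)
    (hloc : ∀ L ∈ D, LocalGood p S L) {z y : G} (hz : z ∈ Sel D S) (hy : y ∈ Sel D S)
    {A B : Subgroup G} (hA : ∀ x ∈ A, ∃ e ∈ Cent0 F D z, e ^ p = 1 ∧ e⁻¹ * x ∈ Gn D)
    (hB : ∀ x ∈ Cent0 F D y, x ^ p = 1 → x ∈ B) : A ⊔ Gn D ≤ B ⊔ Gn D := by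
  refine sup_le ?_ le_sup_right
  intro x hx
  obtain ⟨e, he, hep, hen⟩ := hA x hx
  obtain ⟨n, hn, hn1, hn2⟩ := lift_elt hF hDF hconj hC hloc hz hy he hep
  have h1 : x = (e * n) * (n⁻¹ * (e⁻¹ * x)) := by group
  rw [h1]
  exact mul_mem (Subgroup.mem_sup_left (hB _ hn1 hn2))
    (Subgroup.mem_sup_right (mul_mem (inv_mem hn) hen))

lemma l6_parity {a b : ℕ} {l : ℤ} (h1 : 0 < (-1 : ℤ) ^ a * l) (h2 : 0 < (-1 : ℤ) ^ b * l) :
    (-1 : ℤ) ^ a = (-1 : ℤ) ^ b := by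
  rcases neg_one_pow_eq_or ℤ a with ha | ha <;> rcases neg_one_pow_eq_or ℤ b with hb | hb
  · rw [ha, hb]
  · rw [ha] at h1; rw [hb] at h2; linarith
  · rw [ha] at h1; rw [hb] at h2; linarith
  · rw [ha, hb]

theorem sign_const [hp : Fact p.Prime] [Finite G] {F D : Set (Subgroup G)} {S : Set G}
    (hF : Family p F) (hDF : D ⊆ F)
    (hconj : ∀ L ∈ D, ∀ g : G, L.map (MulAut.conj g).toMonoidHom ∈ D)
    (hC : Rest F (∅ : Set (Subgroup G)) = ⊥)
    (hloc : ∀ L ∈ D, LocalGood p S L) :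
    ∃ k : ℕ, ∀ z ∈ Sel D S, 0 < (-1 : ℤ) ^ k * lam p (Rz (Rest F D) D) z := by
  by_cases hne : (Sel D S).Nonempty
  swap
  · exact ⟨0, fun z hz => absurd ⟨z, hz⟩ hne⟩
  obtain ⟨y, hy⟩ := hne
  obtain ⟨k, κ, Om, hk, hκ, hall, hex, hcard⟩ := l6_data hF hDF hconj hC hloc hy
  refine ⟨k, fun z hz => ?_⟩
  obtain ⟨k', κ', Om', hk', hκ', hall', hex', hcard'⟩ := l6_data hF hDF hconj hC hloc hz
  have hsup : Om ⊔ Gn D = Om' ⊔ Gn D :=
    le_antisymm (l6_sup_le hF hDF hconj hC hloc hy hz hex hall')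
      (l6_sup_le hF hDF hconj hC hloc hz hy hex' hall)
  rw [← hsup] at hcard'
  have hT : 0 < Nat.card (Om ⊔ Gn D : Subgroup G) := Nat.card_pos
  have hN : 0 < Nat.card (Gn D) := Nat.card_pos
  have hpow : p ^ (k + κ') = p ^ (k' + κ) := by
    have h1 : Nat.card (Om ⊔ Gn D : Subgroup G) * Nat.card (Gn D) * p ^ (k + κ') =
        Nat.card (Om ⊔ Gn D : Subgroup G) * Nat.card (Gn D) * p ^ (k' + κ) := by
      calc Nat.card (Om ⊔ Gn D : Subgroup G) * Nat.card (Gn D) * p ^ (k + κ')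
          = (p ^ k * Nat.card (Gn D)) * (Nat.card (Om ⊔ Gn D : Subgroup G) * p ^ κ') := by
            rw [pow_add]; ring
        _ = (Nat.card (Om ⊔ Gn D : Subgroup G) * p ^ κ) * (p ^ k' * Nat.card (Gn D)) := by
            rw [hcard, hcard']
        _ = Nat.card (Om ⊔ Gn D : Subgroup G) * Nat.card (Gn D) * p ^ (k' + κ) := by
            rw [pow_add]; ring
    exact Nat.eq_of_mul_eq_mul_left (Nat.mul_pos hT hN) h1
  have hexp : k + κ' = k' + κ := Nat.pow_right_injective hp.out.two_le hpow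
  have hsame : lam p (Gn D) z = lam p (Gn D) y := lam_same hF hDF hconj hloc hz hy
  rw [hsame] at hκ'
  have hpar := l6_parity hκ hκ'
  have hkk : (-1 : ℤ) ^ k = (-1 : ℤ) ^ k' := by
    have h1 : (-1 : ℤ) ^ k * (-1 : ℤ) ^ κ' = (-1 : ℤ) ^ k' * (-1 : ℤ) ^ κ := by
      rw [← pow_add, ← pow_add, hexp]
    rw [hpar] at h1
    exact mul_right_cancel₀ (pow_ne_zero _ (by norm_num)) h1
  rw [hkk]
  exact hk'

theorem sel_nonempty [hp : Fact p.Prime] [Finite G] {F D : Set (Subgroup G)} {S : Set G}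
    (hF : Family p F) (hDF : D ⊆ F) (hloc : ∀ L ∈ D, LocalGood p S L) : (Sel D S).Nonempty := by
  have h := fun L hL => (hloc L hL).ne
  choose! l hlS hlL using h
  obtain ⟨d, hd, hdc⟩ := exists_prod hF hDF l hlL
  refine ⟨d, ?_, fun L hL => ⟨l L, hlS L hL, hlL L hL, ?_⟩⟩
  · rw [sSup_eq_iSup] at hd
    exact hd
  · obtain ⟨c, hc, hdc⟩ := hdc L hL
    rw [hdc, inv_mul_cancel_left]
    exact hc

theorem local_fam [hp : Fact p.Prime] [Finite G] {F D : Set (Subgroup G)} {S : Set G}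
    (hF : Family p F) (hDF : D ⊆ F)
    (hconj : ∀ L ∈ D, ∀ g : G, L.map (MulAut.conj g).toMonoidHom ∈ D)
    (hC : Rest F (∅ : Set (Subgroup G)) = ⊥)
    (hloc : ∀ L ∈ D, LocalGood p S L) (hT : ∀ L ∈ F, L ∈ D ∨ Removable 𝕜 p L) : HQ 𝕜 p G := by
  obtain ⟨k, hk⟩ := sign_const hF hDF hconj hC hloc
  refine prod_main (r := 0) hF hDF hconj
    (fun L hL h _ hp' hn s hs hsL => (hloc L hL).move h hp' hn s hs hsL) hp.out.ne_zero.symm ?_ ?_
  · rw [Nat.cast_zero, zero_dvd_iff]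
    intro h0
    obtain ⟨y, hy⟩ := sel_nonempty hF hDF hloc
    have h1 : 0 < ∑ z ∈ (Set.toFinite (Sel D S)).toFinset,
        (-1 : ℤ) ^ k * lam p (Rz (Rest F D) D) z :=
      Finset.sum_pos (fun z hz => hk z ((Set.Finite.mem_toFinset _).1 hz))
        ⟨y, (Set.Finite.mem_toFinset _).2 hy⟩
    rw [← Finset.mul_sum, h0, mul_zero] at h1
    exact lt_irrefl _ h1
  · intro L hL
    rcases hT L hL with h | h
    · exact Or.inl h
    · exact Or.inr (Or.inl h)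

theorem local_main [hp : Fact p.Prime] [Finite G] (hO : OpTrivial p G)
    (hO' : ∀ N : Subgroup G, N.Normal → ¬ p ∣ Nat.card N → N = ⊥) (D : Set (Subgroup G))
    (S : Set G) (hDF : D ⊆ Comp G)
    (hconj : ∀ L ∈ D, ∀ g : G, L.map (MulAut.conj g).toMonoidHom ∈ D)
    (hloc : ∀ L ∈ D, LocalGood p S L) (hT : ∀ L ∈ Comp G, L ∈ D ∨ Removable 𝕜 p L) :
    HQ 𝕜 p G :=
  local_fam (comp_family hO hO') hDF hconj (comp_rest hO hO') hloc hT

end

end Vale.Agent.P240.K
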