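import Vale.Agent.P240.V.Final

/-!
P240-L7. The version with strong elements and free `r`-subgroups.

`T` = the removable members outside `D`. Suppose `𝒜ₚ(Cen T)` is `ℚ`-acyclic (`hac`). `Fam.trick` for `R = Cen T`, `D`
over `ℂ` with a primitive `p`-th root of unity `ζ` (as in `twisted`, case `r = 0`, in V/Main.lean; `lam p R g = 0` for
`g ∈ R` by `eu_fixed_zero` in K/WMain.lean) gives `∑ g ∈ Sel D S, lam p (Rz (Cen T) D) g = 0`. For `g ∈ Sel D S` an
`E ∈ Ain p (Rz (Cen T) D)` normalized by `g` centralizes all `L ∈ D` by `free`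
(`g` acts on `L` as some `s ∈ S ∩ L`), so lies in `Cen (T ∪ D)`, and conversely every `E ∈ Ain p (Cen (T ∪ D))` is
centralized by `g ∈ Gn D`; so `lam p (Rz (Cen T) D) g = eu (Ain p (Cen (T ∪ D)))` for all `g ∈ Sel D S`, hence
`eu (Ain p (Cen (T ∪ D))) = 0` (`Sel D S` is nonempty: `exists_prod`). Now `mod_r` (K/WFinal.lean) with `S = T ∪ D`,
`D = ∅`, `z = 1` shows that `r` divides `eu (Ain p (Rest F ∅ ⊓ centralizer {1})) = eu ∅ = 1` up to sign:
contradiction (`r` is prime if `F ≠ T ∪ D`; if `F = T ∪ D` then `Cen (T ∪ D) = Rest F ∅ = ⊥` and `eu ∅ = 1 ≠ 0`;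
`mod_r` covers both cases for `r ≠ 1`; if `r` is not prime, use `r = 0`). -/

namespace Vale.Agent.P240.K

open Finsupp Subgroup

universe u v

variable {𝕜 : Type v} [Field 𝕜]

section
variable {G : Type u} [Group G] {p : ℕ}

lemma l7_eu_bot [Finite G] : eu (Ain p (⊥ : Subgroup G)) = 1 := by
  rw [eu_Ain]
  have h : (Set.toFinite {X : Subgroup G | X ∈ ApB p G ∧ X ≤ ⊥}).toFinset = {⊥} := by
    ext X
    rw [Set.Finite.mem_toFinset, Finset.mem_singleton]
    constructor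
    · rintro ⟨_, h⟩
      exact le_bot_iff.1 h
    · rintro rfl
      exact ⟨Or.inl rfl, le_rfl⟩
  rw [h, Finset.sum_singleton, mb, if_pos rfl]

/-- an element acting on `L` like `s ∈ L` acts on `E` like `s` modulo the centralizer of `L` -/
lemma l7_act {L E : Subgroup G} {s g e : G} (hs : s ∈ L) (hg : s⁻¹ * g ∈ centralizer (L : Set G))
    (hgE : g ∈ normalizer (E : Set G)) (hEL : E ≤ normalizer (L : Set G)) (he : e ∈ E) :
    s * e * s⁻¹ ∈ E ⊔ centralizer (L : Set G) := by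
  set c := s⁻¹ * g with hc
  have h1 : g * e * g⁻¹ ∈ E := (mem_normalizer_iff.1 hgE e).1 he
  have h2 : e⁻¹ * c⁻¹ * e * c ∈ centralizer (L : Set G) := by
    refine mul_mem ?_ hg
    have h3 := conj_centralizer (hEL (E.inv_mem he)) ((centralizer (L : Set G)).inv_mem hg)
    rwa [inv_inv] at h3
  have h5 : c * (e⁻¹ * c⁻¹ * e * c) * c⁻¹ ∈ centralizer (L : Set G) :=
    mul_mem (mul_mem hg h2) ((centralizer (L : Set G)).inv_mem hg)
  have h6 : s * (c * (e⁻¹ * c⁻¹ * e * c) * c⁻¹) * s⁻¹ ∈ centralizer (L : Set G) :=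
    conj_centralizer (Subgroup.le_normalizer hs) h5
  have h7 : s * e * s⁻¹ = (g * e * g⁻¹) * (s * (c * (e⁻¹ * c⁻¹ * e * c) * c⁻¹) * s⁻¹)  := by
    rw [hc]
    group
  rw [h7]
  exact mul_mem (mem_sup_left h1) (mem_sup_right h6)

theorem strong_fam [hp : Fact p.Prime] [Finite G] {F D : Set (Subgroup G)} {S : Set G}
    (hF : Family p F) (hDF : D ⊆ F)
    (hconj : ∀ L ∈ D, ∀ g : G, L.map (MulAut.conj g).toMonoidHom ∈ D)
    (hC : Rest F (∅ : Set (Subgroup G)) = ⊥)
    (hne : ∀ L ∈ D, ∃ s ∈ S, s ∈ L)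
    (hS : ∀ L ∈ D, ∀ h : G, h ^ p = 1 → h ∉ normalizer (L : Set G) → ∀ s ∈ S, s ∈ L →
      h * s * h⁻¹ ∈ S)
    (hfree : ∀ L ∈ D, ∀ s ∈ S, s ∈ L → ∀ E ≤ normalizer (L : Set G), ElemAb p E →
      (∀ e ∈ E, s * e * s⁻¹ ∈ E ⊔ centralizer (L : Set G)) → E ≤ centralizer (L : Set G))
    {r : ℕ} (hrp : r ≠ p)
    (hT : ∀ L ∈ F, L ∈ D ∨ Removable 𝕜 p L ∨ (r.Prime ∧ FreeSub p r L)) : HQ 𝕜 p G := by
  classical
  rw [HQ_iff]
  set T : Set (Subgroup G) := {L | L ∈ F ∧ L ∉ D ∧ Removable 𝕜 p L} with hTdef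
  refine remove hF (T := T) (fun L hL => hL.1) (fun L hL => hL.2.2) (NA_of_rat (Set.toFinite _) ?_)
  by_contra hac
  have hFam : Fam p (Cen T) D :=
    { le := fun L hL => hF.le_Cen (fun M hM => hM.1) (hDF hL) fun h => h.2.1 hL
      conj := fun L hL g _ => hconj L hL g
      comm := fun L hL M hM h => hF.comm L (hDF hL) M (hDF hM) h
      centre := fun L hL => hF.centre L (hDF hL)
      dvd := fun L hL => hF.dvd L (hDF hL) }
  -- the twisted sum vanishes
  have hsum : ∑ g ∈ (Set.toFinite (Sel D S)).toFinset, (lam p (Rz (Cen T) D) g : ℂ) = 0 := by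
    have hζ := Complex.isPrimitiveRoot_exp p hp.out.ne_zero
    have h1 := hFam.trick (S := S) (fun L hL h _ => hS L hL h) (K := ℂ) hζ.pow_eq_one
    rw [Finset.sum_eq_zero] at h1
    · rcases mul_eq_zero.1 h1.symm with h | h
      · exact absurd h (pow_ne_zero _ (sub_ne_zero.2 (hζ.ne_one hp.out.one_lt)))
      · exact h
    · intro g hg
      rw [Set.Finite.mem_toFinset] at hg
      have h2 : lam p (Cen T) g = 0 := eu_fixed_zero hac (hFam.gn_le hg)
      rw [h2, Int.cast_zero, mul_zero]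
  -- all summands are equal
  have hlam : ∀ g ∈ Sel D S, lam p (Rz (Cen T) D) g = eu (Ain p (Cen (T ∪ D))) := by
    intro g hg
    rw [lam]
    congr 1
    ext E
    constructor
    · rintro ⟨⟨hE1, hE2⟩, hE3⟩
      refine ⟨hE1, fun x hx => mem_Cen.2 fun L hL => ?_⟩
      rcases hL with hL | hL
      · exact mem_Cen.1 (mem_Rz.1 (hE2 hx)).1 L hL
      · obtain ⟨s, hsS, hsL, hsg⟩ := hg.2 L hL
        have hEL : E ≤ normalizer (L : Set G) := fun y hy => (mem_Rz.1 (hE2 hy)).2 L hL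
        exact hfree L hL s hsS hsL E hEL hE1 (fun e he => l7_act hsL hsg hE3 hEL he) hx
    · rintro ⟨hE1, hE2⟩
      refine ⟨⟨hE1, fun x hx => mem_Rz.2 ⟨mem_Cen.2 fun L hL => ?_, fun L hL => ?_⟩⟩, ?_⟩
      · exact mem_Cen.1 (hE2 hx) L (Or.inl hL)
      · exact mem_of_comm fun y hy =>
          (mem_centralizer_iff.1 (mem_Cen.1 (hE2 hx) L (Or.inr hL)) y hy).symm
      · refine mem_of_comm fun y hy => ?_
        have h1 : (⨆ L ∈ D, L : Subgroup G) ≤ centralizer {y} := by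
          refine iSup₂_le fun L hL z hz => ?_
          rw [mem_centralizer_iff]
          intro w hw
          rw [Set.mem_singleton_iff.1 hw]
          exact (mem_centralizer_iff.1 (mem_Cen.1 (hE2 hy) L (Or.inr hL)) z hz).symm
        exact ((mem_centralizer_iff.1 (h1 hg.1)) y rfl).symm
  -- `Sel D S` is nonempty
  obtain ⟨g₀, hg₀⟩ : (Sel D S).Nonempty := by
    have hne' : ∀ L : Subgroup G, ∃ s : G, L ∈ D → s ∈ S ∧ s ∈ L := by
      intro L
      by_cases hL : L ∈ D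
      · obtain ⟨s, h1, h2⟩ := hne L hL
        exact ⟨s, fun _ => ⟨h1, h2⟩⟩
      · exact ⟨1, fun h => absurd h hL⟩
    choose l hl using hne'
    obtain ⟨d, hd, hdc⟩ := exists_prod hF hDF l (fun L hL => (hl L hL).2)
    refine ⟨d, by rwa [sSup_eq_iSup] at hd, fun L hL => ⟨l L, (hl L hL).1, (hl L hL).2, ?_⟩⟩
    obtain ⟨c, hc, hdL⟩ := hdc L hL
    rw [hdL, inv_mul_cancel_left]
    exact hc
  have heu : eu (Ain p (Cen (T ∪ D))) = 0 := by
    have h1 : ∑ g ∈ (Set.toFinite (Sel D S)).toFinset, (lam p (Rz (Cen T) D) g : ℂ) =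
        ((Set.toFinite (Sel D S)).toFinset.card : ℂ) * (eu (Ain p (Cen (T ∪ D))) : ℂ) := by
      rw [Finset.sum_congr rfl (g := fun _ => (eu (Ain p (Cen (T ∪ D))) : ℂ))
        (fun g hg => by rw [hlam g ((Set.Finite.mem_toFinset _).1 hg)]), Finset.sum_const,
        nsmul_eq_mul]
    rw [hsum] at h1
    rcases mul_eq_zero.1 h1.symm with h | h
    · exfalso
      have h2 : (Set.toFinite (Sel D S)).toFinset.card = 0 := by exact_mod_cast h
      rw [Finset.card_eq_zero] at h2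
      have h3 : g₀ ∈ (Set.toFinite (Sel D S)).toFinset := (Set.Finite.mem_toFinset _).2 hg₀
      rw [h2] at h3
      exact absurd h3 (Finset.notMem_empty _)
    · exact_mod_cast h
  have hfin : ∀ r' : ℕ, r' ≠ p → (∀ L ∈ F, L ∉ T ∪ D → L ∉ (∅ : Set (Subgroup G)) →
      r'.Prime ∧ FreeSub p r' L) → (r' : ℤ) ∣ 1 := by
    intro r' hr' hT'
    have h1 := mod_r (D := (∅ : Set (Subgroup G))) (S := T ∪ D) (z := 1) hF
      (fun L hL => hL.elim (fun h => h.1) fun h => hDF h) (fun L _ => Set.notMem_empty L)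
      (one_mem _) hr' hT'
    have h2 : centralizer ({1} : Set G) = ⊤ := by
      rw [eq_top_iff]
      intro x _
      rw [mem_centralizer_iff]
      intro y hy
      rw [Set.mem_singleton_iff.1 hy, one_mul, mul_one]
    rw [h2, inf_top_eq, inf_top_eq, hC, heu, l7_eu_bot, zero_sub, dvd_neg] at h1
    exact h1
  have hT' : ∀ L ∈ F, L ∉ T ∪ D → r.Prime ∧ FreeSub p r L := by
    intro L hL hLT
    rcases hT L hL with h | h | h
    · exact absurd (Or.inr h) hLT
    · by_cases hLD : L ∈ D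
      · exact absurd (Or.inr hLD) hLT
      · exact absurd (Or.inl ⟨hL, hLD, h⟩) hLT
    · exact h
  by_cases hr : r.Prime
  · have h1 := hfin r hrp fun L h1 h2 _ => hT' L h1 h2
    have h2 : r ∣ 1 := by exact_mod_cast h1
    exact hr.one_lt.ne' (Nat.dvd_one.1 h2)
  · have h1 := hfin 0 hp.out.ne_zero.symm fun L h1 h2 _ => absurd (hT' L h1 h2).1 hr
    rw [Nat.cast_zero, zero_dvd_iff] at h1
    exact one_ne_zero h1

end

end Vale.Agent.P240.K
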