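import Vale.Agent.P240.V.L8C

/-!
P240-L8. Quotients by normal `p'`-subgroups: `HQ(G/X) ⟹ HQ(G)` if `|X|` is prime to `p` and invertible in `𝕜`.

Let `π = QuotientGroup.mk' X`. `E ↦ E.map π` maps `𝒜ₚ(G)` to `𝒜ₚ(G ⧸ X)` and strictly increasing lists to
strictly increasing lists (`E ⊓ X = ⊥`, so orders are preserved).
(a) lifting: every strictly increasing list `m` of members of `𝒜ₚ(G ⧸ X)` is the image of a strictly increasing list
(let `F` be the last (largest) member, lift `F` to `P ∈ 𝒜ₚ(G)` as in `cs_lift` (V/CmSign.lean, Schur-Zassenhaus), and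
lift the other members `F'` to `P ⊓ F'.comap π`).
(b) uniqueness: if two strictly increasing lists have the same image, then one is the conjugate of the other by an
element of `X` (the largest members `P, P'` are Sylow `p`-subgroups of `P ⊔ X = P' ⊔ X`, so conjugate by an element
of `P ⊔ X`, hence by `x ∈ X`; then the other members agree since `E = P ⊓ (E ⊔ X)` for `E ≤ P`).
(c) transfer: `t m = ∑ x ∈ X, single (x • (a lift of m)) 1`, extended linearly to chains; by (b) it does not depend
on the lift, so it commutes with `bd` (a lift with the `i`-th member erased is a lift of the list with the `i`-th member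
erased), and `π_* (t m) = |X| • m`, where `π_*` is `Finsupp.mapDomain (List.map ...)`, which commutes with `bd`.
(d) a cycle `z` of `𝒜ₚ(G ⧸ X)` that is not a boundary gives the cycle `t z`; if `t z = bd c`, then `|X| • z = bd (π_* c)`.
Use `HomologyNonzero`, `IsChain`, `bd` of K/Defs.lean directly (or the library lemmas on chains in K).
-/

namespace Vale.Agent.P240.K

open Finsupp Subgroup

universe u v

variable {𝕜 : Type v} [Field 𝕜]

section
variable {G : Type u} [Group G] {p : ℕ}

theorem HQ_quotient [hp : Fact p.Prime] [Finite G] (X : Subgroup G) [hX : X.Normal]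
    (hpX : ¬ p ∣ Nat.card X) (hk : (Nat.card X : 𝕜) ≠ 0) (h : HQ 𝕜 p (G ⧸ X)) : HQ 𝕜 p G :=
  HQ_quotient_aux X hpX hk h

end

end Vale.Agent.P240.K
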