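import Vale.Agent.P240.V.L8G

/-! P240-L8, chains: transfer. -/

namespace Vale.Agent.P240.K

open Finsupp Subgroup

universe u v

variable {𝕜 : Type v} [Field 𝕜]

section
variable {G : Type u} [Group G] {p : ℕ}

theorem l8_exists_lift [hp : Fact p.Prime] [Finite G] {X : Subgroup G} [hX : X.Normal]
    (hpX : ¬ p ∣ Nat.card X) {m : List (Subgroup (G ⧸ X))} (hm : st (ApS p (G ⧸ X)) m) :
    ∃ l : List (Subgroup G), st (ApS p G) l ∧
      l.map (Subgroup.map (QuotientGroup.mk' X)) = m := by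
  rcases m with _ | ⟨F, m⟩
  · exact ⟨[], ⟨List.Pairwise.nil, by simp⟩, rfl⟩
  · obtain ⟨P, hP, hPF⟩ := l8_lift_one hpX (hm.2 F (by simp))
    let g : Subgroup (G ⧸ X) → Subgroup G := fun F' => P ⊓ F'.comap (QuotientGroup.mk' X)
    have hg : ∀ F' ≤ F, (g F').map (QuotientGroup.mk' X) = F' := by
      intro F' hF'
      apply le_antisymm
      · rintro _ ⟨x, hx, rfl⟩
        exact hx.2
      · intro y hy
        have h1 : y ∈ P.map (QuotientGroup.mk' X) := hPF ▸ hF' hy
        obtain ⟨x, hx, rfl⟩ := h1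
        exact ⟨x, ⟨hx, hy⟩, rfl⟩
    have hle : ∀ F' ∈ F :: m, F' ≤ F := by
      intro F' hF'
      rcases List.mem_cons.1 hF' with h | h
      · exact h.le
      · exact ((List.pairwise_cons.1 hm.1).1 F' h).le
    refine ⟨(F :: m).map g, ⟨?_, ?_⟩, ?_⟩
    · rw [List.pairwise_map]
      refine hm.1.imp_of_mem fun {a b} ha hb hab => ?_
      refine lt_of_le_of_ne (inf_le_inf_left P (Subgroup.comap_mono hab.le)) fun he => ?_
      apply hab.ne
      rw [← hg a (hle a ha), ← hg b (hle b hb)]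
      exact congrArg _ he
    · intro E hE
      obtain ⟨F', hF', rfl⟩ := List.mem_map.1 hE
      refine ⟨?_, fun x hx y hy => hP.2.1 x hx.1 y hy.1, fun x hx => hP.2.2 x hx.1⟩
      intro h0
      apply (hm.2 F' hF').1
      rw [← hg F' (hle F' hF'), h0, Subgroup.map_bot]
    · rw [List.map_map]
      conv_rhs => rw [← List.map_id (F :: m)]
      refine List.map_congr_left fun F' hF' => ?_
      exact hg F' (hle F' hF')

theorem l8_lists_aux [hp : Fact p.Prime] [Finite G] {X : Subgroup G} [hX : X.Normal]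
    (hpX : ¬ p ∣ Nat.card X) {P P' : Subgroup G} (hP' : P' ∈ ApS p G) {x : G} (hx : x ∈ X)
    (hPP' : P' = l8c x P) :
    ∀ l l' : List (Subgroup G), (∀ E ∈ l, E ≤ P) → (∀ E ∈ l', E ≤ P') →
      l.map (Subgroup.map (QuotientGroup.mk' X)) = l'.map (Subgroup.map (QuotientGroup.mk' X)) →
      l' = l.map (l8c x) := by
  intro l
  induction l with
  | nil =>
    intro l' _ _ h
    simpa using h.symm
  | cons E l ih =>
    intro l' h1 h2 h
    rcases l' with _ | ⟨E', l'⟩
    · simp at h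
    · rw [List.map_cons, List.map_cons, List.cons.injEq] at h
      rw [List.map_cons]
      congr 1
      · have h3 : l8c x E ≤ P' := by
          rw [hPP']
          exact Subgroup.map_mono (h1 E (by simp))
        refine l8_inj_eq hpX hP' (h2 E' (by simp)) h3 ?_
        rw [l8c_map hx, h.1]
      · exact ih l' (fun F hF => h1 F (by simp [hF])) (fun F hF => h2 F (by simp [hF])) h.2

theorem l8_lists [hp : Fact p.Prime] [Finite G] {X : Subgroup G} [hX : X.Normal]
    (hpX : ¬ p ∣ Nat.card X) {l l' : List (Subgroup G)} (hl : st (ApS p G) l)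
    (hl' : st (ApS p G) l')
    (h : l.map (Subgroup.map (QuotientGroup.mk' X)) =
      l'.map (Subgroup.map (QuotientGroup.mk' X))) : ∃ x ∈ X, l' = l.map (l8c x) := by
  rcases l with _ | ⟨P, l⟩
  · exact ⟨1, X.one_mem, by simpa using h.symm⟩
  · rcases l' with _ | ⟨P', l'⟩
    · simp at h
    · have h0 := h
      rw [List.map_cons, List.map_cons, List.cons.injEq] at h
      obtain ⟨x, hx, hPP'⟩ := l8_conj hpX (hl.2 P (by simp)) (hl'.2 P' (by simp)) h.1
      refine ⟨x, hx, l8_lists_aux hpX (hl'.2 P' (by simp)) hx hPP' _ _ ?_ ?_ h0⟩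
      · intro E hE
        rcases List.mem_cons.1 hE with h | h
        · exact h.le
        · exact ((List.pairwise_cons.1 hl.1).1 E h).le
      · intro E hE
        rcases List.mem_cons.1 hE with h | h
        · exact h.le
        · exact ((List.pairwise_cons.1 hl'.1).1 E h).le

/-- Sum over the conjugates under `X`. -/
noncomputable def l8av (𝕜 : Type v) [Field 𝕜] (X : Subgroup G) [Fintype X] :
    Ch 𝕜 (Subgroup G) →ₗ[𝕜] Ch 𝕜 (Subgroup G) := ∑ x : X, mp (l8c (x : G))

theorem l8av_apply (X : Subgroup G) [Fintype X] (c : Ch 𝕜 (Subgroup G)) :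
    l8av 𝕜 X c = ∑ x : X, mp (l8c (x : G)) c := by
  rw [l8av, LinearMap.sum_apply]

theorem l8av_bd (X : Subgroup G) [Fintype X] (c : Ch 𝕜 (Subgroup G)) :
    bd (l8av 𝕜 X c) = l8av 𝕜 X (bd c) := by
  rw [l8av_apply, l8av_apply, map_sum]
  exact Finset.sum_congr rfl fun x _ => bd_mp _ _

theorem l8av_mp (X : Subgroup G) [hX : X.Normal] [Fintype X] (c : Ch 𝕜 (Subgroup G)) :
    mp (Subgroup.map (QuotientGroup.mk' X)) (l8av 𝕜 X c) =
      (Nat.card X : 𝕜) • mp (Subgroup.map (QuotientGroup.mk' X)) c := by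
  rw [l8av_apply, map_sum]
  have h1 : ∀ x : X, mp (𝕜 := 𝕜) (Subgroup.map (QuotientGroup.mk' X)) (mp (l8c (x : G)) c) =
      mp (Subgroup.map (QuotientGroup.mk' X)) c := by
    intro x
    rw [mp_mp]
    have h2 : (Subgroup.map (QuotientGroup.mk' X)) ∘ (l8c (x : G)) =
        Subgroup.map (QuotientGroup.mk' X) := by
      funext E
      exact l8c_map x.2 E
    rw [h2]
  rw [Finset.sum_congr rfl fun x _ => h1 x, Finset.sum_const, Finset.card_univ,
    ← Nat.card_eq_fintype_card, Nat.cast_smul_eq_nsmul]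

theorem l8av_conj (X : Subgroup G) [Fintype X] {x : G} (hx : x ∈ X) (l : List (Subgroup G)) :
    l8av 𝕜 X (single (l.map (l8c x)) 1) = l8av 𝕜 X (single l 1) := by
  rw [l8av_apply, l8av_apply]
  refine Fintype.sum_equiv (Equiv.mulRight (⟨x, hx⟩ : X)) _ _ fun y => ?_
  rw [mp_single, mp_single, List.map_map]
  congr 1
  refine List.map_congr_left fun E _ => ?_
  exact (l8c_mul (y : G) x E).symm

open Classical in
/-- The transfer. -/
noncomputable def l8T (𝕜 : Type v) [Field 𝕜] (p : ℕ) (X : Subgroup G) [X.Normal] [Fintype X] :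
    Ch 𝕜 (Subgroup (G ⧸ X)) →ₗ[𝕜] Ch 𝕜 (Subgroup G) :=
  Finsupp.linearCombination 𝕜 fun m =>
    if h : ∃ l : List (Subgroup G), st (ApS p G) l ∧
      l.map (Subgroup.map (QuotientGroup.mk' X)) = m then l8av 𝕜 X (single h.choose 1) else 0

theorem l8T_single [hp : Fact p.Prime] [Finite G] {X : Subgroup G} [hX : X.Normal] [Fintype X]
    (hpX : ¬ p ∣ Nat.card X) {l : List (Subgroup G)} (hl : st (ApS p G) l)
    {m : List (Subgroup (G ⧸ X))} (hm : l.map (Subgroup.map (QuotientGroup.mk' X)) = m) :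
    l8T 𝕜 p X (single m 1) = l8av 𝕜 X (single l 1) := by
  have h : ∃ l : List (Subgroup G), st (ApS p G) l ∧
      l.map (Subgroup.map (QuotientGroup.mk' X)) = m := ⟨l, hl, hm⟩
  rw [l8T, Finsupp.linearCombination_single, one_smul, dif_pos h]
  obtain ⟨x, hx, hxl⟩ := l8_lists hpX hl h.choose_spec.1 (hm.trans h.choose_spec.2.symm)
  rw [hxl, l8av_conj X hx]

theorem HQ_quotient_aux [hp : Fact p.Prime] [Finite G] (X : Subgroup G) [hX : X.Normal]
    (hpX : ¬ p ∣ Nat.card X) (hk : (Nat.card X : 𝕜) ≠ 0) (h : HQ 𝕜 p (G ⧸ X)) : HQ 𝕜 p G := by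
  classical
  have : Fintype X := Fintype.ofFinite X
  rw [HQ_iff] at h ⊢
  obtain ⟨z, hz, hbz, hne⟩ := h
  have hbd : ∀ c ∈ Sp 𝕜 (st (ApS p (G ⧸ X))), bd (l8T 𝕜 p X c) = l8T 𝕜 p X (bd c) := by
    intro c hc
    refine eq_of_Sp (F := bd.comp (l8T 𝕜 p X)) (G := (l8T 𝕜 p X).comp bd) (fun m hm => ?_) hc
    obtain ⟨l, hl, hlm⟩ := l8_exists_lift hpX hm
    rw [LinearMap.comp_apply, LinearMap.comp_apply, l8T_single hpX hl hlm, l8av_bd, bd_single,
      bd_single, one_smul, one_smul, map_sum, map_sum]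
    have hlen : m.length = l.length := by rw [← hlm, List.length_map]
    rw [hlen]
    refine Finset.sum_congr rfl fun i _ => ?_
    rw [map_smul, map_smul]
    congr 1
    rw [l8T_single hpX (st_sub _ _ (List.eraseIdx_sublist l i) hl)]
    rw [← hlm, List.eraseIdx_map]
  have hmem : ∀ c ∈ Sp 𝕜 (st (ApS p (G ⧸ X))), l8T 𝕜 p X c ∈ Sp 𝕜 (st (ApS p G)) := by
    intro c hc
    refine map_mem _ (fun m hm => ?_) hc
    obtain ⟨l, hl, hlm⟩ := l8_exists_lift hpX hm
    rw [l8T_single hpX hl hlm, l8av_apply]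
    refine Submodule.sum_mem _ fun x _ => ?_
    rw [mp_single]
    refine single_mem_Sp ⟨?_, ?_⟩ _
    · rw [List.pairwise_map]
      exact hl.1.imp fun {a b} hab => l8c_lt hab
    · intro E hE
      obtain ⟨F, hF, rfl⟩ := List.mem_map.1 hE
      exact l8c_ApS (hl.2 F hF)
  have hmp : ∀ c ∈ Sp 𝕜 (st (ApS p (G ⧸ X))),
      mp (Subgroup.map (QuotientGroup.mk' X)) (l8T 𝕜 p X c) = (Nat.card X : 𝕜) • c := by
    intro c hc
    refine eq_of_Sp (F := (mp (Subgroup.map (QuotientGroup.mk' X))).comp (l8T 𝕜 p X))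
      (G := (Nat.card X : 𝕜) • LinearMap.id) (fun m hm => ?_) hc
    obtain ⟨l, hl, hlm⟩ := l8_exists_lift hpX hm
    rw [LinearMap.comp_apply, l8T_single hpX hl hlm, l8av_mp, mp_single, hlm,
      LinearMap.smul_apply, LinearMap.id_apply]
  refine ⟨l8T 𝕜 p X z, hmem z hz, by rw [hbd z hz, hbz, map_zero], ?_⟩
  intro c hc hcz
  refine hne ((Nat.card X : 𝕜)⁻¹ • mp (Subgroup.map (QuotientGroup.mk' X)) c) ?_ ?_
  · refine Submodule.smul_mem _ _ (mp_mem (fun l hl => ⟨?_, ?_⟩) hc)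
    · rw [List.pairwise_map]
      exact hl.1.imp_of_mem fun {a b} ha hb hab => l8_map_lt hpX (hl.2 a ha) hab
    · intro E hE
      obtain ⟨F, hF, rfl⟩ := List.mem_map.1 hE
      exact l8_map_mem hpX (hl.2 F hF)
  · rw [map_smul, bd_mp, hcz, hmp z hz, smul_smul, inv_mul_cancel₀ hk, one_smul]

end

end Vale.Agent.P240.K
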