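import Vale.Agent.P240.K.Final

/-! P240-L8, group theory: lifting elementary abelian `p`-subgroups modulo a normal `p'`-subgroup. -/

namespace Vale.Agent.P240.K

open Finsupp Subgroup
open scoped Pointwise

universe u v

section
variable {G : Type u} [Group G] {p : ℕ}

theorem l8_pow_card [hp : Fact p.Prime] [Finite G] {X : Subgroup G} (hpX : ¬ p ∣ Nat.card X)
    {x : G} (hx : x ^ p = 1) (hxX : x ∈ X) : x = 1 := by
  have hcop : Nat.Coprime (Nat.card X) p :=
    ((Nat.Prime.coprime_iff_not_dvd hp.out).2 hpX).symm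
  rw [← orderOf_eq_one_iff]
  have h1 : orderOf x ∣ p := orderOf_dvd_of_pow_eq_one hx
  have h2 : orderOf x ∣ Nat.card X := by
    have := orderOf_dvd_natCard (⟨x, hxX⟩ : X)
    rwa [← orderOf_coe] at this
  exact Nat.eq_one_of_dvd_coprimes hcop h2 h1

theorem l8_mk_eq {X : Subgroup G} [hX : X.Normal] {x y : G}
    (h : QuotientGroup.mk' X x = QuotientGroup.mk' X y) : y⁻¹ * x ∈ X := by
  have h1 : QuotientGroup.mk' X (y⁻¹ * x) = 1 := by
    rw [map_mul, map_inv, h, inv_mul_cancel]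
  have h2 : ((y⁻¹ * x : G) : G ⧸ X) = 1 := h1
  exact (QuotientGroup.eq_one_iff _).1 h2

/-- Subgroups of `P` are determined by their images. -/
theorem l8_inj [hp : Fact p.Prime] [Finite G] {X : Subgroup G} [hX : X.Normal]
    (hpX : ¬ p ∣ Nat.card X) {P E E' : Subgroup G} (hP : P ∈ ApS p G) (hE : E ≤ P) (hE' : E' ≤ P)
    (h : E.map (QuotientGroup.mk' X) ≤ E'.map (QuotientGroup.mk' X)) : E ≤ E' := by
  intro x hx
  obtain ⟨y, hy, hxy⟩ := h ⟨x, hx, rfl⟩
  have h1 : y⁻¹ * x ∈ X := l8_mk_eq hxy.symm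
  have h2 : y⁻¹ * x ∈ P := P.mul_mem (P.inv_mem (hE' hy)) (hE hx)
  have h3 : y⁻¹ * x = 1 := l8_pow_card hpX (hP.2.2 _ h2) h1
  rw [inv_mul_eq_one] at h3
  exact h3 ▸ hy

theorem l8_inj_eq [hp : Fact p.Prime] [Finite G] {X : Subgroup G} [hX : X.Normal]
    (hpX : ¬ p ∣ Nat.card X) {P E E' : Subgroup G} (hP : P ∈ ApS p G) (hE : E ≤ P) (hE' : E' ≤ P)
    (h : E.map (QuotientGroup.mk' X) = E'.map (QuotientGroup.mk' X)) : E = E' :=
  le_antisymm (l8_inj hpX hP hE hE' h.le) (l8_inj hpX hP hE' hE h.ge)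

theorem l8_map_mem [hp : Fact p.Prime] [Finite G] {X : Subgroup G} [hX : X.Normal]
    (hpX : ¬ p ∣ Nat.card X) {E : Subgroup G} (hE : E ∈ ApS p G) :
    E.map (QuotientGroup.mk' X) ∈ ApS p (G ⧸ X) := by
  refine ⟨?_, ?_, ?_⟩
  · intro h
    apply hE.1
    rw [eq_bot_iff]
    refine l8_inj hpX hE le_rfl bot_le ?_
    rw [h]
    exact bot_le
  · rintro _ ⟨x, hx, rfl⟩ _ ⟨y, hy, rfl⟩
    rw [← map_mul, ← map_mul, hE.2.1 x hx y hy]
  · rintro _ ⟨x, hx, rfl⟩
    rw [← map_pow, hE.2.2 x hx, map_one]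

theorem l8_map_lt [hp : Fact p.Prime] [Finite G] {X : Subgroup G} [hX : X.Normal]
    (hpX : ¬ p ∣ Nat.card X) {E F : Subgroup G} (hF : F ∈ ApS p G) (h : E < F) :
    E.map (QuotientGroup.mk' X) < F.map (QuotientGroup.mk' X) := by
  refine lt_of_le_of_ne (Subgroup.map_mono h.le) fun he => h.ne ?_
  exact l8_inj_eq hpX hF h.le le_rfl he

/-- Lifting one subgroup. -/
theorem l8_lift_one [hp : Fact p.Prime] [Finite G] {X : Subgroup G} [hX : X.Normal]
    (hpX : ¬ p ∣ Nat.card X) {F : Subgroup (G ⧸ X)} (hF : F ∈ ApS p (G ⧸ X)) :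
    ∃ P ∈ ApS p G, P.map (QuotientGroup.mk' X) = F := by
  set f := QuotientGroup.mk' X with hf
  have hf1 : ∀ x : G, f x = 1 ↔ x ∈ X := fun x => by
    change ((x : G ⧸ X) = 1) ↔ _
    rw [QuotientGroup.eq_one_iff]
  set D : Subgroup G := F.comap f with hD
  set g : D →* F := f.subgroupComap F with hg
  have hgs : Function.Surjective g := by
    intro v
    obtain ⟨x, hx⟩ := QuotientGroup.mk'_surjective X v.1
    exact ⟨⟨x, by rw [hD, mem_comap, hf, hx]; exact v.2⟩, Subtype.ext hx⟩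
  have hker : ∀ x : D, x ∈ g.ker ↔ (x : G) ∈ X := by
    intro x
    rw [MonoidHom.mem_ker, ← hf1]
    constructor
    · intro h
      exact congrArg Subtype.val h
    · intro h
      exact Subtype.ext h
  have hkc : Nat.card g.ker ∣ Nat.card X := by
    have hmap : g.ker.map D.subtype ≤ X := by
      rintro _ ⟨x, hx, rfl⟩
      exact (hker x).1 hx
    have h1 : Nat.card (g.ker.map D.subtype) = Nat.card g.ker :=
      Nat.card_congr (g.ker.equivMapOfInjective D.subtype D.subtype_injective).toEquiv.symm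
    rw [← h1]
    exact Subgroup.card_dvd_of_le hmap
  have hFp : IsPGroup p F := by
    rintro ⟨x, hx⟩
    exact ⟨1, Subtype.ext (by simpa using hF.2.2 x hx)⟩
  obtain ⟨m, hm⟩ := IsPGroup.iff_card.1 hFp
  have hidx : g.ker.index = p ^ m := by
    rw [Subgroup.index_ker, ← hm]
    have : g.range = ⊤ := MonoidHom.range_eq_top.2 hgs
    rw [this]
    exact Nat.card_congr Subgroup.topEquiv.toEquiv
  have hcop : Nat.Coprime (Nat.card g.ker) g.ker.index := by
    rw [hidx]
    refine Nat.Coprime.pow_right _ ?_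
    exact Nat.Coprime.coprime_dvd_left hkc ((Nat.Prime.coprime_iff_not_dvd hp.out).2 hpX).symm
  obtain ⟨H, hH⟩ := Subgroup.exists_right_complement'_of_coprime hcop
  have hdis : ∀ x : D, x ∈ H → (x : G) ∈ X → x = 1 := by
    intro x hx hxX
    have := hH.disjoint
    rw [Subgroup.disjoint_def] at this
    exact this ((hker x).2 hxX) hx
  have himg : (H.map D.subtype).map f = F := by
    apply le_antisymm
    · rintro _ ⟨_, ⟨x, hx, rfl⟩, rfl⟩
      exact x.2
    · intro y hy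
      obtain ⟨x, hx⟩ := hgs ⟨y, hy⟩
      have h1 : x ∈ g.ker ⊔ H := by
        rw [hH.sup_eq_top]
        exact mem_top x
      obtain ⟨k, hk, h, hh, hkh⟩ := Subgroup.mem_sup_of_normal_left.1 h1
      refine ⟨h, ⟨h, hh, rfl⟩, ?_⟩
      have h2 : g x = g h := by
        rw [← hkh, map_mul, MonoidHom.mem_ker.1 hk, one_mul]
      rw [h2] at hx
      exact congrArg Subtype.val hx
  refine ⟨H.map D.subtype, ⟨?_, ?_, ?_⟩, himg⟩
  · intro h0
    apply hF.1
    rw [← himg, h0, Subgroup.map_bot]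
  · rintro _ ⟨x, hx, rfl⟩ _ ⟨y, hy, rfl⟩
    have h1 : x * y * (y * x)⁻¹ = 1 := by
      refine hdis _ (H.mul_mem (H.mul_mem hx hy) (H.inv_mem (H.mul_mem hy hx))) ?_
      rw [← hf1]
      push_cast
      rw [map_mul, map_inv, map_mul, map_mul, hF.2.1 _ x.2 _ y.2, mul_inv_cancel]
    have h2 : x * y = y * x := mul_inv_eq_one.1 h1
    change (x : G) * y = y * x
    exact congrArg Subtype.val h2
  · rintro _ ⟨x, hx, rfl⟩
    have h1 : x ^ p = 1 := by
      refine hdis _ (H.pow_mem hx p) ?_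
      rw [← hf1]
      push_cast
      rw [map_pow]
      exact hF.2.2 _ x.2
    change (x : G) ^ p = 1
    exact congrArg Subtype.val h1

/-- Conjugation by an element. -/
def l8c (x : G) : Subgroup G → Subgroup G := Subgroup.map (MulAut.conj x).toMonoidHom

theorem l8c_mem {x z : G} {H : Subgroup G} : z ∈ l8c x H ↔ x⁻¹ * z * x ∈ H := by
  constructor
  · rintro ⟨y, hy, rfl⟩
    have : x⁻¹ * (MulAut.conj x).toMonoidHom y * x = y := by
      simp [mul_assoc]
    rw [this]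
    exact hy
  · intro h
    exact ⟨_, h, by simp [mul_assoc]⟩

theorem l8c_mul (x y : G) (H : Subgroup G) : l8c (x * y) H = l8c x (l8c y H) := by
  ext z
  rw [l8c_mem, l8c_mem, l8c_mem]
  have : (x * y)⁻¹ * z * (x * y) = y⁻¹ * (x⁻¹ * z * x) * y := by group
  rw [this]

theorem l8c_lt {x : G} {E F : Subgroup G} (h : E < F) : l8c x E < l8c x F := by
  refine lt_of_le_of_ne (Subgroup.map_mono h.le) fun he => h.ne ?_
  exact Subgroup.map_injective (MulAut.conj x).injective he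

theorem l8c_ApS {x : G} {E : Subgroup G} (h : E ∈ ApS p G) : l8c x E ∈ ApS p G := by
  refine ⟨?_, ?_, ?_⟩
  · intro h0
    exact h.1 ((Subgroup.map_eq_bot_iff_of_injective _ (MulAut.conj x).injective).1 h0)
  · rintro _ ⟨a, ha, rfl⟩ _ ⟨b, hb, rfl⟩
    rw [← map_mul, ← map_mul, h.2.1 a ha b hb]
  · rintro _ ⟨a, ha, rfl⟩
    rw [← map_pow, h.2.2 a ha, map_one]

theorem l8c_map {X : Subgroup G} [hX : X.Normal] {x : G} (hx : x ∈ X) (E : Subgroup G) :
    (l8c x E).map (QuotientGroup.mk' X) = E.map (QuotientGroup.mk' X) := by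
  have h1 : QuotientGroup.mk' X x = 1 := (QuotientGroup.eq_one_iff x).2 hx
  have key : ∀ y, QuotientGroup.mk' X ((MulAut.conj x).toMonoidHom y) = QuotientGroup.mk' X y := by
    intro y
    have : (MulAut.conj x).toMonoidHom y = x * y * x⁻¹ := rfl
    rw [this, map_mul, map_mul, map_inv, h1]
    simp
  apply le_antisymm
  · rintro _ ⟨_, ⟨y, hy, rfl⟩, rfl⟩
    exact ⟨y, hy, (key y).symm⟩
  · rintro _ ⟨y, hy, rfl⟩
    exact ⟨_, ⟨y, hy, rfl⟩, key y⟩

/-- Two lifts are conjugate under `X`. -/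
theorem l8_conj [hp : Fact p.Prime] [Finite G] {X : Subgroup G} [hX : X.Normal]
    (hpX : ¬ p ∣ Nat.card X) {P P' : Subgroup G} (hP : P ∈ ApS p G) (hP' : P' ∈ ApS p G)
    (h : P.map (QuotientGroup.mk' X) = P'.map (QuotientGroup.mk' X)) :
    ∃ x ∈ X, P' = l8c x P := by
  have hle : ∀ {Q Q' : Subgroup G}, Q.map (QuotientGroup.mk' X) = Q'.map (QuotientGroup.mk' X) →
      Q' ≤ X ⊔ Q := by
    intro Q Q' hQ x hx
    have h1 : QuotientGroup.mk' X x ∈ Q.map (QuotientGroup.mk' X) := hQ ▸ ⟨x, hx, rfl⟩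
    obtain ⟨y, hy, hxy⟩ := h1
    have h2 : x⁻¹ * y ∈ X := l8_mk_eq hxy
    rw [Subgroup.mem_sup_of_normal_left]
    refine ⟨x * y⁻¹, ?_, y, hy, by group⟩
    have := hX.conj_mem _ (X.inv_mem h2) x
    have h3 : x * (x⁻¹ * y)⁻¹ * x⁻¹ = x * y⁻¹ := by group
    rwa [h3] at this
  set D := X ⊔ P with hD
  have hPD : P ≤ D := le_sup_right
  have hP'D : P' ≤ D := hle h
  have hcardD : ∀ {Q : Subgroup G}, Q ∈ ApS p G → Q ≤ D → X ⊔ Q = D →
      ¬ p ∣ (Q.subgroupOf D).index := by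
    intro Q hQ hQD hXQ
    have h1 : X.relIndex Q = Nat.card Q := by
      rw [← inf_relIndex_right]
      have : X ⊓ Q = ⊥ := by
        rw [eq_bot_iff]
        rintro x ⟨hx, hx'⟩
        exact mem_bot.2 (l8_pow_card hpX (hQ.2.2 x hx') hx)
      rw [this, relIndex_bot_left]
    have h2 : Nat.card X * Nat.card Q = Nat.card D := by
      have := relIndex_mul_relIndex (⊥ : Subgroup G) X (Q ⊔ X) bot_le le_sup_right
      rw [relIndex_bot_left, relIndex_bot_left, relIndex_sup_right, h1] at this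
      rw [this, sup_comm, hXQ]
    have h3 : Nat.card Q * Q.relIndex D = Nat.card D := by
      have := relIndex_mul_relIndex (⊥ : Subgroup G) Q D bot_le hQD
      rwa [relIndex_bot_left, relIndex_bot_left] at this
    have h4 : Q.relIndex D = Nat.card X := by
      have h5 : Nat.card Q * Q.relIndex D = Nat.card Q * Nat.card X := by
        rw [h3, ← h2, mul_comm]
      exact Nat.eq_of_mul_eq_mul_left Nat.card_pos h5
    change ¬ p ∣ Q.relIndex D
    rw [h4]
    exact hpX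
  have hXP' : X ⊔ P' = D := by
    apply le_antisymm
    · exact sup_le le_sup_left hP'D
    · exact sup_le le_sup_left (hle h.symm)
  have hpg : ∀ {Q : Subgroup G}, Q ∈ ApS p G → IsPGroup p (Q.subgroupOf D) := by
    rintro Q hQ ⟨x, hx⟩
    refine ⟨1, Subtype.ext (Subtype.ext ?_)⟩
    simpa using hQ.2.2 _ (mem_subgroupOf.1 hx)
  let S : Sylow p D := (hpg hP).toSylow (hcardD hP hPD rfl)
  let S' : Sylow p D := (hpg hP').toSylow (hcardD hP' hP'D hXP')
  obtain ⟨g, hg⟩ := MulAction.exists_smul_eq D S S'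
  have hg' : MulAut.conj g • (P.subgroupOf D) = P'.subgroupOf D := by
    have h1 : ((g • S : Sylow p D) : Subgroup D) = (S' : Subgroup D) := congrArg _ hg
    rw [Sylow.coe_subgroup_smul] at h1
    exact h1
  have key : P' = l8c (g : G) P := by
    ext z
    rw [l8c_mem]
    constructor
    · intro hz
      have h1 : (⟨z, hP'D hz⟩ : D) ∈ P'.subgroupOf D := mem_subgroupOf.2 hz
      rw [← hg', mem_pointwise_smul_iff_inv_smul_mem] at h1
      have h2 := mem_subgroupOf.1 h1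
      simpa [← map_inv] using h2
    · intro hz
      have hzD : z ∈ D := by
        have h1 : (g : G)⁻¹ * z * g ∈ D := hPD hz
        have h2 := D.mul_mem (D.mul_mem g.2 h1) (D.inv_mem g.2)
        have h3 : (g : G) * ((g : G)⁻¹ * z * g) * (g : G)⁻¹ = z := by group
        rwa [h3] at h2
      have h1 : (⟨z, hzD⟩ : D) ∈ MulAut.conj g • (P.subgroupOf D) := by
        rw [mem_pointwise_smul_iff_inv_smul_mem, mem_subgroupOf]
        simpa [← map_inv] using hz
      rw [hg'] at h1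
      exact mem_subgroupOf.1 h1
  obtain ⟨x, hx, u, hu, hxu⟩ := Subgroup.mem_sup_of_normal_left.1 g.2
  refine ⟨x, hx, ?_⟩
  rw [key, ← hxu, l8c_mul]
  congr 1
  ext z
  rw [l8c_mem]
  constructor
  · intro hz
    have := P.mul_mem (P.mul_mem hu hz) (P.inv_mem hu)
    have h3 : u * (u⁻¹ * z * u) * u⁻¹ = z := by group
    rwa [h3] at this
  · intro hz
    exact P.mul_mem (P.mul_mem (P.inv_mem hu) hz) hu

end

end Vale.Agent.P240.K
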