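import Vale.Agent.P240.V.L7
import Vale.Agent.P240.V.L2

/-!
P240-L9. The version with free elements.

`D = {L ∈ F | FreeElt p L}` and `S = {s | ∃ L ∈ D, s ∈ L ∧ s is free for L}` where `s` is free for `L` if it satisfies the
condition of `FreeElt`. The condition is invariant under conjugation (transport along `MulAut.conj g`, which maps
`normalizer L`, `centralizer L`, elementary abelian subgroups to the corresponding objects for `cj g L`), so `D` is stable
under conjugation and `h s h⁻¹ ∈ S` for all `h : G`. If `s ∈ S` and `s ∈ L ∈ D`, then `s` is free for some `M ∈ D` with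
`s ∈ M`; if `M ≠ L` then `s ∈ M ⊓ L`, which centralizes `L`, so `s = 1` (`Family.centre`); `1` is not free for `M`:
`M` has order divisible by `p`, so it has a subgroup `E` of order `p`, normalized by `1`, and `E ≤ centralizer M`
contradicts `Family.centre`. So `s` is free for `L`. Apply `strong_fam`.
-/

namespace Vale.Agent.P240.K

open Finsupp Subgroup

universe u v

variable {𝕜 : Type v} [Field 𝕜]

section
variable {G : Type u} [Group G] {p : ℕ}

/-- `L` has an element `s` such that every elementary abelian `p`-subgroup of `N_G(L)` whose image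
in `Aut(L)` is normalized by `s` centralizes `L`. -/
def FreeElt (p : ℕ) (L : Subgroup G) : Prop :=
  ∃ s ∈ L, ∀ E : Subgroup G, ElemAb p E → E ≤ normalizer (L : Set G) →
    (∀ e ∈ E, s * e * s⁻¹ ∈ E ⊔ centralizer (L : Set G)) → E ≤ centralizer (L : Set G)

/-- `s` is a free element of `L`. -/
def L9Free (p : ℕ) (L : Subgroup G) (s : G) : Prop :=
  s ∈ L ∧ ∀ E : Subgroup G, ElemAb p E → E ≤ normalizer (L : Set G) →
    (∀ e ∈ E, s * e * s⁻¹ ∈ E ⊔ centralizer (L : Set G)) → E ≤ centralizer (L : Set G)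

lemma l9_free_iff {L : Subgroup G} : FreeElt p L ↔ ∃ s, L9Free p L s := Iff.rfl

lemma l9_mem {g x : G} {L : Subgroup G} (hx : x ∈ L) : g * x * g⁻¹ ∈ cj g L := by
  rw [mem_cj]
  have : g⁻¹ * (g * x * g⁻¹) * g = x := by group
  rwa [this]

lemma l9_cent {g x : G} {L : Subgroup G} :
    x ∈ centralizer ((cj g L : Subgroup G) : Set G) ↔ g⁻¹ * x * g ∈ centralizer (L : Set G) := by
  rw [mem_centralizer_iff, mem_centralizer_iff]
  constructor
  · intro h y hy
    have h1 := h (g * y * g⁻¹) (l9_mem hy)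
    calc y * (g⁻¹ * x * g) = g⁻¹ * ((g * y * g⁻¹) * x) * g := by group
      _ = g⁻¹ * (x * (g * y * g⁻¹)) * g := by rw [h1]
      _ = g⁻¹ * x * g * y := by group
  · intro h y hy
    have h1 := h (g⁻¹ * y * g) (mem_cj.1 hy)
    calc y * x = g * ((g⁻¹ * y * g) * (g⁻¹ * x * g)) * g⁻¹ := by group
      _ = g * ((g⁻¹ * x * g) * (g⁻¹ * y * g)) * g⁻¹ := by rw [h1]
      _ = x * y := by group

lemma l9_cent_eq (g : G) (L : Subgroup G) :
    centralizer ((cj g L : Subgroup G) : Set G) = cj g (centralizer (L : Set G)) := by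
  ext x
  rw [l9_cent, mem_cj]

lemma l9_sup (g : G) (A B : Subgroup G) : cj g (A ⊔ B) = cj g A ⊔ cj g B :=
  Subgroup.map_sup A B _

lemma l9_elemAb {g : G} {E : Subgroup G} (hE : ElemAb p E) : ElemAb p (cj g E) := by
  refine ⟨fun h => hE.1 ?_, fun x hx y hy => ?_, fun x hx => ?_⟩
  · rw [eq_bot_iff]
    intro x hx
    have h1 := l9_mem (g := g) hx
    rw [h, mem_bot] at h1
    rw [mem_bot]
    have h2 : x = g⁻¹ * (g * x * g⁻¹) * g := by group
    rw [h2, h1, mul_one, inv_mul_cancel]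
  · have h1 := hE.2.1 _ (mem_cj.1 hx) _ (mem_cj.1 hy)
    calc x * y = g * ((g⁻¹ * x * g) * (g⁻¹ * y * g)) * g⁻¹ := by group
      _ = g * ((g⁻¹ * y * g) * (g⁻¹ * x * g)) * g⁻¹ := by rw [h1]
      _ = y * x := by group
  · have h1 := hE.2.2 _ (mem_cj.1 hx)
    have h2 : ∀ n : ℕ, (g⁻¹ * x * g) ^ n = g⁻¹ * x ^ n * g := by
      intro n
      induction n with
      | zero => simp
      | succ n ih => rw [pow_succ, ih, pow_succ]; group
    rw [h2] at h1
    have h3 : x ^ p = g * (g⁻¹ * x ^ p * g) * g⁻¹ := by group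
    rw [h3, h1, mul_one, mul_inv_cancel]

lemma l9_conj {g : G} {L : Subgroup G} {s : G} (h : L9Free p L s) :
    L9Free p (cj g L) (g * s * g⁻¹) := by
  refine ⟨l9_mem h.1, fun E hE hEN hEs => ?_⟩
  have hback : ∀ x ∈ E, g⁻¹ * x * g ∈ cj g⁻¹ E := by
    intro x hx
    rw [mem_cj, inv_inv]
    have : g * (g⁻¹ * x * g) * g⁻¹ = x := by group
    rwa [this]
  have h1 := h.2 (cj g⁻¹ E) (l9_elemAb hE) ?_ ?_
  · intro x hx
    rw [l9_cent]
    exact h1 (hback x hx)
  · intro x hx
    rw [mem_cj, inv_inv] at hx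
    have h2 := hEN hx
    rw [normalizer_cj] at h2
    have : g⁻¹ * (g * x * g⁻¹) * g = x := by group
    rwa [this] at h2
  · intro e he
    rw [mem_cj, inv_inv] at he
    have h2 := hEs _ he
    rw [l9_cent_eq] at h2
    have h3 : cj g (cj g⁻¹ E) = E := by rw [← cj_mul, mul_inv_cancel, cj_one]
    rw [← h3, ← l9_sup, mem_cj] at h2
    have h4 : g⁻¹ * (g * s * g⁻¹ * (g * e * g⁻¹) * (g * s * g⁻¹)⁻¹) * g = s * e * s⁻¹ := by group
    rw [h4] at h2
    exact h2

theorem free_fam [hp : Fact p.Prime] [Finite G] {F : Set (Subgroup G)}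
    (hF : Family p F) (hC : Rest F (∅ : Set (Subgroup G)) = ⊥) {r : ℕ} (hrp : r ≠ p)
    (hT : ∀ L ∈ F, FreeElt p L ∨ Removable 𝕜 p L ∨ (r.Prime ∧ FreeSub p r L)) : HQ 𝕜 p G := by
  classical
  refine strong_fam (D := {L | L ∈ F ∧ FreeElt p L})
    (S := {s | ∃ L, (L ∈ F ∧ FreeElt p L) ∧ L9Free p L s}) hF (fun L hL => hL.1) ?_ hC ?_ ?_ ?_
    hrp ?_
  · rintro L ⟨hL, s, hs⟩ g
    exact ⟨hF.conj L hL g, _, l9_conj (g := g) hs⟩
  · rintro L ⟨hL, s, hs⟩
    exact ⟨s, ⟨L, ⟨hL, s, hs⟩, hs⟩, hs.1⟩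
  · rintro L - h - - s ⟨M, ⟨hM, hMf⟩, hs⟩ -
    exact ⟨cj h M, ⟨hF.conj M hM h, _, l9_conj hs⟩, l9_conj hs⟩
  · rintro L ⟨hL, hLf⟩ s ⟨M, ⟨hM, hMf⟩, hs⟩ hsL E hEN hE hEs
    by_cases hML : M = L
    · subst hML
      exact hs.2 E hE hEN hEs
    · exfalso
      have hs1 : s = 1 := by
        have h1 : s ∈ L ⊓ centralizer (L : Set G) := by
          refine ⟨hsL, mem_centralizer_iff.2 fun y hy => ?_⟩
          exact (hF.comm M hM L hL hML s hs.1 y hy).symm
        rwa [hF.centre L hL, mem_bot] at h1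
      subst hs1
      obtain ⟨x, hx⟩ := exists_prime_orderOf_dvd_card' (G := M) p (hF.dvd M hM)
      have hxp : (x : G) ^ p = 1 := by
        have h1 : x ^ p = 1 := by rw [← hx]; exact pow_orderOf_eq_one x
        have h2 := congrArg (Subtype.val) h1
        simpa using h2
      have hx1 : (x : G) ≠ 1 := by
        intro h
        have h1 : x = 1 := Subtype.ext h
        rw [h1, orderOf_one] at hx
        exact hp.out.one_lt.ne hx
      have hZ : ElemAb p (zpowers (x : G)) := by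
        refine ⟨fun h => hx1 (zpowers_eq_bot.1 h), ?_, ?_⟩
        · rintro _ ⟨a, rfl⟩ _ ⟨b, rfl⟩
          rw [← zpow_add, ← zpow_add, add_comm]
        · rintro _ ⟨a, rfl⟩
          show ((x : G) ^ a) ^ p = 1
          rw [← zpow_natCast, ← zpow_mul, mul_comm, zpow_mul, zpow_natCast, hxp, one_zpow]
      have hZM : zpowers (x : G) ≤ M := by
        rw [zpowers_le]
        exact x.2
      have h1 := hs.2 _ hZ (hZM.trans le_normalizer) (fun e he => by
        rw [one_mul, inv_one, mul_one]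
        exact mem_sup_left he)
      have h2 : zpowers (x : G) ≤ M ⊓ centralizer (M : Set G) := le_inf hZM h1
      rw [hF.centre M hM, le_bot_iff] at h2
      exact hZ.1 h2
  · intro L hL
    rcases hT L hL with h | h | h
    · exact Or.inl ⟨hL, h⟩
    · exact Or.inr (Or.inl h)
    · exact Or.inr (Or.inr h)

end

end Vale.Agent.P240.K
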