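import Vale.Agent.P240.V.Trick
import Vale.Agent.P240.V.CmSign

namespace Vale.Agent.P240.K

open Finsupp Subgroup

universe u v

variable {𝕜 : Type v} [Field 𝕜]

section
variable {G : Type u} [Group G] {p : ℕ}

lemma family_Fam {F : Set (Subgroup G)} (hF : Family p F) {D : Set (Subgroup G)} (hDF : D ⊆ F)
    (hconj : ∀ L ∈ D, ∀ g : G, L.map (MulAut.conj g).toMonoidHom ∈ D) :
    Fam p (Rest F D) D where
  le := fun L hL => le_Rest fun M hM hMD => by
    intro x hx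
    rw [mem_centralizer_iff]
    intro y hy
    refine hF.comm M hM L (hDF hL) ?_ y hy x hx
    rintro rfl
    exact hMD hL
  conj := fun L hL g _ => hconj L hL g
  comm := fun L hL M hM h => hF.comm L (hDF hL) M (hDF hM) h
  centre := fun L hL => hF.centre L (hDF hL)
  dvd := fun L hL => hF.dvd L (hDF hL)

/-- the residue argument: reduction to `Rest F D` -/
theorem residue_lam [Fact p.Prime] [Finite G] {F : Set (Subgroup G)} (hF : Family p F)
    {T D : Set (Subgroup G)} (hTF : T ⊆ F) (hDT : ∀ L ∈ D, L ∉ T) {r : ℕ} (hrp : r ≠ p)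
    (hT : ∀ L ∈ F, L ∉ T → L ∉ D → r.Prime ∧ FreeSub p r L)
    (hac : ¬ NA ℚ (Ain p (Cen T))) {g : G} (hg : g ∈ Rest F D) :
    (r : ℤ) ∣ lam p (Rest F D) g := by
  classical
  have hRC : Rest F D ≤ Cen T := by
    intro x hx
    rw [mem_Cen]
    exact fun L hL => mem_Rest.1 hx L (hTF hL) fun h => hDT L h hL
  have hS : (Ain p (Cen T)).Finite := Set.toFinite _
  have hlef := lefschetz (σ := cj g) (S := Ain p (Cen T)) (fun E hE => cj_mem_Ain (hRC hg) hE)
    (fun x _ y _ h => cj_lt.2 h) hS hac (Nat.lt_succ_self _)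
  have hfixfin : {E | E ∈ Ain p (Cen T) ∧ cj g E = E}.Finite := Set.toFinite _
  rw [K.eu_eq hfixfin] at hlef
  swap
  · rw [← Nat.card_eq_card_finite_toFinset hS]
    exact (Nat.card_mono hS fun E hE => hE.1).trans (Nat.le_succ _)
  by_cases hr : r.Prime
  swap
  · have h1 : {E | E ∈ Ain p (Rest F D) ∧ g ∈ normalizer (E : Set G)} =
        {E | E ∈ Ain p (Cen T) ∧ cj g E = E} := by
      ext E
      constructor
      · rintro ⟨h1, h2⟩
        exact ⟨⟨h1.1, h1.2.trans hRC⟩, cj_eq_iff.2 h2⟩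
      · rintro ⟨h1, h2⟩
        refine ⟨⟨h1.1, le_Rest fun L hL hLD => ?_⟩, cj_eq_iff.1 h2⟩
        by_cases hLT : L ∈ T
        · exact fun x hx => mem_Cen.1 (h1.2 hx) L hLT
        · exact absurd (hT L hL hLT hLD).1 hr
    rw [lam, h1, hlef]
    exact dvd_zero _
  have : Fact r.Prime := ⟨hr⟩
  have hT' : ∀ L ∈ F, L ∉ T → L ∉ D → FreeSub p r L := fun L h1 h2 h3 => (hT L h1 h2 h3).2
  choose! U hUL hU hfree using hT'
  have hgrp : ∀ B : Set (Subgroup G), B.Finite → B ⊆ {L | L ∈ F ∧ L ∉ T ∧ L ∉ D} →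
      IsPGroup r (⨆ L ∈ B, U L : Subgroup G) := by
    intro B hfin
    induction B, hfin using Set.Finite.induction_on with
    | empty =>
      intro _
      have hb : (⨆ L ∈ (∅ : Set (Subgroup G)), U L : Subgroup G) = ⊥ := by simp
      rw [hb]
      exact IsPGroup.of_bot
    | @insert L B hLB _ ih =>
      intro hsub
      rw [iSup_insert]
      have hL := hsub (Set.mem_insert _ _)
      refine IsPGroup.to_sup_of_normal_left' (hU L hL.1 hL.2.1 hL.2.2)
        (ih fun M hM => hsub (Set.mem_insert_of_mem _ hM)) ?_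
      refine iSup₂_le fun M hM => ?_
      have hM' := hsub (Set.mem_insert_of_mem _ hM)
      intro y hy
      have hne : L ≠ M := by
        rintro rfl
        exact hLB hM
      refine mem_of_comm fun x hx => ?_
      exact (hF.comm L hL.1 M hM'.1 hne x (hUL L hL.1 hL.2.1 hL.2.2 hx) y
        (hUL M hM'.1 hM'.2.1 hM'.2.2 hy)).symm
  set W : Subgroup G := ⨆ L ∈ {L | L ∈ F ∧ L ∉ T ∧ L ∉ D}, U L with hW
  have hWp : IsPGroup r W := hgrp _ (Set.toFinite _) (Set.Subset.refl _)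
  have hWC : W ≤ Cen T := by
    refine iSup₂_le fun M hM => ?_
    exact (hUL M hM.1 hM.2.1 hM.2.2).trans (hF.le_Cen hTF hM.1 hM.2.1)
  have hWR : ∀ u ∈ W, ∀ x ∈ Rest F D, u * x = x * u := by
    have h1 : W ≤ centralizer ((Rest F D : Subgroup G) : Set G) := by
      refine iSup₂_le fun M hM => ?_
      intro u hu
      rw [mem_centralizer_iff]
      intro x hx
      exact ((mem_centralizer_iff.1 (mem_Rest.1 hx M hM.1 hM.2.2)) u
        (hUL M hM.1 hM.2.1 hM.2.2 hu)).symm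
    intro u hu x hx
    exact ((mem_centralizer_iff.1 (h1 hu)) x hx).symm
  have hmod := eu_mod (r := r) (S := {E | E ∈ Ain p (Cen T) ∧ cj g E = E}) W hWp ?_
  swap
  · rintro u hu E ⟨h1, h2⟩
    refine ⟨cj_mem_Ain (hWC hu) h1, ?_⟩
    rw [← cj_mul, ← hWR u hu g hg, cj_mul, h2]
  rw [hlef, zero_sub, dvd_neg] at hmod
  have h1 : {E | E ∈ Ain p (Rest F D) ∧ g ∈ normalizer (E : Set G)} =
      {E | E ∈ {E | E ∈ Ain p (Cen T) ∧ cj g E = E} ∧ W ≤ normalizer (E : Set G)} := by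
    ext E
    constructor
    · rintro ⟨h1, h2⟩
      refine ⟨⟨⟨h1.1, h1.2.trans hRC⟩, cj_eq_iff.2 h2⟩, ?_⟩
      intro u hu
      exact mem_of_comm fun y hy => hWR u hu y (h1.2 hy)
    · rintro ⟨⟨h1, h2⟩, h3⟩
      refine ⟨⟨h1.1, le_Rest fun L hL hLD => ?_⟩, cj_eq_iff.1 h2⟩
      by_cases hLT : L ∈ T
      · exact fun x hx => mem_Cen.1 (h1.2 hx) L hLT
      · have hle : U L ≤ W :=
          le_iSup₂_of_le (f := fun L (_ : L ∈ {L | L ∈ F ∧ L ∉ T ∧ L ∉ D}) => U L) L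
            ⟨hL, hLT, hLD⟩ le_rfl
        exact free_spec hrp (hF.compLike hL) (hUL L hL hLT hLD) (hU L hL hLT hLD)
          (hfree L hL hLT hLD) E h1.1 (hle.trans h3)
  rw [lam, h1]
  exact hmod

/-- the twisted sum modulo `r` -/
theorem twisted [hp : Fact p.Prime] [Finite G] {R : Subgroup G} {D : Set (Subgroup G)}
    (hD : Fam p R D) {S : Set G}
    (hS : ∀ L ∈ D, ∀ h ∈ R, h ^ p = 1 → h ∉ normalizer (L : Set G) → ∀ s ∈ S, s ∈ L →
      h * s * h⁻¹ ∈ S)
    {r : ℕ} (hrp : r ≠ p) (hr : r = 0 ∨ r.Prime) (hdvd : ∀ g ∈ R, (r : ℤ) ∣ lam p R g) :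
    (r : ℤ) ∣ ∑ g ∈ (Set.toFinite (Sel D S)).toFinset, lam p (Rz R D) g := by
  -- a field of characteristic `r` with a primitive `p`-th root of unity
  obtain ⟨K, hK, hchar, ζ, hζ⟩ : ∃ (K : Type) (_ : Field K) (_ : CharP K r) (ζ : K),
      IsPrimitiveRoot ζ p := by
    rcases hr with rfl | hr
    · exact ⟨ℂ, inferInstance, inferInstance, _, Complex.isPrimitiveRoot_exp p hp.out.ne_zero⟩
    · have : Fact r.Prime := ⟨hr⟩
      have hne : NeZero ((p : ℕ) : AlgebraicClosure (ZMod r)) := by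
        refine ⟨fun h => hrp ?_⟩
        rw [CharP.cast_eq_zero_iff (AlgebraicClosure (ZMod r)) r] at h
        exact (Nat.prime_dvd_prime_iff_eq hr hp.out).1 h
      obtain ⟨ζ, hζ⟩ := HasEnoughRootsOfUnity.exists_primitiveRoot (AlgebraicClosure (ZMod r)) p
      exact ⟨AlgebraicClosure (ZMod r), inferInstance, inferInstance, ζ, hζ⟩
  have h1 := hD.trick hS (K := K) hζ.pow_eq_one
  have h2 : ∑ g ∈ (Set.toFinite (Gn D : Set G)).toFinset, ζ ^ cnt S D g * (lam p R g : K) = 0 := by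
    refine Finset.sum_eq_zero fun g hg => ?_
    rw [Set.Finite.mem_toFinset] at hg
    rw [(CharP.intCast_eq_zero_iff K r _).2 (hdvd g (hD.gn_le hg)), mul_zero]
  rw [h2] at h1
  rcases mul_eq_zero.1 h1.symm with h | h
  · exact absurd h (pow_ne_zero _ (sub_ne_zero.2 (hζ.ne_one hp.out.one_lt)))
  · rw [← CharP.intCast_eq_zero_iff K r]
    push_cast
    exact h

/-- **Products of class functions**: permutations of the components are allowed. -/
theorem prod_main [hp : Fact p.Prime] [Finite G] {F : Set (Subgroup G)} (hF : Family p F)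
    {D : Set (Subgroup G)} (hDF : D ⊆ F)
    (hconj : ∀ L ∈ D, ∀ g : G, L.map (MulAut.conj g).toMonoidHom ∈ D) {S : Set G}
    (hS : ∀ L ∈ D, ∀ h ∈ Rest F D, h ^ p = 1 → h ∉ normalizer (L : Set G) → ∀ s ∈ S, s ∈ L →
      h * s * h⁻¹ ∈ S)
    {r : ℕ} (hrp : r ≠ p)
    (hno : ¬ (r : ℤ) ∣ ∑ g ∈ (Set.toFinite (Sel D S)).toFinset, lam p (Rz (Rest F D) D) g)
    (hT : ∀ L ∈ F, L ∈ D ∨ Removable 𝕜 p L ∨ (r.Prime ∧ FreeSub p r L)) : HQ 𝕜 p G := by
  rw [HQ_iff]
  refine remove hF (T := {L | L ∈ F ∧ L ∉ D ∧ Removable 𝕜 p L}) (fun L hL => hL.1)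
    (fun L hL => hL.2.2) (NA_of_rat (Set.toFinite _) ?_)
  by_contra hac
  apply hno
  have hT' : ∀ L ∈ F, L ∉ {L | L ∈ F ∧ L ∉ D ∧ Removable 𝕜 p L} → L ∉ D →
      r.Prime ∧ FreeSub p r L := by
    intro L hL hLT hLD
    rcases hT L hL with h | h | h
    · exact absurd h hLD
    · exact absurd ⟨hL, hLD, h⟩ hLT
    · exact h
  by_cases hr : r.Prime
  · exact twisted (family_Fam hF hDF hconj) hS hrp (Or.inr hr) fun g hg =>
      residue_lam hF (fun L hL => hL.1) (fun L hL h => h.2.1 hL) hrp hT' hac hg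
  · have h0 : ((0 : ℕ) : ℤ) ∣ ∑ g ∈ (Set.toFinite (Sel D S)).toFinset,
        lam p (Rz (Rest F D) D) g :=
      twisted (family_Fam hF hDF hconj) hS hp.out.ne_zero.symm (Or.inl rfl) fun g hg =>
        residue_lam hF (fun L hL => hL.1) (fun L hL h => h.2.1 hL) hp.out.ne_zero.symm
          (fun L h1 h2 h3 => absurd (hT' L h1 h2 h3).1 hr) hac hg
    rw [Nat.cast_zero, zero_dvd_iff] at h0
    rw [h0]
    exact dvd_zero _

end

end Vale.Agent.P240.K
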