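import Vale.Agent.P240.V.PAdic3
import Vale.Agent.P240.V.L2

namespace Vale.Agent.P240.K

open Subgroup

universe u v

variable {𝕜 : Type v} [Field 𝕜]

section
variable {G : Type u} [Group G] {p : ℕ}

theorem adic_main [hp : Fact p.Prime] [Finite G] (hO : OpTrivial p G)
    (hO' : ∀ N : Subgroup G, N.Normal → ¬ p ∣ Nat.card N → N = ⊥) (D : Set (Subgroup G))
    (S : Set G) (hDF : D ⊆ Comp G)
    (hconj : ∀ L ∈ D, ∀ g : G, L.map (MulAut.conj g).toMonoidHom ∈ D) {l : ℕ} (hl : l.Prime)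
    (hloc : ∀ L ∈ D, AdicGood p l S L) (hT : ∀ L ∈ Comp G, L ∈ D ∨ Removable 𝕜 p L) :
    HQ 𝕜 p G := by
  refine adic_fam hl (comp_family hO hO') (comp_rest hO hO') hDF hconj
    (fun L hL h _ hh hn => (hloc L hL).move h hh hn) (fun L hL => (hloc L hL).conj) ?_ hT
  intro L hL
  obtain ⟨k, h1, h2⟩ := (hloc L hL).adic
  exact ⟨k, h1, fun E hE _ hEN hEC => h2 E hEN hE hEC⟩

end

end Vale.Agent.P240.K
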