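import Vale.Agent.P240.V.PAdic

namespace Vale.Agent.P240.K

open Finsupp Subgroup

section
variable {G : Type*} [Group G] {p : ℕ}

open Classical in
lemma wsum_eq [Finite G] (S : Set G) (K : Subgroup G) :
    wsum p S K = ∑ a ∈ (Set.toFinite (K : Set G)).toFinset,
      (if a ∈ S then 1 else 0) * lam p K a := by
  rw [wsum, finsum_mem_eq_finite_toFinset_sum _ (Set.toFinite _)]
  have h1 : ∀ a ∈ (Set.toFinite (K : Set G)).toFinset,
      (if a ∈ S then (1 : ℤ) else 0) * lam p K a = if a ∈ S then eulerFix p K a else 0 := by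
    intro a _
    split_ifs
    · rw [one_mul, eulerFix_eq]
    · rw [zero_mul]
  rw [Finset.sum_congr rfl h1, ← Finset.sum_filter]
  refine Finset.sum_congr ?_ fun _ _ => rfl
  ext a
  rw [Finset.mem_filter, Set.Finite.mem_toFinset, Set.Finite.mem_toFinset]
  exact ⟨fun h => ⟨h.2, h.1⟩, fun h => ⟨h.2, h.1⟩⟩

open Classical in
/-- the twisted sum over the elements centralizing `F` is a product -/
lemma Fam.sum_sel [hp : Fact p.Prime] [Finite G] {R : Subgroup G} {D : Set (Subgroup G)}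
    (hD : Fam p R D) (S : Set G) {F : Subgroup G} (hF : F ≤ Rz R D) :
    ∑ g ∈ (Set.toFinite ((Gn D ⊓ centralizer (F : Set G) : Subgroup G) : Set G)).toFinset,
      (if ∀ L ∈ D, At S L g then (1 : ℤ) else 0) * lam p (Gn D ⊓ centralizer (F : Set G)) g =
      ∏ L ∈ (Set.toFinite D).toFinset, wsum p S (L ⊓ centralizer (F : Set G)) := by
  have h := hD.sum_prod hF
    (fun L a => (if a ∈ S then (1 : ℤ) else 0) * lam p (L ⊓ centralizer (F : Set G)) a)
    (fun O g => (if ∀ L ∈ O, At S L g then (1 : ℤ) else 0) *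
      lam p (Gn O ⊓ centralizer (F : Set G)) g) ?_ ?_ D (Set.toFinite D) subset_rfl
  · rw [h]
    exact Finset.prod_congr rfl fun L _ => (wsum_eq S _).symm
  · have h2 : Gn (∅ : Set (Subgroup G)) = ⊥ := by simp [Gn]
    simp [h2, lam_bot]
  · intro L hL O hO hLO a ha b hb
    have hL1 : ({L} : Set (Subgroup G)) ⊆ D := Set.singleton_subset_iff.2 hL
    have hdis : Disjoint ({L} : Set (Subgroup G)) O := Set.disjoint_singleton_left.2 hLO
    have hst : ∀ f ∈ F, ∀ M ∈ D, cj f M = M := fun f hf M hM =>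
      cj_eq_iff.2 ((mem_Rz.1 (hF hf)).2 M hM)
    have hdec := hD.inf_centralizer hL1 hO hdis (F := F)
      (fun f hf M hM => by rw [hst f hf M (hL1 hM)]; exact hM)
      (fun f hf M hM => by rw [hst f hf M (hO hM)]; exact hM)
    have hGL : Gn ({L} : Set (Subgroup G)) = L := by simp [Gn]
    rw [Set.singleton_union, hGL] at hdec
    have hcom : ∀ x ∈ L, ∀ y ∈ Gn O, x * y = y * x := fun x hx y hy =>
      hD.gn_comm hL1 hO hdis x (by rw [hGL]; exact hx) y hy
    have hcomm : ∀ x ∈ L ⊓ centralizer (F : Set G), ∀ y ∈ Gn O ⊓ centralizer (F : Set G),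
        x * y = y * x := fun x hx y hy =>
      hcom x (Subgroup.mem_inf.1 hx).1 y (Subgroup.mem_inf.1 hy).1
    have hint : (L ⊓ centralizer (F : Set G)) ⊓ (Gn O ⊓ centralizer (F : Set G)) = ⊥ := by
      rw [eq_bot_iff]
      refine (inf_le_inf inf_le_left inf_le_left).trans ?_
      have h3 := hD.gn_inf hL1 hO hdis
      rw [hGL] at h3
      exact h3.le
    have haB : ∀ z ∈ Gn O ⊓ centralizer (F : Set G), a * z = z * a := fun z hz => hcomm a ha z hz
    have hbA : ∀ z ∈ L ⊓ centralizer (F : Set G), b * z = z * b := fun z hz =>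
      (hcomm z hz b hb).symm
    have h1 : (∀ M ∈ insert L O, At S M (a * b)) ↔ a ∈ S ∧ ∀ M ∈ O, At S M b := by
      rw [Set.forall_mem_insert]
      refine and_congr ?_ (forall₂_congr fun M hM => ?_)
      · rw [At_mul_right, At_iff_mem (hD.centre L hL) (Subgroup.mem_inf.1 ha).1]
        rw [mem_centralizer_iff]
        exact fun z hz => hcom z hz b (Subgroup.mem_inf.1 hb).1
      · rw [At_mul_left]
        rw [mem_centralizer_iff]
        exact fun z hz => (hcom a (Subgroup.mem_inf.1 ha).1 z (le_Gn hM hz)).symm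
    have h2 : lam p (Gn (insert L O) ⊓ centralizer (F : Set G)) (a * b) =
        lam p (L ⊓ centralizer (F : Set G)) a * lam p (Gn O ⊓ centralizer (F : Set G)) b := by
      rw [hdec, lam_sup hcomm hint
        (mul_mem (Subgroup.le_normalizer ha) (mem_normalizer_of_comm hbA))
        (mul_mem (mem_normalizer_of_comm haB) (Subgroup.le_normalizer hb)),
        lam_mul_right hbA, lam_mul_left haB]
    simp only [h2]
    by_cases h3 : a ∈ S
    · by_cases h4 : ∀ M ∈ O, At S M b
      · rw [if_pos (h1.2 ⟨h3, h4⟩), if_pos h3, if_pos h4]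
        ring
      · rw [if_neg (fun h => h4 (h1.1 h).2), if_neg h4]
        ring
    · rw [if_neg (fun h => h3 (h1.1 h).1), if_neg h3]
      ring

lemma Fam.card_prod [Finite G] {R : Subgroup G} {D : Set (Subgroup G)}
    (hD : Fam p R D) {F : Subgroup G} (hF : F ≤ Rz R D) :
    (Nat.card (Gn D ⊓ centralizer (F : Set G) : Subgroup G) : ℤ) =
      ∏ L ∈ (Set.toFinite D).toFinset, (Nat.card (L ⊓ centralizer (F : Set G) : Subgroup G) : ℤ) := by
  have h := hD.sum_prod hF (fun _ _ => 1) (fun _ _ => 1) rfl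
    (fun _ _ _ _ _ _ _ _ _ => (mul_one 1).symm) D (Set.toFinite D) subset_rfl
  have h1 : ∀ K : Subgroup G, ∑ a ∈ (Set.toFinite (K : Set G)).toFinset, (1 : ℤ) =
      (Nat.card K : ℤ) := by
    intro K
    rw [Finset.sum_const, nsmul_eq_mul, mul_one, ← Nat.card_eq_card_finite_toFinset]
    rfl
  simp only [h1] at h
  exact h

/-- divisibility of a sum by summing over orbits -/
lemma dvd_sum_orb [Finite G] {N : Subgroup G} (X : Finset (Subgroup G))
    (hX : ∀ F ∈ X, ∀ g ∈ N, cj g F ∈ X) (f : Subgroup G → ℤ)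
    (hf : ∀ F ∈ X, ∀ g ∈ N, f (cj g F) = f F) (m : ℤ)
    (hm : ∀ F ∈ X, m ∣ (Nat.card {Y | ∃ g ∈ N, Y = cj g F} : ℤ) * f F) :
    m ∣ ∑ F ∈ X, f F := by
  classical
  let r : Setoid (Subgroup G) :=
    { r := fun A B => ∃ g ∈ N, B = cj g A
      iseqv :=
        { refl := fun A => ⟨1, one_mem _, (cj_one A).symm⟩
          symm := by
            rintro A B ⟨g, hg, rfl⟩
            exact ⟨g⁻¹, inv_mem hg, by rw [← cj_mul, inv_mul_cancel, cj_one]⟩
          trans := by
            rintro A B C ⟨g, hg, rfl⟩ ⟨h, hh, rfl⟩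
            exact ⟨h * g, mul_mem hh hg, by rw [cj_mul]⟩ } }
  rw [Finset.sum_partition r]
  refine Finset.dvd_sum fun q hq => ?_
  obtain ⟨F, hF, rfl⟩ := Finset.mem_image.1 hq
  have h1 : ∀ Y ∈ X.filter (fun Y => (Quotient.mk r Y) = Quotient.mk r F), f Y = f F := by
    intro Y hY
    rw [Finset.mem_filter] at hY
    obtain ⟨g, hg, h⟩ := Quotient.exact hY.2.symm
    rw [h]
    exact hf F hF g hg
  have h2 : (X.filter (fun Y => (Quotient.mk r Y) = Quotient.mk r F)).card =
      Nat.card {Y | ∃ g ∈ N, Y = cj g F} := by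
    rw [Nat.card_eq_card_finite_toFinset (Set.toFinite {Y | ∃ g ∈ N, Y = cj g F})]
    congr 1
    ext Y
    rw [Finset.mem_filter, Set.Finite.mem_toFinset]
    constructor
    · rintro ⟨_, h⟩
      exact Quotient.exact h.symm
    · rintro ⟨g, hg, rfl⟩
      exact ⟨hX F hF g hg, (Quotient.sound ⟨g, hg, rfl⟩ : Quotient.mk r F = _).symm⟩
  rw [Finset.sum_congr rfl h1, Finset.sum_const, h2, nsmul_eq_mul]
  exact hm F hF

end

end Vale.Agent.P240.K
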