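import Vale.Agent.P240.V.Abs
import Vale.Agent.P240.V.Defs

/-!
P240-W4. The product formula.

`lam_sup`: put `S = {E | E ∈ Ain p (K₁ ⊔ K₂) ∧ g ∈ normalizer E}`,
`T = {F | F ∈ ApB p G ∧ F ≤ K₂ ∧ g ∈ normalizer F}` (it has the least element `⊥`),
`f E = (E ⊔ K₁) ⊓ K₂` (the projection of `E` to `K₂`: as `K₁` and `K₂` commute and meet trivially,
`(E ⊔ K₁) ⊓ K₂ = {y ∈ K₂ | ∃ x ∈ K₁, x * y ∈ E}`). Apply `eu_fibre`. For `t ∈ T`:
`{E ∈ S | f E ≤ t} = {E ∈ S | E ≤ K₁ ⊔ t}`. If `t ≠ ⊥`, then `t ∈ ApS p G`, `t` commutes with all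
elements of `K₁ ⊔ t`, and `E ↦ E ⊔ t` (`sup_mem_ApS`, `eu_reflect`) retracts this set onto its
elements containing `t`, a set with least element `t`, so `eu = 0` by `eu_bot`. For `t = ⊥` the set is
`{E | E ∈ Ain p K₁ ∧ g ∈ normalizer E}`, and `{s | s ∈ T ∧ ⊥ < s} = {E | E ∈ Ain p K₂ ∧ g ∈ normalizer E}`.

`lam_mul_right`: `k` commutes with all elements of all `E ≤ K`, so `g * k` normalizes `E` iff `g` does.
-/

namespace Vale.Agent.P240.K

open Finsupp Subgroup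

section
variable {G : Type*} [Group G] {p : ℕ}

/-- elements of the join of two commuting subgroups -/
lemma pf_mem_sup_comm {A B : Subgroup G} (h : ∀ x ∈ A, ∀ y ∈ B, x * y = y * x) {z : G} :
    z ∈ A ⊔ B ↔ ∃ x ∈ A, ∃ y ∈ B, x * y = z := by
  constructor
  · intro hz
    let M : Subgroup G :=
      { carrier := {z | ∃ x ∈ A, ∃ y ∈ B, x * y = z}
        one_mem' := ⟨1, one_mem _, 1, one_mem _, mul_one 1⟩
        mul_mem' := by
          rintro _ _ ⟨x, hx, y, hy, rfl⟩ ⟨x', hx', y', hy', rfl⟩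
          refine ⟨x * x', mul_mem hx hx', y * y', mul_mem hy hy', ?_⟩
          rw [mul_assoc, ← mul_assoc x' y y', h x' hx' y hy, mul_assoc y x' y', ← mul_assoc x y]
        inv_mem' := by
          rintro _ ⟨x, hx, y, hy, rfl⟩
          exact ⟨x⁻¹, inv_mem hx, y⁻¹, inv_mem hy, by
            rw [mul_inv_rev, h _ (inv_mem hx) _ (inv_mem hy)]⟩ }
    have hle : A ⊔ B ≤ M := sup_le (fun x hx => ⟨x, hx, 1, one_mem _, mul_one x⟩)
      (fun y hy => ⟨1, one_mem _, y, hy, one_mul y⟩)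
    exact hle hz
  · rintro ⟨x, hx, y, hy, rfl⟩
    exact mul_mem (Subgroup.mem_sup_left hx) (Subgroup.mem_sup_right hy)

/-- uniqueness of the decomposition in an internal direct product -/
lemma pf_prod_unique {A B : Subgroup G} (hint : A ⊓ B = ⊥) {x x' y y' : G} (hx : x ∈ A)
    (hx' : x' ∈ A) (hy : y ∈ B) (hy' : y' ∈ B) (h : x * y = x' * y') : x = x' ∧ y = y' := by
  have h1 : x'⁻¹ * x = y' * y⁻¹ := by
    rw [eq_mul_inv_iff_mul_eq, mul_assoc, h, inv_mul_cancel_left]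
  have h2 : x'⁻¹ * x ∈ A ⊓ B := by
    refine Subgroup.mem_inf.2 ⟨mul_mem (inv_mem hx') hx, ?_⟩
    rw [h1]
    exact mul_mem hy' (inv_mem hy)
  rw [hint, Subgroup.mem_bot] at h2
  have h3 : x = x' := by
    rw [inv_mul_eq_one] at h2
    exact h2.symm
  refine ⟨h3, ?_⟩
  rw [h3] at h
  exact mul_left_cancel h

lemma pf_mem_nz {E : Subgroup G} {g : G} :
    g ∈ normalizer (E : Set G) ↔ ∀ x, x ∈ E ↔ g * x * g⁻¹ ∈ E := by
  rw [Subgroup.mem_normalizer_iff]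

/-- enough to map `E` into itself, for `g` and for its inverse -/
lemma pf_mem_nz_of {E : Subgroup G} {g : G} (h1 : ∀ x ∈ E, g * x * g⁻¹ ∈ E)
    (h2 : ∀ x ∈ E, g⁻¹ * x * g ∈ E) : g ∈ normalizer (E : Set G) := by
  rw [pf_mem_nz]
  refine fun x => ⟨h1 x, fun hx => ?_⟩
  have := h2 _ hx
  simpa [mul_assoc] using this

lemma pf_nz_conj {E : Subgroup G} {g : G} (hg : g ∈ normalizer (E : Set G)) {x : G} (hx : x ∈ E) :
    g * x * g⁻¹ ∈ E := (pf_mem_nz.1 hg x).1 hx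

lemma pf_nz_conj' {E : Subgroup G} {g : G} (hg : g ∈ normalizer (E : Set G)) {x : G} (hx : x ∈ E) :
    g⁻¹ * x * g ∈ E := by
  have := pf_nz_conj (inv_mem hg) hx
  rwa [inv_inv] at this

lemma pf_nz_sup {E F : Subgroup G} {g : G} (hE : g ∈ normalizer (E : Set G))
    (hF : g ∈ normalizer (F : Set G)) : g ∈ normalizer ((E ⊔ F : Subgroup G) : Set G) := by
  have key : ∀ k : G, k ∈ normalizer (E : Set G) → k ∈ normalizer (F : Set G) →
      ∀ x ∈ E ⊔ F, k * x * k⁻¹ ∈ E ⊔ F := by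
    intro k hkE hkF x hx
    have hle : E ⊔ F ≤ (E ⊔ F).comap (MulAut.conj k).toMonoidHom := by
      refine sup_le (fun y hy => ?_) (fun y hy => ?_)
      · rw [Subgroup.mem_comap]
        exact Subgroup.mem_sup_left (pf_nz_conj hkE hy)
      · rw [Subgroup.mem_comap]
        exact Subgroup.mem_sup_right (pf_nz_conj hkF hy)
    exact hle hx
  refine pf_mem_nz_of (key g hE hF) fun x hx => ?_
  have := key g⁻¹ (inv_mem hE) (inv_mem hF) x hx
  rwa [inv_inv] at this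

/-- the projection to `K₂` of a subgroup of the direct product of `K₁` and `K₂` -/
def pfPrj {K₁ K₂ : Subgroup G} (hcomm : ∀ x ∈ K₁, ∀ y ∈ K₂, x * y = y * x) (E : Subgroup G) :
    Subgroup G where
  carrier := {y | y ∈ K₂ ∧ ∃ x ∈ K₁, x * y ∈ E}
  one_mem' := ⟨one_mem _, 1, one_mem _, by rw [mul_one]; exact one_mem _⟩
  mul_mem' := by
    rintro y y' ⟨hy, x, hx, h⟩ ⟨hy', x', hx', h'⟩
    refine ⟨mul_mem hy hy', x * x', mul_mem hx hx', ?_⟩
    have : x * x' * (y * y') = x * y * (x' * y') := by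
      rw [mul_assoc, ← mul_assoc x' y y', hcomm x' hx' y hy, mul_assoc y x' y', ← mul_assoc x y]
    rw [this]
    exact mul_mem h h'
  inv_mem' := by
    rintro y ⟨hy, x, hx, h⟩
    refine ⟨inv_mem hy, x⁻¹, inv_mem hx, ?_⟩
    rw [hcomm _ (inv_mem hx) _ (inv_mem hy), ← mul_inv_rev]
    exact inv_mem h

lemma pf_mem_prj {K₁ K₂ : Subgroup G} {hcomm : ∀ x ∈ K₁, ∀ y ∈ K₂, x * y = y * x}
    {E : Subgroup G} {y : G} : y ∈ pfPrj hcomm E ↔ y ∈ K₂ ∧ ∃ x ∈ K₁, x * y ∈ E := Iff.rfl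

lemma pf_prj_le_iff {K₁ K₂ : Subgroup G} {hcomm : ∀ x ∈ K₁, ∀ y ∈ K₂, x * y = y * x}
    (hint : K₁ ⊓ K₂ = ⊥) {E t : Subgroup G} (hE : E ≤ K₁ ⊔ K₂) (ht : t ≤ K₂) :
    pfPrj hcomm E ≤ t ↔ E ≤ K₁ ⊔ t := by
  constructor
  · intro h e he
    obtain ⟨x, hx, y, hy, rfl⟩ := (pf_mem_sup_comm hcomm).1 (hE he)
    exact mul_mem (Subgroup.mem_sup_left hx) (Subgroup.mem_sup_right (h ⟨hy, x, hx, he⟩))
  · rintro h y ⟨hy, x, hx, hxy⟩
    obtain ⟨x', hx', y', hy', h'⟩ :=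
      (pf_mem_sup_comm fun a ha b hb => hcomm a ha b (ht hb)).1 (h hxy)
    rw [← (pf_prod_unique hint hx' hx (ht hy') hy h').2]
    exact hy'

lemma pf_prj_mem_ApB {K₁ K₂ : Subgroup G} {hcomm : ∀ x ∈ K₁, ∀ y ∈ K₂, x * y = y * x}
    (hint : K₁ ⊓ K₂ = ⊥) {E : Subgroup G} (hE : E ∈ ApS p G) : pfPrj hcomm E ∈ ApB p G := by
  by_cases hb : pfPrj hcomm E = ⊥
  · exact Or.inl hb
  · refine Or.inr ⟨hb, ?_, ?_⟩
    · rintro y ⟨hy, x, hx, h⟩ y' ⟨hy', x', hx', h'⟩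
      have h1 := hE.2.1 _ h _ h'
      have h2 : x * x' * (y * y') = x' * x * (y' * y) := by
        have e1 : x * x' * (y * y') = x * y * (x' * y') := by
          rw [mul_assoc, ← mul_assoc x' y y', hcomm x' hx' y hy, mul_assoc y x' y',
            ← mul_assoc x y]
        have e2 : x' * x * (y' * y) = x' * y' * (x * y) := by
          rw [mul_assoc, ← mul_assoc x y' y, hcomm x hx y' hy', mul_assoc y' x y,
            ← mul_assoc x' y']
        rw [e1, e2, h1]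
      exact (pf_prod_unique hint (mul_mem hx hx') (mul_mem hx' hx) (mul_mem hy hy')
        (mul_mem hy' hy) h2).2
    · rintro y ⟨hy, x, hx, h⟩
      have h1 := hE.2.2 _ h
      have hc : Commute x y := hcomm x hx y hy
      rw [hc.mul_pow] at h1
      have h2 : x ^ p * y ^ p = 1 * 1 := by rw [h1, mul_one]
      exact (pf_prod_unique hint (pow_mem hx p) (one_mem _) (pow_mem hy p) (one_mem _) h2).2

lemma pf_nz_prj {K₁ K₂ : Subgroup G} {hcomm : ∀ x ∈ K₁, ∀ y ∈ K₂, x * y = y * x} {g : G}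
    (hg1 : g ∈ normalizer (K₁ : Set G)) (hg2 : g ∈ normalizer (K₂ : Set G)) {E : Subgroup G}
    (hE : g ∈ normalizer (E : Set G)) : g ∈ normalizer (pfPrj hcomm E : Set G) := by
  refine pf_mem_nz_of ?_ ?_
  · rintro y ⟨hy, x, hx, h⟩
    refine ⟨pf_nz_conj hg2 hy, g * x * g⁻¹, pf_nz_conj hg1 hx, ?_⟩
    have : g * x * g⁻¹ * (g * y * g⁻¹) = g * (x * y) * g⁻¹ := by group
    rw [this]
    exact pf_nz_conj hE h
  · rintro y ⟨hy, x, hx, h⟩
    refine ⟨pf_nz_conj' hg2 hy, g⁻¹ * x * g, pf_nz_conj' hg1 hx, ?_⟩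
    have : g⁻¹ * x * g * (g⁻¹ * y * g) = g⁻¹ * (x * y) * g := by group
    rw [this]
    exact pf_nz_conj' hE h

/-- product formula -/
theorem lam_sup [hp : Fact p.Prime] [Finite G] {K₁ K₂ : Subgroup G}
    (hcomm : ∀ x ∈ K₁, ∀ y ∈ K₂, x * y = y * x) (hint : K₁ ⊓ K₂ = ⊥) {g : G}
    (hg1 : g ∈ normalizer (K₁ : Set G)) (hg2 : g ∈ normalizer (K₂ : Set G)) :
    lam p (K₁ ⊔ K₂) g = lam p K₁ g * lam p K₂ g := by
  classical
  set S : Set (Subgroup G) := {E | E ∈ Ain p (K₁ ⊔ K₂) ∧ g ∈ normalizer (E : Set G)} with hSdef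
  set T : Set (Subgroup G) := {F | F ∈ ApB p G ∧ F ≤ K₂ ∧ g ∈ normalizer (F : Set G)} with hTdef
  have hS : S.Finite := Set.toFinite _
  have hT : T.Finite := Set.toFinite _
  have hbT : (⊥ : Subgroup G) ∈ T := by
    refine ⟨Or.inl rfl, bot_le, ?_⟩
    refine pf_mem_nz_of (fun x hx => ?_) (fun x hx => ?_)
    · rw [Subgroup.mem_bot] at hx ⊢
      rw [hx]; group
    · rw [Subgroup.mem_bot] at hx ⊢
      rw [hx]; group
  have hfib := eu_fibre (S := S) (T := T) (pfPrj hcomm) hS hT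
    (fun E hE => ⟨pf_prj_mem_ApB hint hE.1.1, fun y hy => hy.1, pf_nz_prj hg1 hg2 hE.2⟩)
    (fun E _ E' _ h y hy => ⟨hy.1, hy.2.choose, hy.2.choose_spec.1, h hy.2.choose_spec.2⟩)
    hbT (fun t _ => bot_le)
  have hset : ∀ t ∈ T, {E | E ∈ S ∧ pfPrj hcomm E ≤ t} =
      {E | (E ∈ ApS p G ∧ E ≤ K₁ ⊔ t) ∧ g ∈ normalizer (E : Set G)} := by
    intro t ht
    ext E
    constructor
    · rintro ⟨hE, h⟩
      exact ⟨⟨hE.1.1, (pf_prj_le_iff hint hE.1.2 ht.2.1).1 h⟩, hE.2⟩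
    · rintro ⟨⟨h1, h2⟩, h3⟩
      have h4 : E ≤ K₁ ⊔ K₂ := h2.trans (sup_le_sup_left ht.2.1 _)
      exact ⟨⟨⟨h1, h4⟩, h3⟩, (pf_prj_le_iff hint h4 ht.2.1).2 h2⟩
  have hzero : ∀ t ∈ T, t ≠ ⊥ → eu {E | E ∈ S ∧ pfPrj hcomm E ≤ t} = 0 := by
    intro t ht hne
    rw [hset t ht]
    have htA : t ∈ ApS p G := ht.1.resolve_left hne
    set St : Set (Subgroup G) :=
      {E | (E ∈ ApS p G ∧ E ≤ K₁ ⊔ t) ∧ g ∈ normalizer (E : Set G)} with hSt
    have hStf : St.Finite := Set.toFinite _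
    have hcomm' : ∀ E ∈ St, ∀ x ∈ E, ∀ u ∈ t, x * u = u * x := by
      intro E hE e he u hu
      obtain ⟨x, hx, y, hy, rfl⟩ :=
        (pf_mem_sup_comm fun a ha b hb => hcomm a ha b (ht.2.1 hb)).1 (hE.1.2 he)
      rw [mul_assoc, htA.2.1 y hy u hu, ← mul_assoc, hcomm x hx u (ht.2.1 hu), mul_assoc]
    have hred : eu St = eu {E | E ∈ St ∧ t ≤ E} := by
      refine eu_reflect (fun E => E ⊔ t) St _ hStf (fun E hE => hE.1) ?_ ?_ ?_
      · intro E hE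
        exact ⟨⟨⟨sup_mem_ApS hE.1.1 htA (hcomm' E hE), sup_le hE.1.2 le_sup_right⟩,
          pf_nz_sup hE.2 ht.2.2⟩, le_sup_right⟩
      · exact fun E _ => le_sup_left
      · exact fun E _ F hF h => sup_le h hF.2
    rw [hred]
    exact eu_bot (Set.toFinite _) (m := t) ⟨⟨⟨htA, le_sup_right⟩, ht.2.2⟩, le_rfl⟩
      (fun E hE => hE.2)
  have h1 : lam p (K₁ ⊔ K₂) g = eu S := rfl
  rw [h1, hfib, Finset.sum_eq_single (⊥ : Subgroup G)]
  · congr 1
    · rw [hset ⊥ hbT]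
      unfold lam Ain
      congr 1
      ext E
      simp only [sup_bot_eq, Set.mem_ofPred_eq]
    · unfold lam
      congr 1
      ext E
      constructor
      · rintro ⟨hE, h⟩
        exact ⟨⟨hE.1.resolve_left h.ne', hE.2.1⟩, hE.2.2⟩
      · rintro ⟨⟨h1, h2⟩, h3⟩
        exact ⟨⟨Or.inr h1, h2, h3⟩, bot_lt_iff_ne_bot.2 h1.1⟩
  · intro t ht hne
    rw [hzero t (hT.mem_toFinset.1 ht) hne, zero_mul]
  · intro h
    exact absurd (hT.mem_toFinset.2 hbT) h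

/-- elements centralizing `K` normalize its subgroups -/
lemma pf_nz_of_comm {K E : Subgroup G} {k : G} (hk : ∀ x ∈ K, k * x = x * k) (hE : E ≤ K) :
    k ∈ normalizer (E : Set G) := by
  refine pf_mem_nz_of (fun x hx => ?_) (fun x hx => ?_)
  · rw [hk x (hE hx), mul_inv_cancel_right]
    exact hx
  · rw [mul_assoc, ← hk x (hE hx), inv_mul_cancel_left]
    exact hx

lemma lam_mul_right {K : Subgroup G} {g k : G} (hk : ∀ x ∈ K, k * x = x * k) :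
    lam p K (g * k) = lam p K g := by
  unfold lam
  congr 1
  ext E
  constructor
  · rintro ⟨h1, h2⟩
    exact ⟨h1, ((normalizer (E : Set G)).mul_mem_cancel_right (pf_nz_of_comm hk h1.2)).1 h2⟩
  · rintro ⟨h1, h2⟩
    exact ⟨h1, mul_mem h2 (pf_nz_of_comm hk h1.2)⟩

lemma lam_mul_left {K : Subgroup G} {g k : G} (hk : ∀ x ∈ K, k * x = x * k) :
    lam p K (k * g) = lam p K g := by
  unfold lam
  congr 1
  ext E
  constructor
  · rintro ⟨h1, h2⟩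
    exact ⟨h1, ((normalizer (E : Set G)).mul_mem_cancel_left (pf_nz_of_comm hk h1.2)).1 h2⟩
  · rintro ⟨h1, h2⟩
    exact ⟨h1, mul_mem (pf_nz_of_comm hk h1.2) h2⟩

end

end Vale.Agent.P240.K
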