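import Vale.Agent.P240.MathlibUsed
import Vale.Agent.P240.K.FamDefs

namespace Vale.Agent.P240.Q

open Subgroup Vale.Agent.P240.K

section
variable {G : Type*} [Group G]

/-- `M` is a minimal normal subgroup. -/
def MinNormal (M : Subgroup G) : Prop :=
  M.Normal ∧ M ≠ ⊥ ∧ ∀ N : Subgroup G, N.Normal → N ≤ M → N = ⊥ ∨ N = M

/-- The minimal normal subgroups of the minimal normal subgroups of `G`. If `O_p(G) = 1` and
`O_{p'}(G) = 1`, these are the components of `G`. -/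
def Comp (G : Type*) [Group G] : Set (Subgroup G) :=
  {L | ∃ M : Subgroup G, MinNormal M ∧ ∃ K : Subgroup M, MinNormal K ∧ L = K.map M.subtype}

/-- `C_G(L)`. -/
def Cz (L : Subgroup G) : Subgroup G := centralizer (L : Set G)

/-- The elements of `N_G(L)` that commute with `s`. -/
def Cn (L : Subgroup G) (s : G) : Subgroup G := normalizer (L : Set G) ⊓ centralizer {s}

/-- The elementary abelian `p`-subgroups of `K` normalized by `z`. -/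
abbrev Fx (p : ℕ) (K : Subgroup G) (z : G) : Type _ :=
  {E : Subgroup G // ElemAb p E ∧ E ≤ K ∧ z ∈ normalizer (E : Set G)}

/-- Minus the reduced Euler characteristic of the order complex of the finite poset `Fx p K z`. -/
noncomputable def eulerFix (p : ℕ) (K : Subgroup G) (z : G) : ℤ :=
  ∑ᶠ n : ℕ, (-1) ^ n * (Nat.card {l : List (Fx p K z) // l.length = n ∧ l.Pairwise (· < ·)} : ℤ)

/-- The sum of `eulerFix p K x` over all `x ∈ S ∩ K`. -/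
noncomputable def wsum (p : ℕ) (S : Set G) (K : Subgroup G) : ℤ :=
  ∑ᶠ x ∈ S ∩ (K : Set G), eulerFix p K x

/-- The elements of order `p` outside `N_G(L)` map `T ∩ L` into `T`. -/
def Move (p : ℕ) (T : Set G) (L : Subgroup G) : Prop :=
  ∀ h : G, h ^ p = 1 → h ∉ normalizer (L : Set G) → ∀ s ∈ T, s ∈ L → h * s * h⁻¹ ∈ T

/-- The subgroup generated by `L`, `C_G(L)` and the elements of `N_G(L)` that commute with some
`a ∈ A ∩ L` and whose `p`-th power centralizes `L`. -/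
def Mid (p : ℕ) (A : Set G) (L : Subgroup G) : Subgroup G :=
  L ⊔ Cz L ⊔ Subgroup.closure {x | ∃ a ∈ A, a ∈ L ∧ x ∈ Cn L a ∧ x ^ p ∈ Cz L}

/-- The conditions on the elements of `T ∩ L`. -/
def Half (p : ℕ) (T : Set G) (L M K K' : Subgroup G) : Prop :=
  Move p T L ∧ ∀ s ∈ T, s ∈ L → ¬ p ∣ orderOf s ∧
    (∀ E ≤ normalizer (L : Set G), ElemAb p E → (∀ e ∈ E, s * e * s⁻¹ ∈ E ⊔ Cz L) →
      (∀ e ∈ E, s * e * s⁻¹ * e⁻¹ ∈ Cz L → e ∈ Cz L) → E ≤ Cz L) ∧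
    (∃ W ≤ L ⊓ Cn L s, Group.IsSolvable W ∧ ¬ p ∣ Nat.card W ∧
      ∀ x ∈ Cn L s, (∀ w ∈ W, x * w * x⁻¹ ∈ W) ∧ (x ^ p = 1 → (x ∈ M → x ∈ K) ∧
        ((∀ w ∈ W, x * w = w * x) → x ∈ K') ∧
        ∀ y ∈ Cn L s, y ^ p = 1 → x * y * x⁻¹ * y⁻¹ ∈ W ⊔ Cz L)) ∧
    ∀ t ∈ T, t ∈ L → (∃ g ∈ normalizer (L : Set G), g * s * g⁻¹ = t) ∧
      ∀ x ∈ Cn L s, x ^ p ∈ Cz L → ∃ n ∈ M, x * n ∈ Cn L t ∧ (x * n) ^ p ∈ Cz L

/-- The local condition on `L` and `S ∩ L`, `A ∩ L`, `X ∩ L`. -/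
def Local (p : ℕ) (S A X : Set G) (L : Subgroup G) : Prop :=
  (∃ s ∈ S, s ∈ L) ∧ Half p S L (Mid p A L) (L ⊔ Cz L) (Cz L) ∧
    Half p A L (L ⊔ Cz L) (Cz L) (Mid p A L) ∧ (L ⊔ Cz L).relIndex (Mid p A L) ∣ p ∧
    Move p X L ∧ A ⊆ X ∧ S ⊆ Xᶜ ∧
    ∀ E ≤ normalizer (L : Set G), E = ⊥ ∨ ElemAb p E → wsum p X (L ⊓ Cz E) = 0

/-- The `l`-adic condition on `L` and `S ∩ L`: for every elementary abelian `p`-subgroup `E` of
`N_G(L)` that does not centralize `L`, the number `|L : C_L(E)| * wsum p S (C_L(E))` is divisible by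
a higher power of `l` than `wsum p S L`. -/
def Adic (p l : ℕ) (S : Set G) (L : Subgroup G) : Prop :=
  Move p S L ∧ (∀ g ∈ L, ∀ s ∈ S, s ∈ L → g * s * g⁻¹ ∈ S) ∧
    ∃ k : ℕ, ¬ (l : ℤ) ^ k ∣ wsum p S L ∧ ∀ E ≤ normalizer (L : Set G), ElemAb p E →
      ¬ E ≤ Cz L → (l : ℤ) ^ k ∣ ((L ⊓ Cz E).relIndex L : ℤ) * wsum p S (L ⊓ Cz E)

end

end Vale.Agent.P240.Q
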