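import Vale.Agent.P240.K.Final

namespace Vale.Agent.P240.K

open Finsupp Subgroup

universe u v

/-- the coefficients at the lists that end with `φ` -/
noncomputable def cf {𝕜 : Type v} [Field 𝕜] {α : Type*} (φ : List α) : Ch 𝕜 α →ₗ[𝕜] Ch 𝕜 α :=
  Finsupp.lcomapDomain (fun l => l ++ φ) (List.append_left_injective φ)

lemma cf_apply {𝕜 : Type v} [Field 𝕜] {α : Type*} (φ : List α) (c : Ch 𝕜 α) (l : List α) :
    cf φ c l = c (l ++ φ) := rfl

/-- `α` is a cycle of `𝒜ₚ(H)` (lists are decreasing) whose lists have the same length `r` as the list `φ`,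
with nonzero coefficient at `φ`; here `|F| = p ^ r`, and `φ` starts with `F` (or `F = ⊥` and `φ = []`). -/
structure TopCycle (𝕜 : Type v) [Field 𝕜] {G : Type u} [Group G] (p : ℕ) (H F : Subgroup G)
    (α : Ch 𝕜 (Subgroup G)) (φ : List (Subgroup G)) : Prop where
  mem : α ∈ Sp 𝕜 (fun l => st (Ain p H) l ∧ l.length = φ.length)
  cyc : bd α = 0
  ne : α φ ≠ 0
  top : (φ = [] ∧ F = ⊥) ∨ ∃ φ', φ = F :: φ'
  card : Nat.card F = p ^ φ.length

end Vale.Agent.P240.K
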