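import Vale.Agent.P240.V.R0

/-!
P240-R1. Coefficients at the lists that end with `φ` (pure chain computation).

`bd_cf`: by `eq_of_Sp` it suffices to take `c = single m 1` with `st S m` (strictly decreasing list in `S`).
`bd (single m 1) = ∑ i ∈ range m.length, (-1) ^ i • single (m.eraseIdx i) 1` (definition of `bd`, K/Defs.lean; or use
`bd_single_cons` of K/Chains.lean and induct), and `cf φ (single m 1) = single l 1` if `m = l ++ φ`, else `0`.
(a) `m = l ++ φ`. For `i < l.length` the list `m.eraseIdx i` is `l.eraseIdx i ++ φ`. For `i ≥ l.length` the list `m.eraseIdx i`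
is `l ++ φ.eraseIdx (i - l.length)`, and it is not of the form `l' ++ φ`: comparing lengths, `l'.length + 1 = l.length`, so the last
element of `l` would be the head of `φ`, contradicting that `m` is strictly decreasing (if `l = []` the length is too small).
(b) `m` is not of the form `l ++ φ`. If `m.eraseIdx i = l' ++ φ` then `i > l'.length` (otherwise the last `φ.length` elements
of `m` form `φ`), so the element of `m` at position `l'.length` is the head of `φ`, and `m.drop l'.length` is a strictly decreasing list
in `S` of length `φ.length + 1` all of whose elements are `≤` the head of `φ`, contradicting `hlen`.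
(Alternatively prove it by induction on `m` with `bd_single_cons`.)
`cf_mem`: if `l ++ φ` is strictly decreasing in `S`, then `l` is strictly decreasing and its elements are larger than those of `φ`;
use `mem_Sp` (K/Chains2.lean) and `cf_apply`.
-/

namespace Vale.Agent.P240.K

open Finsupp Subgroup

universe u v

variable {𝕜 : Type v} [Field 𝕜]

lemma r1_cf_single {α : Type*} (φ l m : List α) (r : 𝕜) :
    cf φ (single m r) l = single m r (l ++ φ) := rfl

lemma r1_cf_append {α : Type*} (φ l : List α) (r : 𝕜) :
    cf φ (single (l ++ φ) r) = single l r := by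
  ext k
  rw [r1_cf_single]
  by_cases h : l = k
  · subst h
    simp
  · rw [Finsupp.single_eq_of_ne (by
      intro h'
      exact h (List.append_cancel_right h').symm), Finsupp.single_eq_of_ne (Ne.symm h)]

lemma r1_cf_zero {α : Type*} (φ m : List α) (r : 𝕜) (h : ∀ l, m ≠ l ++ φ) :
    cf φ (single m r) = 0 := by
  ext k
  rw [r1_cf_single, Finsupp.single_eq_of_ne (Ne.symm (h k))]
  rfl

lemma r1_cf_cons {α : Type*} (φ : List α) (x : α) (c : Ch 𝕜 α) :
    cf φ (cons x c) = cons x (cf φ c) + (cons x c φ) • single ([] : List α) (1 : 𝕜) := by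
  have key : ∀ m : List α, cf φ (cons x (single m (1 : 𝕜))) =
      cons x (cf φ (single m 1)) + (cons x (single m (1 : 𝕜)) φ) • single ([] : List α) (1 : 𝕜) := by
    intro m
    rw [cons_single]
    by_cases h : ∃ l, m = l ++ φ
    · obtain ⟨l, rfl⟩ := h
      have h1 : cf φ (single (x :: (l ++ φ)) (1 : 𝕜)) = single (x :: l) 1 :=
        r1_cf_append φ (x :: l) 1
      have h2 : (single (x :: (l ++ φ)) (1 : 𝕜) : Ch 𝕜 α) φ = 0 := by
        apply Finsupp.single_eq_of_ne
        intro h'
        have := congrArg List.length h'
        simp at this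
        omega
      rw [h1, h2, r1_cf_append, cons_single, zero_smul, add_zero]
    · push Not at h
      rw [r1_cf_zero φ m 1 h, map_zero, zero_add]
      by_cases h' : x :: m = φ
      · subst h'
        have h1 := r1_cf_append (𝕜 := 𝕜) (x :: m) [] 1
        rw [List.nil_append] at h1
        rw [h1]
        simp
      · rw [Finsupp.single_eq_of_ne (Ne.symm h'), zero_smul]
        apply r1_cf_zero
        intro l hl
        cases l with
        | nil => exact h' hl
        | cons y l =>
          rw [List.cons_append] at hl
          exact h l (List.cons.inj hl).2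
  have := lin_ext_apply (f := (cf φ).comp (cons x))
    (g := (cons x).comp (cf φ) + (((Finsupp.lapply φ).comp (cons x)).smulRight
      (single ([] : List α) (1 : 𝕜))))
    (fun m => by
      simp only [LinearMap.comp_apply, LinearMap.add_apply, LinearMap.smulRight_apply,
        Finsupp.lapply_apply]
      exact key m) c
  simpa only [LinearMap.comp_apply, LinearMap.add_apply, LinearMap.smulRight_apply,
        Finsupp.lapply_apply] using this

lemma r1_cons_apply {α : Type*} (x : α) (c : Ch 𝕜 α) (φ : List α) (h : cons x c φ ≠ 0) :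
    ∃ φ', φ = x :: φ' ∧ c φ' ≠ 0 := by
  cases φ with
  | nil =>
    exfalso
    apply h
    have : cons x c [] = 0 := by
      rw [cons, Finsupp.lmapDomain_apply]
      apply Finsupp.mapDomain_of_notMem_range
      rintro ⟨l, hl⟩
      exact List.cons_ne_nil _ _ hl
    exact this
  | cons y φ' =>
    by_cases hy : y = x
    · subst hy
      refine ⟨φ', rfl, ?_⟩
      rw [cons, Finsupp.lmapDomain_apply,
        Finsupp.mapDomain_apply (List.cons_injective)] at h
      exact h
    · exfalso
      apply h
      rw [cons, Finsupp.lmapDomain_apply]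
      apply Finsupp.mapDomain_of_notMem_range
      rintro ⟨l, hl⟩
      exact hy (List.cons.inj hl).1.symm

lemma r1_bd_length {α : Type*} (m k : List α) (h : bd (single m (1 : 𝕜)) k ≠ 0) :
    m.length = k.length + 1 := by
  by_contra hne
  apply h
  rw [bd_single, one_smul, Finsupp.finsetSum_apply]
  apply Finset.sum_eq_zero
  intro i hi
  rw [Finset.mem_range] at hi
  rw [Finsupp.smul_apply, Finsupp.single_eq_of_ne, smul_zero]
  intro hk
  apply hne
  rw [hk, List.length_eraseIdx_of_lt hi]
  omega

theorem bd_cf {α : Type*} [PartialOrder α] {S : Set α} (φ : List α)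
    (hlen : ∀ m, st S m → (∀ y ∈ m, ∃ f ∈ φ, y ≤ f) → m.length ≤ φ.length)
    {c : Ch 𝕜 α} (hc : c ∈ Sp 𝕜 (st S)) : bd (cf φ c) = cf φ (bd c) := by
  refine eq_of_Sp (F := bd.comp (cf φ)) (G := (cf φ).comp bd) (fun m hm => ?_) hc
  simp only [LinearMap.comp_apply]
  induction m with
  | nil =>
    rw [bd_single_nil, map_zero]
    by_cases h : φ = []
    · subst h
      have := r1_cf_append (𝕜 := 𝕜) ([] : List α) [] 1
      rw [List.append_nil] at this
      rw [this, bd_single_nil]
    · rw [r1_cf_zero, map_zero]
      intro l hl
      exact h (List.append_eq_nil_iff.mp hl.symm).2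
  | cons x m ih =>
    have hm' : st S m := st_sub _ _ (List.sublist_cons_self x m) hm
    have ih' := ih hm'
    have e1 : (single (x :: m) (1 : 𝕜) : Ch 𝕜 α) = cons x (single m 1) := by rw [cons_single]
    have hz : cons x (bd (single m (1 : 𝕜))) φ = 0 := by
      by_contra hne
      obtain ⟨φ', h1, h2⟩ := r1_cons_apply x _ φ hne
      have h3 := r1_bd_length m φ' h2
      have h4 := hlen (x :: m) hm (by
        intro y hy
        refine ⟨x, by rw [h1]; exact List.mem_cons_self, ?_⟩
        rcases List.mem_cons.mp hy with rfl | hy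
        · exact le_refl _
        · exact (List.rel_of_pairwise_cons hm.1 hy).le)
      rw [h1, List.length_cons, List.length_cons] at h4
      omega
    rw [e1, bd_cons, r1_cf_cons, map_add, map_smul, bd_single_nil, smul_zero, add_zero, bd_cons,
      ih', map_sub, r1_cf_cons, hz, zero_smul, add_zero]

theorem cf_mem {α : Type*} [PartialOrder α] {S : Set α} (φ : List α) {c : Ch 𝕜 α}
    (hc : c ∈ Sp 𝕜 (st S)) : cf φ c ∈ Sp 𝕜 (st {x | x ∈ S ∧ ∀ f ∈ φ, f < x}) := by
  rw [mem_Sp] at hc ⊢
  intro l hl
  rw [Finsupp.mem_support_iff, cf_apply] at hl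
  have h := hc (l ++ φ) (Finsupp.mem_support_iff.mpr hl)
  obtain ⟨h1, h2⟩ := h
  rw [List.pairwise_append] at h1
  exact ⟨h1.1, fun a ha => ⟨h2 a (List.mem_append_left _ ha), fun f hf => h1.2.2 a ha f hf⟩⟩

end Vale.Agent.P240.K
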