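import Vale.Agent.P240.V.R0

/-!
P240-R2. Upper links.

`up_lift`: induction on `(S \ X).ncard`, exactly as in `not_NA_attach_all` (K/Acyclic.lean): if `S ≠ X` take a minimal element `T`
of `S \ X` (it is minimal in `S`), apply `exact_split` (K/Exact.lean) with `P = {T}`, `z = bd c` (in `Sp (st (S \ {T}))` since
`X ⊆ S \ {T}`): `bd c = bd c0 + ∑ X ∈ s, e X`, each `e X` being a cycle in `{Y ∈ S | T < Y}`, hence the boundary of a chain in
`{Y ∈ S | T < Y} ⊆ S \ {T}` (`not_NA_iff`, `hlk`). So `bd c = bd c'` with `c'` in `S \ {T}`; apply the induction hypothesis to `S \ {T}`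
(the sets `{x ∈ S \ {T} | T' < x}` and `{x ∈ S | T' < x}` agree, see the end of the proof of `not_NA_attach_all`).

For the other two: let `C = M ⊓ centralizer F`, `S = {X ∈ ApS | F < X}`, `X0 = {X ∈ S | X ⊓ M ≠ ⊥}` (upwards closed in `S`).
If `X ∈ S` then `F < X` and `X` is abelian, so `X ⊓ M ≤ C`; `X ⊓ M ∈ Ain p C` for `X ∈ X0` (`mem_ApS_of_le`, K/Groups.lean).
If `B ∈ Ain p C` then `F ⊔ B ∈ X0` (`sup_mem_ApS`; `F = ⊥` or `F ∈ ApS`) and `(F ⊔ B) ⊓ M = B` (an element of `F ⊔ B` is `f * b`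
with `f ∈ F`, `b ∈ B` since `F` and `B` commute; if it lies in `M` then `f ∈ F ⊓ M = ⊥`).
`link_acyclic`: `not_NA_attach_all` (elements of `S` outside `X0` are the `T` with `T ⊓ M = ⊥`; `{x ∈ S | T < x} = {X ∈ ApS | T < X}`)
reduces to `¬ NA 𝕜 X0`; `X0` retracts downwards (`not_NA_down`, `ρ X = F ⊔ (X ⊓ M) ≤ X`) to the set `{F ⊔ B | B ∈ Ain p C}`, which is
isomorphic to `Ain p C` (`NA_image` with `f B = F ⊔ B`; strictness from `(F ⊔ B) ⊓ M = B`).
`link_lift`: `up_lift` gives `c0` in `X0` with `bd c0 = mp (F ⊔ ·) b`. Put `d = pi (mp (· ⊓ M) c0)` (`mp_wk`, `pi_mem`, `bd_pi`, `bd_mp`,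
`mp_mp`, `mp_eq_self`, `pi_of_st`).
-/

namespace Vale.Agent.P240.K

open Finsupp Subgroup

universe u v

variable {𝕜 : Type v} [Field 𝕜]

theorem up_lift {α : Type*} [PartialOrder α] {S : Set α} (hS : S.Finite) {X : Set α} (hXS : X ⊆ S)
    (hup : ∀ x ∈ X, ∀ y ∈ S, x ≤ y → y ∈ X)
    (hlk : ∀ T ∈ S, T ∉ X → ¬ NA 𝕜 {x | x ∈ S ∧ T < x})
    {c : Ch 𝕜 α} (hc : c ∈ Sp 𝕜 (st S)) (hb : bd c ∈ Sp 𝕜 (st X)) :
    ∃ d ∈ Sp 𝕜 (st X), bd d = bd c := by
  classical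
  have key : ∀ n : ℕ, ∀ S : Set α, S.Finite → X ⊆ S → (S \ X).ncard = n →
      (∀ x ∈ X, ∀ y ∈ S, x ≤ y → y ∈ X) →
      (∀ T ∈ S, T ∉ X → ¬ NA 𝕜 {x | x ∈ S ∧ T < x}) → ∀ c ∈ Sp 𝕜 (st S),
      bd c ∈ Sp 𝕜 (st X) → ∃ d ∈ Sp 𝕜 (st X), bd d = bd c := by
    intro n
    induction n with
    | zero =>
      intro S hS hXS hn _ _ c hc _
      rw [Set.ncard_eq_zero (hS.subset Set.sdiff_subset)] at hn
      have : S = X := Set.Subset.antisymm (Set.sdiff_eq_empty.1 hn) hXS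
      subst this
      exact ⟨c, hc, rfl⟩
    | succ n ih =>
      intro S hS hXS hn hup hlk c hc hb
      have hfin : (S \ X).Finite := hS.subset Set.sdiff_subset
      have hne : (S \ X).Nonempty := by
        rw [Set.nonempty_iff_ne_empty]
        intro h
        rw [h, Set.ncard_empty] at hn
        omega
      obtain ⟨T, hT⟩ := hfin.exists_minimal hne
      have hTS : T ∈ S := hT.prop.1
      have hTX : T ∉ X := hT.prop.2
      have hmin : ∀ x ∈ S, ¬ x < T := by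
        intro x hx hlt
        by_cases hxX : x ∈ X
        · exact hTX (hup x hxX T hTS hlt.le)
        · exact hlt.not_ge (hT.2 (show x ∈ S \ X from ⟨hx, hxX⟩) hlt.le)
      have hXT : X ⊆ S \ {T} := fun x hx => ⟨hXS hx, fun h => hTX (h ▸ hx)⟩
      obtain ⟨c0, hc0, s, e, hs, he, hsum⟩ := exact_split (S := S) (P := {T}) (c := c)
        (z := bd c) (by
          intro X' hX' Y hY hle
          rw [Set.mem_singleton_iff] at hX'
          subst hX'
          rcases hle.lt_or_eq with h | h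
          · exact absurd h (hmin Y hY)
          · exact h) hc (Sp_mono (st_mono hXT) hb) rfl
      have hlkT := not_NA_iff.1 (hlk T hTS hTX)
      have hex : ∀ Y, ∃ g : Ch 𝕜 α, Y ∈ s → g ∈ Sp 𝕜 (st {x | x ∈ S ∧ T < x}) ∧ bd g = e Y := by
        intro Y
        by_cases hY : Y ∈ s
        · have hYT : Y = T := (hs Y hY).1
          have h1 := he Y hY
          rw [hYT] at h1
          obtain ⟨g, hg, hge⟩ := hlkT (e T) h1.1 h1.2
          refine ⟨g, fun _ => ⟨hg, ?_⟩⟩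
          rw [hge, hYT]
        · exact ⟨0, fun h => absurd h hY⟩
      choose g hg using hex
      have hLk : {x | x ∈ S ∧ T < x} ⊆ S \ {T} := by
        rintro x ⟨h1, h2⟩
        exact ⟨h1, fun h => h2.ne' h⟩
      have hc' : c0 + ∑ Y ∈ s, g Y ∈ Sp 𝕜 (st (S \ {T})) :=
        Submodule.add_mem _ hc0 (Submodule.sum_mem _ fun Y hY =>
          Sp_mono (st_mono hLk) (hg Y hY).1)
      have hbc : bd (c0 + ∑ Y ∈ s, g Y) = bd c := by
        rw [map_add, map_sum, hsum]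
        congr 1
        exact Finset.sum_congr rfl fun Y hY => (hg Y hY).2
      obtain ⟨d, hd, hdb⟩ := ih (S \ {T}) (hS.subset Set.sdiff_subset) hXT (by
          have : (S \ {T}) \ X = (S \ X) \ {T} := by
            ext x
            simp only [Set.mem_sdiff, Set.mem_singleton_iff]
            tauto
          rw [this, Set.ncard_sdiff_singleton_of_mem (show T ∈ S \ X from ⟨hTS, hTX⟩), hn]
          rfl) (fun x hx y hy hxy => hup x hx y hy.1 hxy) (by
          intro T' hT' hT'X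
          have : {x | x ∈ S \ {T} ∧ T' < x} = {x | x ∈ S ∧ T' < x} := by
            ext x
            constructor
            · rintro ⟨h1, h2⟩
              exact ⟨h1.1, h2⟩
            · rintro ⟨h1, h2⟩
              refine ⟨⟨h1, ?_⟩, h2⟩
              rintro rfl
              exact hmin T' hT'.1 h2
          rw [this]
          exact hlk T' hT'.1 hT'X) _ hc' (by rw [hbc]; exact hb)
      exact ⟨d, hd, by rw [hdb, hbc]⟩
  exact key _ S hS hXS rfl hup hlk c hc hb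

section
variable {G : Type u} [Group G] {p : ℕ}

lemma r2_comm {M F B : Subgroup G} (hB : B ∈ Ain p (M ⊓ centralizer (F : Set G))) :
    ∀ x ∈ F, ∀ y ∈ B, x * y = y * x := fun x hx y hy =>
  (Subgroup.mem_centralizer_iff.1 (hB.2 hy).2) x hx

lemma r2_sup {M F B : Subgroup G} (hFM : F ⊓ M = ⊥)
    (hB : B ∈ Ain p (M ⊓ centralizer (F : Set G))) : (F ⊔ B) ⊓ M = B := by
  have hBM : B ≤ M := fun x hx => (hB.2 hx).1
  refine le_antisymm ?_ (le_inf le_sup_right hBM)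
  have hcm := r2_comm hB
  let P : Subgroup G :=
    { carrier := {x | ∃ f ∈ F, ∃ b ∈ B, f * b = x}
      one_mem' := ⟨1, one_mem _, 1, one_mem _, one_mul _⟩
      mul_mem' := by
        rintro _ _ ⟨f, hf, b, hb, rfl⟩ ⟨f', hf', b', hb', rfl⟩
        refine ⟨f * f', mul_mem hf hf', b * b', mul_mem hb hb', ?_⟩
        have h := hcm f' hf' b hb
        calc f * f' * (b * b') = f * (f' * b) * b' := by group
          _ = f * (b * f') * b' := by rw [h]
          _ = f * b * (f' * b') := by group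
      inv_mem' := by
        rintro _ ⟨f, hf, b, hb, rfl⟩
        refine ⟨f⁻¹, inv_mem hf, b⁻¹, inv_mem hb, ?_⟩
        rw [mul_inv_rev]
        exact hcm _ (inv_mem hf) _ (inv_mem hb) }
  have hle : F ⊔ B ≤ P := sup_le
    (fun x hx => ⟨x, hx, 1, one_mem _, mul_one _⟩)
    (fun x hx => ⟨1, one_mem _, x, hx, one_mul _⟩)
  rintro x ⟨hx, hxM⟩
  obtain ⟨f, hf, b, hb, rfl⟩ := hle hx
  have hfM : f ∈ F ⊓ M := by
    refine ⟨hf, ?_⟩
    have h1 : f * b * b⁻¹ ∈ M := M.mul_mem hxM (M.inv_mem (hBM hb))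
    rwa [mul_inv_cancel_right] at h1
  rw [hFM, Subgroup.mem_bot] at hfM
  rw [hfM, one_mul]
  exact hb

lemma r2_inf_mem {M F X : Subgroup G} (hX : X ∈ ApS p G) (hFX : F ≤ X) (hXM : X ⊓ M ≠ ⊥) :
    X ⊓ M ∈ Ain p (M ⊓ centralizer (F : Set G)) := by
  refine ⟨mem_ApS_of_le hX inf_le_left hXM, fun x hx => ⟨hx.2, ?_⟩⟩
  exact Subgroup.mem_centralizer_iff.2 fun y hy => hX.2.1 y (hFX hy) x hx.1

lemma r2_sup_mem {M F B : Subgroup G} (hF : F ∈ ApB p G) (hFM : F ⊓ M = ⊥)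
    (hB : B ∈ Ain p (M ⊓ centralizer (F : Set G))) :
    F ⊔ B ∈ {X | (X ∈ ApS p G ∧ F < X) ∧ X ⊓ M ≠ ⊥} := by
  refine ⟨⟨?_, ?_⟩, ?_⟩
  · rcases hF with h | h
    · rw [h, bot_sup_eq]
      exact hB.1
    · exact sup_mem_ApS h hB.1 (r2_comm hB)
  · refine lt_of_le_of_ne le_sup_left fun h => ?_
    have h1 : B ≤ F := by
      rw [h]
      exact le_sup_right
    have h2 : B ≤ F ⊓ M := le_inf h1 fun x hx => (hB.2 hx).1
    rw [hFM, le_bot_iff] at h2
    exact hB.1.1 h2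
  · rw [r2_sup hFM hB]
    exact hB.1.1

lemma r2_lt {M F B B' : Subgroup G} (hFM : F ⊓ M = ⊥)
    (hB : B ∈ Ain p (M ⊓ centralizer (F : Set G)))
    (hB' : B' ∈ Ain p (M ⊓ centralizer (F : Set G))) : B < B' ↔ F ⊔ B < F ⊔ B' := by
  have hle : F ⊔ B ≤ F ⊔ B' → B ≤ B' := fun h => by
    rw [← r2_sup hFM hB, ← r2_sup hFM hB']
    exact inf_le_inf_right _ h
  constructor
  · intro h
    refine lt_of_le_not_ge (sup_le_sup_left h.le _) fun h' => ?_
    refine h.not_ge ?_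
    rw [← r2_sup hFM hB, ← r2_sup hFM hB']
    exact inf_le_inf_right _ h'
  · intro h
    refine lt_of_le_not_ge (hle h.le) fun h' => ?_
    exact h.not_ge (sup_le_sup_left h' _)

theorem link_acyclic [Finite G] (M : Subgroup G) {F : Subgroup G} (hF : F ∈ ApB p G)
    (hFM : F ⊓ M = ⊥)
    (hlk : ∀ T ∈ ApS p G, F < T → T ⊓ M = ⊥ → ¬ NA 𝕜 {X | X ∈ ApS p G ∧ T < X})
    (hac : ¬ NA 𝕜 (Ain p (M ⊓ centralizer (F : Set G)))) :
    ¬ NA 𝕜 {X | X ∈ ApS p G ∧ F < X} := by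
  refine not_NA_attach_all (S := {X | X ∈ ApS p G ∧ F < X}) (Set.toFinite _)
    (X := {X | (X ∈ ApS p G ∧ F < X) ∧ X ⊓ M ≠ ⊥}) (fun X hX => hX.1) ?_ ?_ ?_
  · intro x hx y hy hxy
    refine ⟨hy, fun h => hx.2 ?_⟩
    rw [← le_bot_iff, ← h]
    exact inf_le_inf_right _ hxy
  · refine not_NA_down (R := (fun B => F ⊔ B) '' (Ain p (M ⊓ centralizer (F : Set G))))
      (ρ := fun X => F ⊔ (X ⊓ M)) ?_ ?_ ?_ ?_ ?_
    · rintro _ ⟨B, hB, rfl⟩
      exact r2_sup_mem hF hFM hB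
    · intro X hX
      exact ⟨X ⊓ M, r2_inf_mem hX.1.1 hX.1.2.le hX.2, rfl⟩
    · intro X hX
      exact sup_le hX.1.2.le inf_le_left
    · intro X _ Y _ hXY
      exact sup_le_sup_left (inf_le_inf_right _ hXY) _
    · rw [NA_image]
      · exact hac
      · intro B hB B' hB' h
        have h' : F ⊔ B = F ⊔ B' := h
        rw [← r2_sup hFM hB, ← r2_sup hFM hB', h']
      · intro B hB B' hB'
        exact r2_lt hFM hB hB'
  · intro T hT hTX
    have hTM : T ⊓ M = ⊥ := by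
      by_contra h
      exact hTX ⟨hT, h⟩
    have : {x | x ∈ {X | X ∈ ApS p G ∧ F < X} ∧ T < x} = {X | X ∈ ApS p G ∧ T < X} := by
      ext x
      constructor
      · rintro ⟨h1, h2⟩
        exact ⟨h1.1, h2⟩
      · rintro ⟨h1, h2⟩
        exact ⟨⟨h1, hT.2.trans h2⟩, h2⟩
    rw [this]
    exact hlk T hT.1 hT.2 hTM

theorem link_lift [Finite G] (M : Subgroup G) {F : Subgroup G} (hF : F ∈ ApB p G)
    (hFM : F ⊓ M = ⊥)
    (hlk : ∀ T ∈ ApS p G, F < T → T ⊓ M = ⊥ → ¬ NA 𝕜 {X | X ∈ ApS p G ∧ T < X})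
    {b : Ch 𝕜 (Subgroup G)} (hb : b ∈ Sp 𝕜 (st (Ain p (M ⊓ centralizer (F : Set G)))))
    {c : Ch 𝕜 (Subgroup G)} (hc : c ∈ Sp 𝕜 (st {X | X ∈ ApS p G ∧ F < X}))
    (hcb : bd c = mp (fun B => F ⊔ B) b) :
    ∃ d ∈ Sp 𝕜 (st (Ain p (M ⊓ centralizer (F : Set G)))), bd d = b := by
  obtain ⟨c0, hc0, hbc0⟩ := up_lift (S := {X | X ∈ ApS p G ∧ F < X}) (Set.toFinite _)
    (X := {X | (X ∈ ApS p G ∧ F < X) ∧ X ⊓ M ≠ ⊥}) (fun X hX => hX.1) (by
      intro x hx y hy hxy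
      refine ⟨hy, fun h => hx.2 ?_⟩
      rw [← le_bot_iff, ← h]
      exact inf_le_inf_right _ hxy) (by
      intro T hT hTX
      have hTM : T ⊓ M = ⊥ := by
        by_contra h
        exact hTX ⟨hT, h⟩
      have : {x | x ∈ {X | X ∈ ApS p G ∧ F < X} ∧ T < x} = {X | X ∈ ApS p G ∧ T < X} := by
        ext x
        constructor
        · rintro ⟨h1, h2⟩
          exact ⟨h1.1, h2⟩
        · rintro ⟨h1, h2⟩
          exact ⟨⟨h1, hT.2.trans h2⟩, h2⟩
      rw [this]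
      exact hlk T hT.1 hT.2 hTM) hc (by
      rw [hcb]
      exact mp_mem (st_map (fun B hB => r2_sup_mem hF hFM hB)
        fun B hB B' hB' h => (r2_lt hFM hB hB').1 h) hb)
  have h1 : mp (fun X => X ⊓ M) c0 ∈ Sp 𝕜 (wk (Ain p (M ⊓ centralizer (F : Set G)))) :=
    mp_wk (fun X hX => r2_inf_mem hX.1.1 hX.1.2.le hX.2)
      (fun X _ Y _ hXY => inf_le_inf_right _ hXY) hc0
  refine ⟨pi (mp (fun X => X ⊓ M) c0), pi_mem h1, ?_⟩
  have h2 : mp ((fun X => X ⊓ M) ∘ fun B => F ⊔ B) b = b :=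
    mp_eq_self (P := st (Ain p (M ⊓ centralizer (F : Set G))))
      (fun l hl a ha => r2_sup hFM (hl.2 a ha)) hb
  rw [bd_pi h1, bd_mp, hbc0, hcb, mp_mp, h2, pi_of_st hb]

end

end Vale.Agent.P240.K
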