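import Vale.Agent.P240.V.R0

/-!
P240-R3. The coefficient at `φ` of a shuffle product.

By bilinearity (`map_mem`, `eq_of_Sp`, `sh_single`, `mem_Sp`) it is enough to show for a strictly decreasing list `s` in `Ain p H` with
`s.length = φ.length` and a strictly decreasing list `t` in `Ain p (M ⊓ centralizer F)`:
`cf φ (pi (shL s t)) = if s = φ then (-1) ^ (φ.length * t.length) • single (t.map (F ⊔ ·)) 1 else 0`
(then sum over `s` in the support of `α`; `(sg^[r]) (single t 1) = (-1) ^ (r * t.length) • single t 1` by `sg_single`).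
If `φ = []` then `F = ⊥`, `s = []`, `shL [] t = single t 1`: clear. Let `φ = F :: φ'`, `F ≠ ⊥` (`card`, or: `φ` is in the support of `α`, so its elements
are in `ApS`); all elements of `φ` are `≤ F`. By definition of `shL` (K/Shuffle.lean: `shL (a :: s) (b :: t) = cons (a ⊔ b) (shL s (b :: t) +
(-1) ^ (s.length + 1) • shL (a :: s) t)`), with `s = a :: s'`:
(i) every list in the support of `shL s'' (b :: t'')` has an element containing some member of `b :: t''` in its last `s''.length + 1` entries; more
simply: prove by induction on `s''.length + t''.length` that a list `l` in the support of `shL s'' t''` with `t'' ≠ []` and `s''.length < φ.length`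
is not of the form `l' ++ φ`: indeed among its last `φ.length > s''.length` entries there is one that contains a member of `t''`, which is
a nontrivial subgroup of `M`, while the entries of `φ` are `≤ F` and `F ⊓ M = ⊥`.
(ii) So in `shL (a :: s') (b :: t')` only the terms `cons (a ⊔ b) ((-1) ^ (s'.length + 1) • shL (a :: s') t')` contribute, and by induction on `t`
the only list that contributes is `(t.map (a ⊔ ·)) ++ (a :: s')`, which ends with `φ` iff `a :: s' = φ` (equal lengths).
(iii) `pi` (K/Chains2.lean, `pi_single`) keeps the list `t.map (F ⊔ ·) ++ φ`, since it is strictly decreasing: `(F ⊔ B) ⊓ M = B` for `B ≤ M ⊓ centralizer F`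
(an element of `F ⊔ B` is `f * b`, and `f ∈ F ⊓ M = ⊥` if it lies in `M`), so `B' < B` implies `F ⊔ B' < F ⊔ B`, and `F < F ⊔ B`.
-/

namespace Vale.Agent.P240.K

open Finsupp Subgroup

universe u v

variable {𝕜 : Type v} [Field 𝕜]

/-! ### Lists with an entry above a member of `T` -/

section lists
variable {α : Type*}

/-- among the last `n + 1` entries of `l` there is one which is above a member of `T` -/
def r3_Q [LE α] (T : Set α) (n : ℕ) (l : List α) : Prop :=
  ∃ l1 x l2, l = l1 ++ x :: l2 ∧ l2.length ≤ n ∧ ∃ b ∈ T, b ≤ x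

lemma r3_Q_cons [LE α] {T : Set α} {m n : ℕ} (h : m ≤ n) (y : α) (l : List α) (hl : r3_Q T m l) :
    r3_Q T n (y :: l) := by
  obtain ⟨l1, x, l2, rfl, h2, hb⟩ := hl
  exact ⟨y :: l1, x, l2, rfl, h2.trans h, hb⟩

lemma r3_Q_not [LE α] {T : Set α} {n : ℕ} {φ : List α} (hn : n < φ.length)
    (hφ : ∀ x ∈ φ, ∀ b ∈ T, ¬ b ≤ x) (l : List α) : ¬ r3_Q T n (l ++ φ) := by
  rintro ⟨l1, x, l2, h, h2, b, hb, hbx⟩
  refine hφ x ?_ b hb hbx
  have h3 : (l ++ φ).drop l.length = φ := List.drop_left
  have h4 : l.length ≤ l1.length := by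
    have := congrArg List.length h
    simp only [List.length_append, List.length_cons] at this
    omega
  rw [h, List.drop_append_of_le_length h4] at h3
  rw [← h3]
  simp

lemma r3_shL [SemilatticeSup α] {T : Set α} (s : List α) : ∀ t : List α, t ≠ [] →
    (∀ b ∈ t, b ∈ T) → shL (𝕜 := 𝕜) s t ∈ Sp 𝕜 (r3_Q T s.length) := by
  induction s with
  | nil =>
    intro t ht hT
    rw [shL]
    refine single_mem_Sp ?_ _
    refine ⟨t.dropLast, t.getLast ht, [], ?_, le_refl _, t.getLast ht, hT _ (List.getLast_mem ht),
      le_refl _⟩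
    exact (List.dropLast_append_getLast ht).symm
  | cons a s ih =>
    intro t
    induction t with
    | nil => intro h; exact absurd rfl h
    | cons b t iht =>
      intro _ hT
      rw [shL]
      have h1 : shL (𝕜 := 𝕜) s (b :: t) ∈ Sp 𝕜 (r3_Q T s.length) :=
        ih (b :: t) (by simp) hT
      rw [map_add, map_smul]
      refine Submodule.add_mem _ (cons_mem (fun l hl => r3_Q_cons (by simp) _ l hl) h1)
        (Submodule.smul_mem _ _ ?_)
      rcases t with _ | ⟨b', t⟩
      · rw [shL, cons_single]
        refine single_mem_Sp ?_ _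
        exact ⟨[], a ⊔ b, a :: s, rfl, le_refl _, b, hT b (by simp), le_sup_right⟩
      · refine cons_mem (fun l hl => r3_Q_cons (le_refl _) _ l hl) ?_
        exact iht (by simp) fun x hx => hT x (List.mem_cons_of_mem _ hx)

lemma r3_cf_zero {φ : List α} {P : List α → Prop} (hP : ∀ l, ¬ P (l ++ φ)) {c : Ch 𝕜 α}
    (hc : c ∈ Sp 𝕜 P) : cf φ c = 0 := by
  ext l
  rw [cf_apply, Finsupp.zero_apply]
  by_contra h
  exact hP l (mem_Sp.1 hc _ (Finsupp.mem_support_iff.2 h))

lemma r3_cf_cons {φ : List α} {y : α} (hy : y ∉ φ) (c : Ch 𝕜 α) :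
    cf φ (cons y c) = cons y (cf φ c) := by
  have := lin_ext_apply (f := (cf (𝕜 := 𝕜) φ).comp (cons y)) (g := (cons y).comp (cf (𝕜 := 𝕜) φ))
    (fun m => by
      simp only [LinearMap.comp_apply, cons_single]
      ext l
      rw [cf_apply]
      rcases l with _ | ⟨z, l⟩
      · have h1 : cons y (cf φ (single m (1 : 𝕜))) ([] : List α) = 0 := by
          rw [cons, Finsupp.lmapDomain_apply]
          refine Finsupp.mapDomain_of_notMem_range _ _ ?_
          rintro ⟨l, hl⟩
          exact absurd hl (by simp)
        rw [h1, List.nil_append]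
        refine Finsupp.single_eq_of_ne ?_
        intro h
        apply hy
        rw [h]
        simp
      · by_cases hz : z = y
        · subst hz
          have h1 : cons z (cf φ (single m (1 : 𝕜))) (z :: l) = cf φ (single m (1 : 𝕜)) l := by
            rw [cons, Finsupp.lmapDomain_apply]
            exact Finsupp.mapDomain_apply (List.cons_injective) _ l
          rw [h1, cf_apply, List.cons_append]
          by_cases h : m = l ++ φ
          · rw [h, Finsupp.single_eq_same, Finsupp.single_eq_same]
          · rw [Finsupp.single_eq_of_ne (fun h' => h (List.cons_injective h').symm),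
              Finsupp.single_eq_of_ne (fun h' => h h'.symm)]
        · have h1 : cons y (cf φ (single m (1 : 𝕜))) (z :: l) = 0 := by
            rw [cons, Finsupp.lmapDomain_apply]
            refine Finsupp.mapDomain_of_notMem_range _ _ ?_
            rintro ⟨l, hl⟩
            exact hz (List.cons.inj hl).1.symm
          rw [h1, List.cons_append]
          refine Finsupp.single_eq_of_ne ?_
          intro h
          exact hz (List.cons.inj h).1) c
  simpa using this

open Classical in
lemma r3_cf_single {φ : List α} {s : List α} (hs : s.length = φ.length) :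
    cf φ (single s (1 : 𝕜)) = if s = φ then single [] 1 else 0 := by
  ext l
  rw [cf_apply]
  split_ifs with h
  · subst h
    rcases l with _ | ⟨z, l⟩
    · simp
    · rw [Finsupp.single_eq_of_ne, Finsupp.single_eq_of_ne]
      · simp
      · intro h
        have := congrArg List.length h
        simp only [List.cons_append, List.length_cons, List.length_append] at this
        omega
  · rw [Finsupp.zero_apply]
    refine Finsupp.single_eq_of_ne ?_
    intro h'
    have := congrArg List.length h'
    rw [List.length_append] at this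
    have hl : l = [] := List.length_eq_zero_iff.1 (by omega)
    rw [hl, List.nil_append] at h'
    exact h h'.symm

open Classical in
lemma r3_cf_shL [SemilatticeSup α] {T : Set α} {φ : List α}
    (hφ : ∀ x ∈ φ, ∀ b ∈ T, ¬ b ≤ x) (a : α) (s : List α) (hs : (a :: s).length = φ.length) :
    ∀ t : List α, (∀ b ∈ t, b ∈ T) → cf φ (shL (𝕜 := 𝕜) (a :: s) t) =
      if a :: s = φ then (-1 : 𝕜) ^ (φ.length * t.length) • single (t.map (fun B => a ⊔ B)) 1
      else 0 := by
  intro t
  induction t with
  | nil =>
    intro _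
    rw [shL, r3_cf_single hs]
    split_ifs <;> simp
  | cons b t ih =>
    intro hT
    have h1 : a ⊔ b ∉ φ := fun h => hφ _ h b (hT b (by simp)) le_sup_right
    have h2 : cf φ (shL (𝕜 := 𝕜) s (b :: t)) = 0 := by
      refine r3_cf_zero (P := r3_Q T s.length) (fun l => r3_Q_not ?_ hφ l)
        (r3_shL s (b :: t) (by simp) hT)
      rw [← hs]
      simp
    rw [shL, r3_cf_cons h1, map_add, map_smul, h2, zero_add,
      ih fun x hx => hT x (List.mem_cons_of_mem _ hx)]
    split_ifs with h
    · have h3 : s.length + 1 = φ.length := by simpa using hs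
      rw [h3, map_smul, map_smul, cons_single, smul_smul, ← pow_add, List.map_cons,
        List.length_cons]
      congr 2
      ring
    · rw [smul_zero, map_zero]

open Classical in
lemma r3_pi_apply [LT α] (c : Ch 𝕜 α) (l : List α) :
    pi c l = if l.Pairwise (· > ·) then c l else 0 := by
  by_cases hl : l.Pairwise (· > ·)
  · rw [if_pos hl]
    exact lin_ext_apply (f := (Finsupp.lapply l).comp (pi (𝕜 := 𝕜) (α := α)))
      (g := Finsupp.lapply l) (fun m => by
        simp only [LinearMap.comp_apply, Finsupp.lapply_apply, pi_single]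
        split_ifs with h
        · rfl
        · rw [Finsupp.zero_apply, Finsupp.single_eq_of_ne]
          rintro rfl
          exact h hl) c
  · rw [if_neg hl]
    exact lin_ext_apply (f := (Finsupp.lapply l).comp (pi (𝕜 := 𝕜) (α := α)))
      (g := (0 : Ch 𝕜 α →ₗ[𝕜] 𝕜)) (fun m => by
        simp only [LinearMap.comp_apply, Finsupp.lapply_apply, pi_single, LinearMap.zero_apply]
        split_ifs with h
        · rw [Finsupp.single_eq_of_ne]
          rintro rfl
          exact hl h
        · rfl) c

lemma r3_cf_pi_zero [LT α] {φ : List α} {c : Ch 𝕜 α} (h : cf φ c = 0) : cf φ (pi c) = 0 := by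
  classical
  ext l
  have h1 : c (l ++ φ) = 0 := by
    rw [← cf_apply, h, Finsupp.zero_apply]
  rw [cf_apply, r3_pi_apply, h1, ite_self, Finsupp.zero_apply]

lemma r3_cf_pi_single [LT α] {φ m : List α} {k : 𝕜} {c : Ch 𝕜 α} (h : cf φ c = k • single m 1)
    (hm : (m ++ φ).Pairwise (· > ·)) : cf φ (pi c) = k • single m 1 := by
  classical
  ext l
  have h1 : c (l ++ φ) = (k • single m (1 : 𝕜)) l := by
    rw [← cf_apply, h]
  rw [cf_apply, r3_pi_apply, h1]
  by_cases hl : l = m
  · subst hl
    rw [if_pos hm]
  · rw [Finsupp.smul_apply, Finsupp.single_eq_of_ne hl, smul_zero, ite_self]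

lemma r3_sg_iter (r : ℕ) (t : List α) :
    ((⇑(sg (𝕜 := 𝕜) (α := α)))^[r] (single t (1 : 𝕜))) =
      (-1 : 𝕜) ^ (r * t.length) • single t (1 : 𝕜) := by
  induction r with
  | zero => simp
  | succ r ih =>
    rw [Function.iterate_succ_apply', ih, map_smul, sg_single, smul_smul, ← pow_add]
    congr 2
    ring

end lists

section
variable {G : Type u} [Group G] {p : ℕ}

lemma r3_mem_sup {F B : Subgroup G} (h : B ≤ centralizer (F : Set G)) {x : G} (hx : x ∈ F ⊔ B) :
    ∃ f ∈ F, ∃ b ∈ B, x = f * b :=
  mem_sup_comm (fun a ha _ hb => Subgroup.mem_centralizer_iff.1 (h hb) a ha) hx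

lemma r3_lt {M F B B' : Subgroup G} (hFM : F ⊓ M = ⊥) (hB : B ≤ M ⊓ centralizer (F : Set G))
    (hlt : B' < B) : F ⊔ B' < F ⊔ B := by
  refine lt_of_le_of_ne (sup_le_sup_left hlt.le F) fun he => hlt.not_ge fun b hb => ?_
  have h1 : b ∈ F ⊔ B' := by rw [he]; exact Subgroup.mem_sup_right hb
  obtain ⟨f, hf, b', hb', rfl⟩ := r3_mem_sup (hlt.le.trans (hB.trans inf_le_right)) h1
  have h2 : f ∈ F ⊓ M := by
    refine ⟨hf, ?_⟩
    have h3 := M.mul_mem (hB hb).1 (M.inv_mem (hB (hlt.le hb')).1)
    rwa [mul_inv_cancel_right] at h3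
  rw [hFM, Subgroup.mem_bot] at h2
  rw [h2, one_mul]
  exact hb'

theorem cf_sh [Finite G] {M H F : Subgroup G} (hFM : F ⊓ M = ⊥) {α : Ch 𝕜 (Subgroup G)}
    {φ : List (Subgroup G)} (hα : TopCycle 𝕜 p H F α φ) {b : Ch 𝕜 (Subgroup G)}
    (hb : b ∈ Sp 𝕜 (st (Ain p (M ⊓ centralizer (F : Set G))))) :
    cf φ (pi (sh α ((⇑(sg (𝕜 := 𝕜) (α := Subgroup G)))^[φ.length] b))) =
      α φ • mp (fun B => F ⊔ B) b := by
  classical
  have hφst : st (Ain p H) φ := (mem_Sp.1 hα.mem φ (Finsupp.mem_support_iff.2 hα.ne)).1
  -- the formula on lists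
  have key : ∀ s : List (Subgroup G), s.length = φ.length → ∀ t : List (Subgroup G),
      st (Ain p (M ⊓ centralizer (F : Set G))) t →
      cf φ (pi (shL (𝕜 := 𝕜) s t)) =
        if s = φ then (-1 : 𝕜) ^ (φ.length * t.length) • single (t.map (fun B => F ⊔ B)) 1
        else 0 := by
    intro s hs t ht
    rcases hα.top with ⟨h1, h2⟩ | ⟨φ', h1⟩
    · subst h1 h2
      have hs' : s = [] := List.length_eq_zero_iff.1 hs
      subst hs'
      rw [shL, pi_single, if_pos ht.1]
      have h3 : t.map (fun B => (⊥ : Subgroup G) ⊔ B) = t := by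
        simp
      rw [h3]
      ext l
      rw [cf_apply]
      simp
    · have hne : φ ≠ [] := by rw [h1]; simp
      rcases s with _ | ⟨a, s⟩
      · exfalso
        apply hne
        exact List.length_eq_zero_iff.1 hs.symm
      have hle : ∀ x ∈ φ, x ≤ F := by
        intro x hx
        rw [h1] at hx
        rcases List.mem_cons.1 hx with rfl | hx
        · exact le_refl _
        · have := hφst.1
          rw [h1, List.pairwise_cons] at this
          exact (this.1 x hx).le
      have hφ : ∀ x ∈ φ, ∀ B ∈ Ain p (M ⊓ centralizer (F : Set G)), ¬ B ≤ x := by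
        intro x hx B hB hBx
        apply hB.1.1
        rw [eq_bot_iff, ← hFM]
        exact le_inf (hBx.trans (hle x hx)) (hB.2.trans inf_le_left)
      have h2 := r3_cf_shL (𝕜 := 𝕜) hφ a s hs t ht.2
      split_ifs at h2 ⊢ with h
      · have haF : a = F := by
          rw [h1] at h
          exact (List.cons.inj h).1
        subst haF
        refine r3_cf_pi_single h2 ?_
        rw [List.pairwise_append]
        refine ⟨?_, hφst.1, ?_⟩
        · rw [List.pairwise_map]
          exact ht.1.imp_of_mem fun {x y} hx hy hxy => r3_lt hFM (ht.2 x hx).2 hxy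
        · intro x hx y hy
          obtain ⟨B, hB, rfl⟩ := List.mem_map.1 hx
          refine lt_of_le_of_lt (hle y hy) (lt_of_le_of_ne le_sup_left fun he => ?_)
          refine hφ a ?_ B (ht.2 B hB) ?_
          · rw [h1]; simp
          · conv_rhs => rw [he]
            exact le_sup_right
      · exact r3_cf_pi_zero h2
  -- linearity in `b`
  have key2 : ∀ s : List (Subgroup G), s.length = φ.length →
      cf φ (pi (sh (single s (1 : 𝕜)) ((⇑(sg (𝕜 := 𝕜) (α := Subgroup G)))^[φ.length] b))) =
        if s = φ then mp (fun B => F ⊔ B) b else 0 := by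
    intro s hs
    have h1 := eq_of_Sp (𝕜 := 𝕜)
      (F := (cf φ).comp (pi.comp ((sh (single s (1 : 𝕜))).comp
        ((sg (𝕜 := 𝕜) (α := Subgroup G) : Module.End 𝕜 (Ch 𝕜 (Subgroup G))) ^ φ.length))))
      (G := if s = φ then mp (fun B => F ⊔ B) else 0) (fun t ht => by
        simp only [LinearMap.comp_apply]
        rw [Module.End.pow_apply, r3_sg_iter, map_smul, map_smul, map_smul, sh_single,
          key s hs t ht]
        split_ifs with h
        · rw [smul_smul, ← pow_add, ← two_mul, pow_mul, neg_one_sq, one_pow, one_smul, mp_single]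
        · rw [smul_zero, LinearMap.zero_apply]) hb
    simp only [LinearMap.comp_apply] at h1
    rw [Module.End.pow_apply] at h1
    rw [h1]
    split_ifs <;> rfl
  -- linearity in `α`
  have h1 := eq_of_Sp (𝕜 := 𝕜)
    (F := (cf φ).comp (pi.comp ((sh (𝕜 := 𝕜) (α := Subgroup G)).flip
      ((⇑(sg (𝕜 := 𝕜) (α := Subgroup G)))^[φ.length] b))))
    (G := (Finsupp.lapply φ : Ch 𝕜 (Subgroup G) →ₗ[𝕜] 𝕜).smulRight (mp (fun B => F ⊔ B) b))
    (fun s hs => by
      simp only [LinearMap.comp_apply, LinearMap.flip_apply, LinearMap.smulRight_apply,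
        Finsupp.lapply_apply]
      rw [key2 s hs.2]
      split_ifs with h
      · rw [h, Finsupp.single_eq_same, one_smul]
      · rw [Finsupp.single_eq_of_ne (fun h' => h h'.symm), zero_smul]) hα.mem
  exact h1

end

end Vale.Agent.P240.K
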