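import Vale.Agent.P240.V.R0

/-!
P240-R4. The group theory for the top cycles (`Y` a solvable `p'`-group, `F` elementary abelian, acting faithfully on `Y`).

`Y ≠ ⊥` (otherwise `F` centralizes `Y`, so `F = ⊥`). Take `M` from `exists_top_factor` (K/Weights2.lean) with `P = F`, `Q = Y`: `M < Y` is
normalized by `F` and by `Y`, `Y/M` is abelian and `F`-irreducible. If no `1 ≠ x ∈ F` centralizes `M` we are done. Let `1 ≠ a ∈ F` centralize `M`.
Let `H = {x ∈ F | ∀ y ∈ Y, x * y * x⁻¹ * y⁻¹ ∈ M}` (a subgroup; in `ApB p G` by `mem_ApS_of_le`).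
(1) If `x ∈ F` centralizes `M` and `x y x⁻¹ y⁻¹ ∈ M` for all `y ∈ Y`, then `x = 1`: for `y ∈ Y` write `x y x⁻¹ = m y` with `m ∈ M`; then
`x ^ i y x ^ (-i) = m ^ i y`, so `m ^ p = 1` (`x ^ p = 1`), so `m = 1` since `p` does not divide `|M|`; so `x` centralizes `Y`.
So `H ⊓ zpowers a = ⊥` (an element of it centralizes `M`) and an `x ∈ H` centralizing `M` is `1`.
(2) If `x ∈ F` is not in `H` and `y ∈ Y` satisfies `x y x⁻¹ y⁻¹ ∈ M`, then `y ∈ M`: `K = {y ∈ Y | x y x⁻¹ y⁻¹ ∈ M}` is a subgroup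
(`M` is normal in `Y`, `Y/M` abelian) containing `M`, normalized by `F` (`F` is abelian), so `K = M` or `K = Y` by irreducibility, and `K ≠ Y`
as `x ∉ H`.
(3) `F = H ⊔ zpowers a`: let `b ∈ F`; if `b * a ^ j ∉ H` for all `j`, then use `top_factor_action` (K/Weights2.lean) and
`pow_one_of_free` (K/Weights.lean) with `A`, `B` the endomorphisms of `V = Y/M` induced by `b`, `a`: by (2) `b a ^ j` and `a ^ i` (`0 < i < p`;
`a ^ i ∉ H` by (1)) have no nontrivial fixed points on `V`, so `v ^ p = 1` for all `v ∈ V`, so `V` is trivial (`|V|` divides `|Y|`, prime to `p`),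
contradicting `M < Y`. (See the use of `pow_one_of_free` in K/Weights3.lean.)
(4) `t`: `M` has index prime to `p`; let `y ∈ Y`, `y ∉ M`. The `p`-group `H` acts by conjugation on the coset `{y * m | m ∈ M}` (since
`x y x⁻¹ ∈ M y = y M`), whose cardinality `|M|` is prime to `p`, so it has a fixed point `t` (`IsPGroup.nonempty_fixed_point_of_prime_not_dvd_card`):
`t ∈ Y`, `t ∉ M`, `t` commutes with `H`.
(5) `t a t⁻¹ ∉ F`: otherwise `t a t⁻¹ a⁻¹ ∈ F ⊓ Y = ⊥` (orders prime to each other), so `a` commutes with `t`, so `t ∈ M` by (2) (as `a ∉ H`).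
-/

namespace Vale.Agent.P240.K

open Finsupp Subgroup

universe u v

section
variable {G : Type u} [Group G] {p : ℕ}

lemma r4_eq_one [Finite G] [hp : Fact p.Prime] {M : Subgroup G} (hM : ¬ p ∣ Nat.card M) {m : G}
    (hm : m ∈ M) (h : m ^ p = 1) : m = 1 := by
  rw [← orderOf_eq_one_iff]
  have h1 : orderOf m ∣ p := orderOf_dvd_of_pow_eq_one h
  have h2 : orderOf m ∣ Nat.card M := by
    have h3 := orderOf_dvd_natCard (⟨m, hm⟩ : M)
    rwa [Subgroup.orderOf_mk] at h3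
  rcases (Nat.dvd_prime hp.out).1 h1 with h3 | h3
  · exact h3
  · rw [h3] at h2
    exact absurd h2 hM

lemma r4_conj_pow {x y m : G} (h : x * y * x⁻¹ = m * y) (hc : x * m = m * x) (i : ℕ) :
    x ^ i * y * (x ^ i)⁻¹ = m ^ i * y := by
  induction i with
  | zero => simp
  | succ i ih =>
    have hc' : x * m ^ i = m ^ i * x := (Commute.pow_right (show Commute x m from hc) i)
    calc x ^ (i + 1) * y * (x ^ (i + 1))⁻¹ = x * (x ^ i * y * (x ^ i)⁻¹) * x⁻¹ := by
          rw [pow_succ']; group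
      _ = x * (m ^ i * y) * x⁻¹ := by rw [ih]
      _ = (x * m ^ i) * (y * x⁻¹) := by group
      _ = (m ^ i * x) * (y * x⁻¹) := by rw [hc']
      _ = m ^ i * (x * y * x⁻¹) := by group
      _ = m ^ i * (m * y) := by rw [h]
      _ = m ^ (i + 1) * y := by rw [pow_succ]; group

theorem quillen_group [hp : Fact p.Prime] [Finite G] {Y F : Subgroup G} (hF : F ∈ ApS p G)
    (hsol : Group.IsSolvable Y) (hY : ¬ p ∣ Nat.card Y) (hn : ∀ x ∈ F, ∀ y ∈ Y, x * y * x⁻¹ ∈ Y)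
    (hfaith : ∀ x ∈ F, (∀ y ∈ Y, x * y = y * x) → x = 1) :
    ∃ M : Subgroup G, M < Y ∧ (∀ x ∈ F, ∀ y ∈ M, x * y * x⁻¹ ∈ M) ∧
      ((∀ x ∈ F, (∀ y ∈ M, x * y = y * x) → x = 1) ∨
        ∃ H ∈ ApB p G, ∃ a ∈ F, ∃ t ∈ Y, F = H ⊔ zpowers a ∧ H ⊓ zpowers a = ⊥ ∧ a ≠ 1 ∧
          (∀ y ∈ M, a * y = y * a) ∧ (∀ y ∈ M, t * y * t⁻¹ ∈ M ∧ t⁻¹ * y * t ∈ M) ∧
          (∀ x ∈ H, t * x = x * t) ∧ t * a * t⁻¹ ∉ F ∧
          (∀ x ∈ H, (∀ y ∈ M, x * y = y * x) → x = 1)) := by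
  classical
  obtain ⟨hF0, hPc, hPp⟩ := hF
  have hYne : Y ≠ ⊥ := by
    rintro rfl
    apply hF0
    rw [eq_bot_iff]
    intro x hx
    refine hfaith x hx fun y hy => ?_
    rw [mem_bot.1 hy, mul_one, one_mul]
  obtain ⟨M, hMQ, hPM, hcomm, hirr⟩ := exists_top_factor hYne hsol hn
  refine ⟨M, hMQ, hPM, ?_⟩
  by_cases hall : ∀ x ∈ F, (∀ y ∈ M, x * y = y * x) → x = 1
  · exact Or.inl hall
  right
  push Not at hall
  obtain ⟨a, haF, hac, ha1⟩ := hall
  have hnorm : ∀ x ∈ Y, ∀ m ∈ M, x * m * x⁻¹ ∈ M := by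
    intro x hx m hm
    have h1 := mul_mem (hcomm x hx m (hMQ.le hm)) hm
    rwa [inv_mul_cancel_right] at h1
  have hcard := card_relIndex hMQ.le
  have hpM : ¬ p ∣ Nat.card M := fun h => hY (hcard ▸ Dvd.dvd.mul_right h _)
  have hpI : ¬ p ∣ M.relIndex Y := fun h => hY (hcard ▸ Dvd.dvd.mul_left h _)
  obtain ⟨H, hH⟩ : ∃ H, H = topKer F Y M hn := ⟨_, rfl⟩
  have hHF : H ≤ F := by
    rw [hH]
    exact fun x hx => hx.1
  have hHm : ∀ x ∈ H, ∀ q ∈ Y, x * q * x⁻¹ * q⁻¹ ∈ M := by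
    rw [hH]
    exact fun x hx => hx.2
  have hHi : ∀ x ∈ F, (∀ q ∈ Y, x * q * x⁻¹ * q⁻¹ ∈ M) → x ∈ H := by
    intro x hx h
    rw [hH]
    exact ⟨hx, h⟩
  -- (1)
  have hone : ∀ x ∈ H, (∀ y ∈ M, x * y = y * x) → x = 1 := by
    intro x hx hxc
    refine hfaith x (hHF hx) fun y hy => ?_
    have hm := hHm x hx y hy
    have e1 : x * y * x⁻¹ = (x * y * x⁻¹ * y⁻¹) * y := by group
    have e2 := r4_conj_pow e1 (hxc _ hm) p
    rw [hPp x (hHF hx), one_mul, inv_one, mul_one] at e2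
    have e3 : (x * y * x⁻¹ * y⁻¹) ^ p = 1 := by
      have := e2.symm
      rwa [mul_eq_right] at this
    have e4 := r4_eq_one hpM hm e3
    rw [e4, one_mul] at e1
    exact mul_inv_eq_iff_eq_mul.1 e1
  -- (2)
  have hfix : ∀ x ∈ F, x ∉ H → ∀ y ∈ Y, x * y * x⁻¹ * y⁻¹ ∈ M → y ∈ M := by
    intro f hf hfH
    have k1 : M ≤ fixMod Y M {f} hnorm := by
      intro m hm
      refine ⟨hMQ.le hm, fun g hg => ?_⟩
      rw [Set.mem_singleton_iff.1 hg]
      exact mul_mem (hPM f hf m hm) (inv_mem hm)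
    have k2 : fixMod Y M {f} hnorm ≤ Y := fun q hq => hq.1
    have k3 : ∀ x ∈ F, ∀ q ∈ fixMod Y M {f} hnorm, x * q * x⁻¹ ∈ fixMod Y M {f} hnorm := by
      rintro x hx q ⟨hq1, hq2⟩
      refine ⟨hn x hx q hq1, fun g hg => ?_⟩
      rw [Set.mem_singleton_iff.1 hg]
      have h1 := hPM x hx _ (hq2 f rfl)
      have h2 : f * x = x * f := hPc f hf x hx
      have h3 : x⁻¹ * f⁻¹ = f⁻¹ * x⁻¹ := by
        rw [← mul_inv_rev, ← mul_inv_rev, h2]
      have h4 : f * (x * q * x⁻¹) * f⁻¹ * (x * q * x⁻¹)⁻¹ = x * (f * q * f⁻¹ * q⁻¹) * x⁻¹ := by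
        calc f * (x * q * x⁻¹) * f⁻¹ * (x * q * x⁻¹)⁻¹
            = (f * x) * q * (x⁻¹ * f⁻¹) * (x * q * x⁻¹)⁻¹ := by group
          _ = (x * f) * q * (f⁻¹ * x⁻¹) * (x * q * x⁻¹)⁻¹ := by rw [h2, h3]
          _ = x * (f * q * f⁻¹ * q⁻¹) * x⁻¹ := by group
      rw [h4]
      exact h1
    rcases hirr _ k1 k2 k3 with h | h
    · intro y hy hym
      rw [← h]
      refine ⟨hy, fun g hg => ?_⟩
      rw [Set.mem_singleton_iff.1 hg]
      exact hym
    · refine absurd (hHi f hf fun q hq => ?_) hfH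
      have h1 : q ∈ fixMod Y M {f} hnorm := by rw [h]; exact hq
      exact h1.2 f rfl
  have haH : a ∉ H := fun h => ha1 (hone a h hac)
  have haord : orderOf a = p := orderOf_eq_prime (hPp a haF) ha1
  have hapow : ∀ i : ℕ, ∀ y ∈ M, a ^ i * y = y * a ^ i := fun i y hy =>
    (Commute.pow_left (show Commute a y from hac y hy) i)
  have hai : ∀ i, 0 < i → i < p → a ^ i ∉ H := by
    intro i hi0 hip hmem
    have h1 := hone _ hmem (hapow i)
    have h2 := orderOf_dvd_of_pow_eq_one h1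
    rw [haord] at h2
    exact absurd (Nat.le_of_dvd hi0 h2) (not_le.2 hip)
  -- (3)
  have hcov : ∀ b ∈ F, ∃ j : ℕ, b * a ^ j ∈ H := by
    intro b hbF
    by_contra hno
    push Not at hno
    obtain ⟨V, _, π, β, hπ, hker, hV, hβ⟩ := top_factor_action hn hPM hcomm hMQ.le
    have hfx : ∀ g : F, (g : G) ∉ H → ∀ v, β g v = v → v = 1 := by
      intro g hg v hv
      obtain ⟨q, rfl⟩ := hπ v
      rw [hβ g q (hn g g.2 q q.2)] at hv
      have h1 : π (⟨_, hn g g.2 q q.2⟩ * q⁻¹) = 1 := by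
        rw [map_mul, hv, ← map_mul, mul_inv_cancel, map_one]
      rw [hker] at h1
      rw [hker]
      exact hfix g g.2 hg q q.2 h1
    have hpow : ∀ v : V, v ^ p = 1 := by
      intro v
      have hc : Commute (β ⟨b, hbF⟩) (β ⟨a, haF⟩) := by
        change β _ * β _ = β _ * β _
        rw [← map_mul, ← map_mul]
        congr 1
        exact Subtype.ext (hPc b hbF a haF)
      refine pow_one_of_free hp.out.pos (β ⟨b, hbF⟩) (β ⟨a, haF⟩) hc ?_ ?_ ?_ ?_ v
      · rw [← map_pow]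
        have : (⟨b, hbF⟩ : F) ^ p = 1 := Subtype.ext (hPp b hbF)
        rw [this, map_one]
      · rw [← map_pow]
        have : (⟨a, haF⟩ : F) ^ p = 1 := Subtype.ext (hPp a haF)
        rw [this, map_one]
      · intro j _ w hw'
        rw [← map_pow, ← map_mul] at hw'
        exact hfx _ (hno j) w hw'
      · intro i hi0 hip w hw'
        rw [← map_pow] at hw'
        exact hfx _ (hai i hi0 hip) w hw'
    have hVfin : Finite V := Finite.of_surjective π hπ
    have htriv : ∀ v : V, v = 1 := by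
      intro v
      rw [← orderOf_eq_one_iff]
      have h1 : orderOf v ∣ p := orderOf_dvd_of_pow_eq_one (hpow v)
      have h2 : orderOf v ∣ Nat.card V := orderOf_dvd_natCard v
      rcases (Nat.dvd_prime hp.out).1 h1 with h | h
      · exact h
      · rw [h, hV] at h2
        exact absurd h2 hpI
    apply hMQ.not_ge
    intro q hq
    exact (hker ⟨q, hq⟩).1 (htriv _)
  -- (4)
  obtain ⟨y, hyY, hyM⟩ := SetLike.exists_of_lt hMQ
  obtain ⟨t, htY, htM, htH⟩ : ∃ t ∈ Y, t ∉ M ∧ ∀ x ∈ H, t * x = x * t := by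
    let X := {z : G // y⁻¹ * z ∈ M}
    have hst : ∀ f : H, ∀ z : G, y⁻¹ * z ∈ M → y⁻¹ * ((f : G) * z * (f : G)⁻¹) ∈ M := by
      intro f z hz
      have e1 : y⁻¹ * ((f : G) * z * (f : G)⁻¹) =
          (y⁻¹ * ((f : G) * y * (f : G)⁻¹ * y⁻¹) * y⁻¹⁻¹) *
            ((f : G) * (y⁻¹ * z) * (f : G)⁻¹) := by group
      rw [e1]
      exact mul_mem (hnorm _ (inv_mem hyY) _ (hHm f f.2 y hyY)) (hPM f (hHF f.2) _ hz)
    let act : MulAction H X :=
      { smul := fun f z => ⟨(f : G) * z.1 * (f : G)⁻¹, hst f z.1 z.2⟩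
        one_smul := fun z => by
          apply Subtype.ext
          change ((1 : H) : G) * z.1 * ((1 : H) : G)⁻¹ = z.1
          simp
        mul_smul := fun f g z => by
          apply Subtype.ext
          change ((f * g : H) : G) * z.1 * ((f * g : H) : G)⁻¹ =
            (f : G) * ((g : G) * z.1 * (g : G)⁻¹) * (f : G)⁻¹
          push_cast
          group }
    have hXc : Nat.card X = Nat.card M := Nat.card_congr
      { toFun := fun z => ⟨y⁻¹ * z.1, z.2⟩
        invFun := fun m => ⟨y * m.1, by simp⟩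
        left_inv := fun z => by simp
        right_inv := fun m => by simp }
    have hFp : IsPGroup p H := fun f => ⟨1, by
      rw [pow_one]
      exact Subtype.ext (hPp f (hHF f.2))⟩
    obtain ⟨⟨t, ht⟩, hfx⟩ :=
      hFp.nonempty_fixed_point_of_prime_not_dvd_card X (by rw [hXc]; exact hpM)
    refine ⟨t, ?_, ?_, ?_⟩
    · have := mul_mem hyY (hMQ.le ht)
      rwa [mul_inv_cancel_left] at this
    · intro htm
      apply hyM
      have h1 := mul_mem htm (inv_mem ht)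
      have h2 : t * (y⁻¹ * t)⁻¹ = y := by group
      rwa [h2] at h1
    · intro f hf
      have h3 : f * t * f⁻¹ = t := congrArg Subtype.val (hfx ⟨f, hf⟩)
      exact (mul_inv_eq_iff_eq_mul.1 h3).symm
  have hHb : H ∈ ApB p G := by
    by_cases h : H = ⊥
    · exact Or.inl h
    · exact Or.inr (mem_ApS_of_le ⟨hF0, hPc, hPp⟩ hHF h)
  have hsup : F = H ⊔ zpowers a := by
    refine le_antisymm ?_ (sup_le hHF (zpowers_le.2 haF))
    intro b hb
    obtain ⟨j, hj⟩ := hcov b hb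
    have h1 : b = b * a ^ j * (a ^ j)⁻¹ := by group
    rw [h1]
    exact mul_mem (mem_sup_left hj) (mem_sup_right (inv_mem (pow_mem (mem_zpowers a) j)))
  have hinf : H ⊓ zpowers a = ⊥ := by
    rw [eq_bot_iff]
    rintro x ⟨hx, hxa⟩
    obtain ⟨k, rfl⟩ := mem_zpowers_iff.1 hxa
    refine hone _ hx fun z hz => ?_
    exact (Commute.zpow_left (show Commute a z from hac z hz) k)
  refine ⟨H, hHb, a, haF, t, htY, hsup, hinf, ha1, hac, ?_, htH, ?_, hone⟩
  · intro z hz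
    refine ⟨hnorm t htY z hz, ?_⟩
    have h1 := hnorm _ (inv_mem htY) z hz
    rwa [inv_inv] at h1
  · intro hta
    have h1 : t * a * t⁻¹ * a⁻¹ ∈ F := mul_mem hta (inv_mem haF)
    have h2 : t * a * t⁻¹ * a⁻¹ ∈ Y := by
      have h3 := hn a haF _ (inv_mem htY)
      have h4 := mul_mem htY h3
      have h5 : t * (a * t⁻¹ * a⁻¹) = t * a * t⁻¹ * a⁻¹ := by group
      rwa [h5] at h4
    have h3 := r4_eq_one hY h2 (hPp _ h1)
    have h4 : t * a * t⁻¹ = a := by rw [mul_inv_eq_one] at h3; exact h3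
    have h5 : t * a = a * t := mul_inv_eq_iff_eq_mul.1 h4
    refine htM (hfix a haF haH t htY ?_)
    rw [← h5, mul_inv_cancel_right, mul_inv_cancel]
    exact one_mem _

end

end Vale.Agent.P240.K
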