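import Vale.Agent.P240.V.R4
import Vale.Agent.P240.V.R3

/-!
P240-R5. Top cycles (Quillen's theorem for solvable groups, with explicit cycles, over any field).

`topCycle_mul`: let `A = zpowers a`, `A' = zpowers (t * a * t⁻¹)`, `K = M ⊔ H`. `a` commutes with `M` and with `H ≤ F`, so with `K`;
`t * a * t⁻¹` commutes with `M` (`t⁻¹ y t ∈ M`) and with `H` (`t` commutes with `H`), so with `K`. Put
`β = single [A] 1 - single [A'] 1` (so `bd β = single [] 1 - single [] 1 = 0`), `α' = pi (sh α β)`, `φ' = F :: φ`.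
`sh α β` lies in `Sp (wk (Ain p (Y ⊔ F)))` (`sh_mem`, `sup_mem_ApS`), so `bd α' = pi (bd (sh α β)) = 0` (`bd_pi`, `bd_sh`), and `α'` is in
`Sp (st ..)` by `pi_mem`; its lists have length `φ.length + 1` (lists in the support of `shL s t` have length `s.length + t.length`; `pi` keeps or kills lists,
`pi_mem'`). The coefficient at `φ'`: `φ'` is strictly decreasing (`φ` is in the support of `α`, so it is strictly decreasing in `Ain p K`,
and its head is `H < F`), so `pi` does not change it. For a list `s` with `s.length = φ.length` and `B = A` or `A'` the coefficient of `shL s [B]` at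
`F :: φ` is: if `s = []` then `φ = []`, `H = ⊥`, `shL [] [B] = single [B] 1`, coefficient `1` if `B = F` (true for `B = A`), else `0` (`A' ≠ F` as `t a t⁻¹ ∉ F`).
If `s = E :: s'` then `shL (E :: s') [B] = cons (E ⊔ B) (shL s' [B] + (-1) ^ (s'.length + 1) • single (E :: s') 1)`; the lists in `shL s' [B]` have
a head that contains `B`, while the head of `φ` is `H`, and `B ≤ H` is false (`H ⊓ A = ⊥`, `A ≠ ⊥`; `t a t⁻¹ ∉ F ≥ H`), so the coefficient is
`± 1` if `E :: s' = φ` and `E ⊔ B = F`, and `0` otherwise; for `s = φ`, `E = H` and `H ⊔ A = F`, while `H ⊔ A' ≠ F` as `t a t⁻¹ ∉ F`. So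
`α' φ' = ± α φ ≠ 0`. `Nat.card F = Nat.card H * p` since `H ⊓ A = ⊥`, `F = H ⊔ A`, `A` of order `p` commutes with `H`.

`quillen_cycle`: strong induction on `Nat.card Y` for all `F`. If `F = ⊥` take `α = single [] 1`, `φ = []`. Otherwise `quillen_group`
gives `M < Y` (solvable, `p ∤ |M|`, normalized by `F`): in the first case use the induction hypothesis for `M`, `F` (monotonicity: a `TopCycle` for
`M ⊔ F` is one for `Y ⊔ F`); in the second case the induction hypothesis for `M`, `H` and `topCycle_mul`.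
-/

namespace Vale.Agent.P240.K

open Finsupp Subgroup

universe u v

variable {𝕜 : Type v} [Field 𝕜]

/-- lengths of the lists of a shuffle product -/
lemma r5_shL_len {α : Type*} [Max α] (n : ℕ) : ∀ s t : List α, s.length + t.length = n →
    shL (𝕜 := 𝕜) s t ∈ Sp 𝕜 (fun l => l.length = n) := by
  induction n with
  | zero =>
    intro s t h
    have hs : s = [] := List.length_eq_zero_iff.1 (by omega)
    have ht : t = [] := List.length_eq_zero_iff.1 (by omega)
    subst hs ht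
    rw [shL]
    refine single_mem_Sp ?_ _
    rfl
  | succ n ih =>
    intro s t h
    rcases s with _ | ⟨a, s⟩
    · rw [shL]
      exact single_mem_Sp (by simpa using h) _
    rcases t with _ | ⟨b, t⟩
    · rw [shL]
      exact single_mem_Sp (by simpa using h) _
    rw [shL]
    refine cons_mem (P := fun l => l.length = n) (fun l hl => by simp [hl]) ?_
    exact Submodule.add_mem _ (ih s (b :: t) (by simp only [List.length_cons] at h ⊢; omega))
      (Submodule.smul_mem _ _ (ih (a :: s) t (by simp only [List.length_cons] at h ⊢; omega)))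

open Classical in
/-- the coefficient of `shL s [B]` at `F :: φ` -/
lemma r5_coef {α : Type*} [SemilatticeSup α] [OrderBot α] {φ : List α} {H F B : α}
    (htop : (φ = [] ∧ H = ⊥) ∨ ∃ φ', φ = H :: φ')
    (hB : ∀ x ∈ φ, ¬ B ≤ x) (s : List α) (hs : s.length = φ.length) :
    shL (𝕜 := 𝕜) s [B] (F :: φ) = if s = φ ∧ H ⊔ B = F then (-1 : 𝕜) ^ φ.length else 0 := by
  rcases htop with ⟨rfl, rfl⟩ | ⟨φ', h⟩
  · have hs' : s = [] := List.length_eq_zero_iff.1 hs
    subst hs'
    rw [shL, bot_sup_eq]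
    by_cases h : B = F
    · subst h
      simp
    · rw [Finsupp.single_eq_of_ne (fun h' => h (List.cons.inj h').1.symm), if_neg (fun h' => h h'.2)]
  · rcases s with _ | ⟨a, s⟩
    · rw [h] at hs
      simp at hs
    · have h2 := r3_cf_shL (𝕜 := 𝕜) (T := {B}) (φ := φ)
        (fun x hx b hb => by rw [Set.mem_singleton_iff.1 hb]; exact hB x hx) a s hs [B] (by simp)
      have h3 : shL (𝕜 := 𝕜) (a :: s) [B] (F :: φ) = cf φ (shL (𝕜 := 𝕜) (a :: s) [B]) [F] := by
        rw [cf_apply]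
        rfl
      rw [h3, h2]
      by_cases h4 : a :: s = φ
      · have h5 : a = H := by
          rw [h] at h4
          exact (List.cons.inj h4).1
        subst h5
        rw [if_pos h4]
        by_cases h6 : a ⊔ B = F
        · rw [if_pos ⟨h4, h6⟩]
          simp [h6]
        · rw [if_neg (fun h => h6 h.2), Finsupp.smul_apply, Finsupp.single_eq_of_ne, smul_zero]
          intro h7
          apply h6
          simpa using h7.symm
      · rw [if_neg h4, if_neg (fun h => h4 h.1), Finsupp.zero_apply]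

lemma r5_sh_coef {α : Type*} [SemilatticeSup α] [OrderBot α] {φ : List α} {H F A A' : α}
    (htop : (φ = [] ∧ H = ⊥) ∨ ∃ φ', φ = H :: φ')
    (hA : ∀ x ∈ φ, ¬ A ≤ x) (hA' : ∀ x ∈ φ, ¬ A' ≤ x) (h1 : H ⊔ A = F) (h2 : H ⊔ A' ≠ F)
    {x : Ch 𝕜 α} (hx : x ∈ Sp 𝕜 (fun l => l.length = φ.length)) :
    sh x (single [A] (1 : 𝕜) - single [A'] (1 : 𝕜)) (F :: φ) = (-1 : 𝕜) ^ φ.length * x φ := by
  classical
  have := eq_of_Sp (𝕜 := 𝕜)
    (F := (Finsupp.lapply (F :: φ) : Ch 𝕜 α →ₗ[𝕜] 𝕜).comp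
      ((sh (𝕜 := 𝕜) (α := α)).flip (single [A] (1 : 𝕜) - single [A'] (1 : 𝕜))))
    (G := ((-1 : 𝕜) ^ φ.length) • (Finsupp.lapply φ : Ch 𝕜 α →ₗ[𝕜] 𝕜))
    (fun s hs => by
      rw [LinearMap.comp_apply, LinearMap.flip_apply, map_sub, sh_single, sh_single,
        LinearMap.smul_apply, Finsupp.lapply_apply, Finsupp.lapply_apply, Finsupp.sub_apply,
        r5_coef htop hA s hs, r5_coef htop hA' s hs,
        if_neg (fun h : s = φ ∧ H ⊔ A' = F => h2 h.2), sub_zero]
      by_cases h : s = φ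
      · subst h
        rw [if_pos ⟨rfl, h1⟩]
        simp
      · rw [if_neg (fun h' => h h'.1), Finsupp.single_eq_of_ne (fun h' => h h'.symm), smul_zero])
    hx
  simpa using this

section
variable {G : Type u} [Group G] {p : ℕ}

lemma r5_mono {K L F : Subgroup G} (h : K ≤ L) {α : Ch 𝕜 (Subgroup G)} {φ : List (Subgroup G)}
    (hα : TopCycle 𝕜 p K F α φ) : TopCycle 𝕜 p L F α φ :=
  ⟨Sp_mono (fun l hl => ⟨st_mono (S := Ain p K) (T := Ain p L)
    (fun _ hE => ⟨hE.1, hE.2.trans h⟩) l hl.1, hl.2⟩) hα.mem,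
    hα.cyc, hα.ne, hα.top, hα.card⟩

lemma r5_card [hp : Fact p.Prime] [Finite G] {H : Subgroup G} {a : G}
    (hc : ∀ x ∈ H, x * a = a * x) (hHa : H ⊓ zpowers a = ⊥) (ha : a ≠ 1) (hap : a ^ p = 1) :
    Nat.card (H ⊔ zpowers a : Subgroup G) = Nat.card H * p := by
  have hcc : ∀ x ∈ H, ∀ y ∈ zpowers a, x * y = y * x := by
    intro x hx y hy
    obtain ⟨k, rfl⟩ := mem_zpowers_iff.1 hy
    exact (show Commute x a from hc x hx).zpow_right k
  have hinj : Function.Injective (fun g : H × (zpowers a) => (g.1 * g.2 : G)) :=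
    Subgroup.mul_injective_of_disjoint (disjoint_iff.2 hHa)
  have hmem : ∀ g : H × (zpowers a), (g.1 * g.2 : G) ∈ H ⊔ zpowers a := fun g =>
    mul_mem (Subgroup.mem_sup_left g.1.2) (Subgroup.mem_sup_right g.2.2)
  have hbij : Function.Bijective
      (fun g : H × (zpowers a) => (⟨(g.1 * g.2 : G), hmem g⟩ : (H ⊔ zpowers a : Subgroup G))) := by
    constructor
    · intro g g' h
      exact hinj (congrArg Subtype.val h)
    · rintro ⟨x, hx⟩
      obtain ⟨h, hh, b, hb, rfl⟩ := mem_sup_comm hcc hx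
      exact ⟨(⟨h, hh⟩, ⟨b, hb⟩), rfl⟩
  rw [← Nat.card_congr (Equiv.ofBijective _ hbij), Nat.card_prod, Nat.card_zpowers,
    orderOf_eq_prime hap ha]

theorem topCycle_mul [hp : Fact p.Prime] [Finite G] {Y M H F : Subgroup G} {a t : G}
    {α : Ch 𝕜 (Subgroup G)} {φ : List (Subgroup G)} (hα : TopCycle 𝕜 p (M ⊔ H) H α φ)
    (hF : F ∈ ApS p G) (hH : H ∈ ApB p G) (hMY : M ≤ Y) (ht : t ∈ Y) (hFH : F = H ⊔ zpowers a)
    (hHa : H ⊓ zpowers a = ⊥) (ha : a ≠ 1) (haM : ∀ y ∈ M, a * y = y * a)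
    (htM : ∀ y ∈ M, t * y * t⁻¹ ∈ M ∧ t⁻¹ * y * t ∈ M) (htH : ∀ x ∈ H, t * x = x * t)
    (hta : t * a * t⁻¹ ∉ F) :
    ∃ (α' : Ch 𝕜 (Subgroup G)) (φ' : List (Subgroup G)), TopCycle 𝕜 p (Y ⊔ F) F α' φ' := by
  classical
  set A : Subgroup G := zpowers a with hAdef
  set A' : Subgroup G := zpowers (t * a * t⁻¹) with hA'def
  have hHF : H ≤ F := by rw [hFH]; exact le_sup_left
  have hAF : A ≤ F := by rw [hFH]; exact le_sup_right
  have haF : a ∈ F := hAF (mem_zpowers a)
  have hap : a ^ p = 1 := hF.2.2 a haF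
  have hA : A ∈ ApS p G := mem_ApS_of_le hF hAF (by rw [hAdef]; exact zpowers_ne_bot.2 ha)
  have hta1 : t * a * t⁻¹ ≠ 1 := by
    intro h
    apply ha
    have := conj_eq_one_iff.1 h
    exact this
  have htap : (t * a * t⁻¹) ^ p = 1 := by
    rw [conj_pow, hap, mul_one, mul_inv_cancel]
  have hA' : A' ∈ ApS p G := by
    refine ⟨zpowers_ne_bot.2 hta1, ?_, ?_⟩
    · intro x hx y hy
      obtain ⟨k, rfl⟩ := mem_zpowers_iff.1 hx
      obtain ⟨m, rfl⟩ := mem_zpowers_iff.1 hy
      rw [← zpow_add, ← zpow_add, add_comm]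
    · intro x hx
      obtain ⟨k, rfl⟩ := mem_zpowers_iff.1 hx
      rw [← zpow_natCast, ← zpow_mul, mul_comm, zpow_mul, zpow_natCast, htap, one_zpow]
  -- commutation
  have hKa : M ⊔ H ≤ centralizer ({a} : Set G) := by
    refine sup_le ?_ ?_
    · intro y hy
      rw [mem_centralizer_singleton_iff]
      exact (haM y hy).symm
    · intro y hy
      rw [mem_centralizer_singleton_iff]
      exact hF.2.1 y (hHF hy) a haF
  have hKta : M ⊔ H ≤ centralizer ({t * a * t⁻¹} : Set G) := by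
    refine sup_le ?_ ?_
    · intro y hy
      rw [mem_centralizer_singleton_iff]
      have h1 := haM _ (htM y hy).2
      calc y * (t * a * t⁻¹) = t * ((t⁻¹ * y * t) * a) * t⁻¹ := by group
        _ = t * (a * (t⁻¹ * y * t)) * t⁻¹ := by rw [h1]
        _ = t * a * t⁻¹ * y := by group
    · intro y hy
      rw [mem_centralizer_singleton_iff]
      have h1 := htH y hy
      have h2 := hF.2.1 y (hHF hy) a haF
      have h3 : t⁻¹ * y = y * t⁻¹ := by
        have : Commute t y := h1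
        exact this.inv_left
      calc y * (t * a * t⁻¹) = (y * t) * a * t⁻¹ := by group
        _ = (t * y) * a * t⁻¹ := by rw [h1]
        _ = t * (y * a) * t⁻¹ := by group
        _ = t * (a * y) * t⁻¹ := by rw [h2]
        _ = t * a * (y * t⁻¹) := by group
        _ = t * a * (t⁻¹ * y) := by rw [h3]
        _ = t * a * t⁻¹ * y := by group
  have hcomm : ∀ B ∈ ({A, A'} : Set (Subgroup G)), ∀ x ∈ M ⊔ H, ∀ y ∈ B, x * y = y * x := by
    intro B hB x hx y hy
    rcases hB with rfl | hB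
    · obtain ⟨k, rfl⟩ := mem_zpowers_iff.1 hy
      exact (show Commute x a from mem_centralizer_singleton_iff.1 (hKa hx)).zpow_right k
    · rw [Set.mem_singleton_iff] at hB
      subst hB
      obtain ⟨k, rfl⟩ := mem_zpowers_iff.1 hy
      exact (show Commute x (t * a * t⁻¹) from
        mem_centralizer_singleton_iff.1 (hKta hx)).zpow_right k
  have hA'Y : A' ≤ Y ⊔ F := by
    rw [hA'def, zpowers_le]
    exact mul_mem (mul_mem (mem_sup_left ht) (mem_sup_right haF)) (inv_mem (mem_sup_left ht))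
  have hKY : M ⊔ H ≤ Y ⊔ F := sup_le_sup hMY hHF
  have hBS : ({A, A'} : Set (Subgroup G)) ⊆ Ain p (Y ⊔ F) := by
    rintro B (rfl | hB)
    · exact ⟨hA, hAF.trans le_sup_right⟩
    · rw [Set.mem_singleton_iff] at hB
      subst hB
      exact ⟨hA', hA'Y⟩
  -- the chain
  set β : Ch 𝕜 (Subgroup G) := single [A] (1 : 𝕜) - single [A'] (1 : 𝕜) with hβ
  have hβwk : β ∈ Sp 𝕜 (wk ({A, A'} : Set (Subgroup G))) := by
    refine Submodule.sub_mem _ (single_mem_Sp ⟨by simp, by simp⟩ _)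
      (single_mem_Sp ⟨by simp, by simp⟩ _)
  have hbβ : bd β = 0 := by
    rw [hβ, map_sub, bd_single_cons, bd_single_cons]
    simp
  have hz : sh α β ∈ Sp 𝕜 (wk (Ain p (Y ⊔ F))) := by
    refine sh_mem (A := Ain p (M ⊔ H)) (B := {A, A'}) (S := Ain p (Y ⊔ F)) (fun E hE => ⟨hE.1, hE.2.trans hKY⟩) hBS ?_
      (Sp_mono (fun l hl => st_wk l hl.1) hα.mem) hβwk
    intro E hE B hB
    exact ⟨sup_mem_ApS hE.1 (hBS hB).1 fun x hx y hy => hcomm B hB x (hE.2 hx) y hy,
      sup_le (hE.2.trans hKY) (hBS hB).2⟩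
  have hαlen : α ∈ Sp 𝕜 (fun l => l.length = φ.length) := Sp_mono (fun l hl => hl.2) hα.mem
  have hzlen : sh α β ∈ Sp 𝕜 (fun l => l.length = (F :: φ).length) := by
    refine map_mem ((sh (𝕜 := 𝕜) (α := Subgroup G)).flip β) (fun s hs => ?_) hαlen
    rw [LinearMap.flip_apply, hβ, map_sub, sh_single, sh_single]
    have h1 : ∀ B : Subgroup G, s.length + [B].length = (F :: φ).length := by
      intro B
      simp [hs]
    exact Submodule.sub_mem _ (r5_shL_len _ s [A] (h1 A)) (r5_shL_len _ s [A'] (h1 A'))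
  have hφst : st (Ain p (M ⊔ H)) φ := (mem_Sp.1 hα.mem φ (Finsupp.mem_support_iff.2 hα.ne)).1
  have hle : ∀ x ∈ φ, x ≤ H := by
    intro x hx
    rcases hα.top with ⟨h1, -⟩ | ⟨φ', h1⟩
    · rw [h1] at hx
      simp at hx
    · rw [h1] at hx
      rcases List.mem_cons.1 hx with rfl | hx
      · exact le_refl _
      · have := hφst.1
        rw [h1, List.pairwise_cons] at this
        exact (this.1 x hx).le
  have hAH : ¬ A ≤ H := by
    intro h
    apply hA.1
    rw [eq_bot_iff, ← hHa]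
    exact le_inf h le_rfl
  have hA'F : ¬ A' ≤ F := fun h => hta (h (mem_zpowers _))
  have hHltF : H < F := lt_of_le_of_ne hHF fun h => hAH (h ▸ hAF)
  refine ⟨pi (sh α β), F :: φ, ⟨mem_Sp_inf (pi_mem hz) (pi_mem' hzlen), ?_, ?_, Or.inr ⟨φ, rfl⟩, ?_⟩⟩
  · rw [bd_pi hz, bd_sh, hα.cyc, hbβ]
    simp
  · rw [r3_pi_apply, if_pos, r5_sh_coef (H := H) hα.top (fun x hx h => hAH (h.trans (hle x hx)))
      (fun x hx h => hA'F (h.trans ((hle x hx).trans hHF))) hFH.symm
      (fun h => hA'F (h ▸ le_sup_right)) hαlen]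
    · exact mul_ne_zero (pow_ne_zero _ (neg_ne_zero.2 one_ne_zero)) hα.ne
    · rw [List.pairwise_cons]
      exact ⟨fun x hx => lt_of_le_of_lt (hle x hx) hHltF, hφst.1⟩
  · rw [hFH, r5_card (fun x hx => hF.2.1 x (hHF hx) a haF) hHa ha hap, hα.card, List.length_cons,
      pow_succ]

theorem quillen_cycle [hp : Fact p.Prime] [Finite G] {Y F : Subgroup G} (hF : F ∈ ApB p G)
    (hsol : Group.IsSolvable Y) (hY : ¬ p ∣ Nat.card Y) (hn : ∀ x ∈ F, ∀ y ∈ Y, x * y * x⁻¹ ∈ Y)
    (hfaith : ∀ x ∈ F, (∀ y ∈ Y, x * y = y * x) → x = 1) :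
    ∃ (α : Ch 𝕜 (Subgroup G)) (φ : List (Subgroup G)), TopCycle 𝕜 p (Y ⊔ F) F α φ := by
  obtain ⟨n, hn'⟩ : ∃ n, Nat.card Y = n := ⟨_, rfl⟩
  induction n using Nat.strong_induction_on generalizing Y F with
  | _ n ih =>
    by_cases hF0 : F = ⊥
    · subst hF0
      refine ⟨single [] 1, [], single_mem_Sp ⟨⟨List.Pairwise.nil, by simp⟩, rfl⟩ _, by simp,
        by simp, Or.inl ⟨rfl, rfl⟩, by simp⟩
    · have hFS : F ∈ ApS p G := hF.resolve_left hF0
      obtain ⟨M, hMY, hFM, h⟩ := quillen_group hFS hsol hY hn hfaith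
      have hMsol : Group.IsSolvable M :=
        Group.isSolvable_of_isSolvable_injective (Subgroup.inclusion_injective hMY.le)
      have hMp : ¬ p ∣ Nat.card M := fun h => hY (h.trans (Subgroup.card_dvd_of_le hMY.le))
      have hMn : Nat.card M < n := by
        rw [← hn']
        refine lt_of_le_of_ne (Nat.le_of_dvd Nat.card_pos (Subgroup.card_dvd_of_le hMY.le)) ?_
        intro h
        exact hMY.ne (Subgroup.eq_of_le_of_card_ge hMY.le h.ge)
      rcases h with h | ⟨H, hH, a, haF, t, htY, hFH, hHa, ha, haM, htM, htH, hta, hfH⟩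
      · obtain ⟨α, φ, hα⟩ := ih _ hMn hF hMsol hMp hFM h rfl
        exact ⟨α, φ, r5_mono (sup_le_sup_right hMY.le F) hα⟩
      · have hHF : H ≤ F := by rw [hFH]; exact le_sup_left
        obtain ⟨α, φ, hα⟩ := ih _ hMn hH hMsol hMp (fun x hx => hFM x (hHF hx)) hfH rfl
        exact topCycle_mul hα hFS hH hMY.le htY hFH hHa ha haM htM htH hta

end

end Vale.Agent.P240.K
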