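import Vale.Agent.P240.V.R1
import Vale.Agent.P240.V.R2
import Vale.Agent.P240.V.R3

/-!
P240-R6. The main reduction step (from R1, R2, R3 as black boxes).

`HQ_iff`, `HQ_sub_iff` (K/Groups.lean): assume `NA 𝕜 (Ain p M)` and, for contradiction, `¬ NA 𝕜 (ApS p G)`. Call `F ∈ ApB p G` faithful if
`F ⊓ M = ⊥`. `⊥` is faithful and `M ⊓ centralizer ⊥ = M`, so there is a maximal (finite set) faithful `F` with
`NA 𝕜 (Ain p (M ⊓ centralizer F))`.
(1) For every faithful `T > F`: `¬ NA 𝕜 {X ∈ ApS | T < X}`, by downward induction (`Set.Finite`, well-founded `>` on subgroups of a finite group) using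
`link_acyclic` for `T` (the hypothesis `hac` holds by maximality of `F`, `hlk` by induction; `T > F ≥ ⊥` lies in `ApS`).
(2) Let `H, α, φ` be given by `hα` for `F` and let `b` be a cycle of `Ain p (M ⊓ centralizer F)` that is not a boundary; let
`b' = sg^[φ.length] b`, a cycle (`bd_sg`) in the same span (`sg_mem`). `c = sh α b'` lies in `Sp (wk (ApS p G))`
(`sh_mem` with `A = Ain p H`, `B = Ain p (M ⊓ centralizer F)`, `sup_mem_ApS`), and `bd c = 0` (`bd_sh`). So
`pi c` is a cycle (`bd_pi`) in `Sp (st (ApS p G))`, and `pi c = bd γ` with `γ ∈ Sp (st (ApS p G))` (`not_NA_iff`).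
(3) `bd (cf φ γ) = cf φ (bd γ) = cf φ (pi c) = α φ • mp (F ⊔ ·) b` (`bd_cf`, `cf_sh`). `hlen` for `bd_cf`: a strictly decreasing list `m` in `ApS p G` whose
elements are `≤` an element of `φ`, so `≤ F`: the orders of its elements are powers of `p`, strictly decreasing, at least `p` and at most
`|F| = p ^ φ.length`, so `m.length ≤ φ.length` (prove by induction on the list: if `m` is strictly decreasing in `ApS` with all elements `≤ E` and
`Nat.card E = p ^ k` then `m.length ≤ k`). By `cf_mem`, `cf φ γ` lies in `Sp (st {X ∈ ApS | ∀ f ∈ φ, f < X})`, contained in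
`Sp (st {X ∈ ApS | F < X})` (`F` is the head of `φ`, or `F = ⊥`).
(4) `link_lift` for `α φ • b` gives `d` with `bd d = α φ • b`, so `b = bd ((α φ)⁻¹ • d)`: contradiction.
-/

namespace Vale.Agent.P240.K

open Finsupp Subgroup

universe u v

variable {𝕜 : Type v} [Field 𝕜]

section
variable {G : Type u} [Group G] {p : ℕ}

/-- a strictly decreasing list of nontrivial subgroups of a group of order `p ^ k` -/
private lemma r6_len [hp : Fact p.Prime] [Finite G] (m : List (Subgroup G)) :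
    st (ApS p G) m → ∀ (E : Subgroup G) (k : ℕ), Nat.card E = p ^ k → (∀ y ∈ m, y ≤ E) →
      m.length ≤ k := by
  induction m with
  | nil => intro _ E k _ _; exact Nat.zero_le _
  | cons x m ih =>
    intro hm E k hE hle
    have hp2 := List.pairwise_cons.1 hm.1
    have hxS : x ∈ ApS p G := hm.2 x (by simp)
    have hxE : x ≤ E := hle x (by simp)
    have hm' : st (ApS p G) m := ⟨hp2.2, fun a ha => hm.2 a (by simp [ha])⟩
    obtain ⟨j, hjk, hj⟩ := (Nat.dvd_prime_pow hp.out).1 (hE ▸ Subgroup.card_dvd_of_le hxE)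
    have hj0 : j ≠ 0 := by
      rintro rfl
      rw [pow_zero] at hj
      exact hxS.1 (Subgroup.eq_bot_of_card_eq x hj)
    rcases m with _ | ⟨y, m⟩
    · simp only [List.length_cons, List.length_nil]
      omega
    · have hyx : y < x := hp2.1 y (by simp)
      obtain ⟨i, hij, hi⟩ := (Nat.dvd_prime_pow hp.out).1 (hj ▸ Subgroup.card_dvd_of_le hyx.le)
      have hne : i ≠ j := by
        rintro rfl
        apply hyx.ne
        exact Subgroup.eq_of_le_of_card_ge hyx.le (by rw [hi, hj])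
      have h1 := ih hm' y i hi (fun a ha => by
        rcases List.mem_cons.1 ha with h | ha
        · rw [h]
        · exact le_of_lt ((List.pairwise_cons.1 hp2.2).1 a ha))
      rw [List.length_cons]
      omega

theorem faithful_main [hp : Fact p.Prime] [Finite G] (M : Subgroup G)
    (hα : ∀ F ∈ ApB p G, F ⊓ M = ⊥ → ∃ (H : Subgroup G) (α : Ch 𝕜 (Subgroup G))
      (φ : List (Subgroup G)), TopCycle 𝕜 p H F α φ ∧
        ∀ x ∈ H, ∀ y ∈ M ⊓ centralizer (F : Set G), x * y = y * x)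
    (h : HQ 𝕜 p M) : HQ 𝕜 p G := by
  rw [HQ_sub_iff] at h
  rw [HQ_iff]
  by_contra hG
  have hne : (⊥ : Subgroup G) ∈ {F : Subgroup G | F ∈ ApB p G ∧ F ⊓ M = ⊥ ∧
      NA 𝕜 (Ain p (M ⊓ centralizer (F : Set G)))} := by
    refine ⟨Or.inl rfl, bot_inf_eq _, ?_⟩
    have e : M ⊓ centralizer ((⊥ : Subgroup G) : Set G) = M := by
      refine inf_eq_left.2 fun x _ => ?_
      rw [Subgroup.mem_centralizer_iff]
      intro y hy
      have hy1 : y = 1 := by simpa using hy
      rw [hy1, one_mul, mul_one]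
    rw [e]
    exact h
  obtain ⟨F, hF⟩ := (Set.toFinite {F : Subgroup G | F ∈ ApB p G ∧ F ⊓ M = ⊥ ∧
    NA 𝕜 (Ain p (M ⊓ centralizer (F : Set G)))}).exists_maximal ⟨⊥, hne⟩
  obtain ⟨hFB, hFM, b, hb, hbd, hbne⟩ := hF.prop
  -- (1) upper links
  have hlk : ∀ T : Subgroup G, T ∈ ApS p G → F < T → T ⊓ M = ⊥ →
      ¬ NA 𝕜 {X | X ∈ ApS p G ∧ T < X} := by
    intro T
    induction T using WellFoundedGT.induction with
    | ind T ih =>
      intro hT hFT hTM
      refine link_acyclic M (Or.inr hT) hTM (fun T' hT' hTT' hT'M =>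
        ih T' hTT' hT' (hFT.trans hTT') hT'M) fun hna => ?_
      exact hF.not_gt (y := T) ⟨Or.inr hT, hTM, hna⟩ hFT
  -- (2) the shuffle product
  obtain ⟨H, α, φ, hT, hcomm⟩ := hα F hFB hFM
  have hb' : ∀ k : ℕ, (⇑(sg (𝕜 := 𝕜) (α := Subgroup G)))^[k] b ∈
      Sp 𝕜 (st (Ain p (M ⊓ centralizer (F : Set G)))) ∧
      bd ((⇑(sg (𝕜 := 𝕜) (α := Subgroup G)))^[k] b) = 0 := by
    intro k
    induction k with
    | zero => exact ⟨hb, hbd⟩
    | succ k ih =>
      rw [Function.iterate_succ_apply']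
      exact ⟨sg_mem ih.1, by rw [bd_sg, ih.2, map_zero, neg_zero]⟩
  obtain ⟨hb1, hb2⟩ := hb' φ.length
  have hcm : sh α ((⇑(sg (𝕜 := 𝕜) (α := Subgroup G)))^[φ.length] b) ∈
      Sp 𝕜 (wk (ApS p G)) := by
    refine sh_mem (A := Ain p H) (B := Ain p (M ⊓ centralizer (F : Set G)))
      (fun E hE => hE.1) (fun E hE => hE.1) (fun a ha b hb => sup_mem_ApS ha.1 hb.1
        fun x hx y hy => hcomm x (ha.2 hx) y (hb.2 hy)) ?_ ?_
    · exact Sp_mono (fun l hl => st_wk l hl.1) hT.mem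
    · exact Sp_mono (fun l hl => st_wk l hl) hb1
  have hcb : bd (sh α ((⇑(sg (𝕜 := 𝕜) (α := Subgroup G)))^[φ.length] b)) = 0 := by
    rw [bd_sh, hT.cyc, hb2, map_zero, map_zero, LinearMap.zero_apply, add_zero]
  obtain ⟨γ, hγ, hbγ⟩ := (not_NA_iff.1 hG) _ (pi_mem hcm) (by rw [bd_pi hcm, hcb, map_zero])
  -- the elements of `φ`
  have hφF : ∀ f ∈ φ, f ≤ F := by
    have hst : st (Ain p H) φ :=
      ((mem_Sp.1 hT.mem) φ (Finsupp.mem_support_iff.2 hT.ne)).1
    rcases hT.top with ⟨h1, -⟩ | ⟨φ', h1⟩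
    · intro f hf
      rw [h1] at hf
      exact absurd hf (by simp)
    · intro f hf
      rw [h1] at hf hst
      rcases List.mem_cons.1 hf with h2 | h2
      · rw [h2]
      · exact le_of_lt ((List.pairwise_cons.1 hst.1).1 f h2)
  have hlen : ∀ m, st (ApS p G) m → (∀ y ∈ m, ∃ f ∈ φ, y ≤ f) → m.length ≤ φ.length := by
    intro m hm hmφ
    refine r6_len m hm F φ.length hT.card fun y hy => ?_
    obtain ⟨f, hf, hyf⟩ := hmφ y hy
    exact hyf.trans (hφF f hf)
  have h3 : bd (cf φ γ) = mp (fun B => F ⊔ B) (α φ • b) := by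
    rw [bd_cf φ hlen hγ, hbγ, cf_sh hFM hT hb, map_smul]
  have h4 : cf φ γ ∈ Sp 𝕜 (st {X | X ∈ ApS p G ∧ F < X}) := by
    refine Sp_mono (fun l hl => st_mono ?_ l hl) (cf_mem φ hγ)
    rintro x ⟨hx1, hx2⟩
    refine ⟨hx1, ?_⟩
    rcases hT.top with ⟨-, h1⟩ | ⟨φ', h1⟩
    · rw [h1]
      exact bot_lt_iff_ne_bot.2 hx1.1
    · exact hx2 F (by rw [h1]; simp)
  obtain ⟨d, hd, hdb⟩ := link_lift M hFB hFM hlk (Submodule.smul_mem _ (α φ) hb) h4 h3
  refine hbne ((α φ)⁻¹ • d) (Submodule.smul_mem _ _ hd) ?_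
  rw [map_smul, hdb, smul_smul, inv_mul_cancel₀ hT.ne, one_smul]

end

end Vale.Agent.P240.K
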