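import Mathlib
import Vale.Agent.P240.V.R5
import Vale.Agent.P240.V.R6
import Vale.Agent.P240.V.RDefs

namespace Vale.Agent.P240.K

open Finsupp Subgroup

universe u v

variable {𝕜 : Type v} [Field 𝕜]

section
variable {G : Type u} [Group G] {p : ℕ}

theorem reduce_cent [hp : Fact p.Prime] [Finite G] (N : Subgroup G)
    (hN : ¬ p ∣ Nat.card N) (hsol : SolvableFaithful p N)
    (h : HQ 𝕜 p (centralizer (N : Set G))) : HQ 𝕜 p G := by
  refine faithful_main (centralizer (N : Set G)) ?_ h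
  intro F hF hFM
  obtain ⟨Y, hYN, hs, hn, hf⟩ : ∃ Y ≤ N, Group.IsSolvable Y ∧
      (∀ x ∈ F, ∀ y ∈ Y, x * y * x⁻¹ ∈ Y) ∧ ∀ x ∈ F, (∀ y ∈ Y, x * y = y * x) → x = 1 := by
    rcases hF with hb | hF
    · subst hb
      refine ⟨⊥, bot_le, inferInstance, ?_, ?_⟩
      · intro x hx y hy
        rw [Subgroup.mem_bot] at hx hy ⊢
        rw [hx, hy]
        group
      · intro x hx _
        exact Subgroup.mem_bot.1 hx
    · exact hsol F hF hFM
  obtain ⟨α, φ, hα⟩ := quillen_cycle (𝕜 := 𝕜) hF hs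
    (fun hd => hN (hd.trans (Subgroup.card_dvd_of_le hYN))) hn hf
  refine ⟨Y ⊔ F, α, φ, hα, ?_⟩
  intro x hx y hy
  obtain ⟨hy1, hy2⟩ := Subgroup.mem_inf.1 hy
  have h1 : Y ⊔ F ≤ centralizer {y} := by
    refine sup_le ?_ ?_
    · intro a ha
      rw [mem_centralizer_singleton_iff]
      exact (mem_centralizer_iff.1 hy1) a (hYN ha)
    · intro a ha
      rw [mem_centralizer_singleton_iff]
      exact (mem_centralizer_iff.1 hy2) a ha
  exact mem_centralizer_singleton_iff.1 (h1 hx)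

end

end Vale.Agent.P240.K
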