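import Vale.Agent.P240.K.Final

/-!
P240-R8b. The reduced group `centralizer N / (N ⊓ centralizer N)` has trivial `O_p` and trivial `O_p'`.
-/

namespace Vale.Agent.P240.K

open Subgroup

universe u

/-- central quotients of order prime to `p` -/
theorem r8b_op {C : Type u} [Group C] {p : ℕ} [hp : Fact p.Prime] [Finite C]
    (hO : OpTrivial p C) (Z : Subgroup C) [Z.Normal] (hZ : ∀ z ∈ Z, ∀ c : C, z * c = c * z)
    (hpZ : ¬ p ∣ Nat.card Z) : OpTrivial p (C ⧸ Z) := by
  intro X hX hXp
  by_contra hne
  set P : Subgroup C := X.comap (QuotientGroup.mk' Z) with hP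
  have hPn : P.Normal := hX.comap _
  let f : P →* X := (QuotientGroup.mk' Z).subgroupComap X
  have hf : Function.Surjective f := by
    rintro ⟨x, hx⟩
    obtain ⟨y, rfl⟩ := QuotientGroup.mk'_surjective Z x
    exact ⟨⟨y, hx⟩, rfl⟩
  have hker : f.ker ≤ center P := by
    intro y hy
    rw [MonoidHom.mem_ker] at hy
    have h1 : (QuotientGroup.mk' Z) (y : C) = 1 := congrArg Subtype.val hy
    have h2 : (y : C) ∈ Z := (QuotientGroup.eq_one_iff _).1 h1
    rw [mem_center_iff]
    intro g
    exact Subtype.ext (hZ _ h2 g).symm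
  have hXnil : Group.IsNilpotent X := hXp.isNilpotent
  have hPnil : Group.IsNilpotent P := Subgroup.isNilpotent_of_ker_le_center f hker
  have hpX : p ∣ Nat.card X := by
    obtain ⟨k, hk⟩ := IsPGroup.iff_card.1 hXp
    rcases Nat.eq_zero_or_pos k with rfl | hk0
    · exfalso
      apply hne
      rw [pow_zero] at hk
      exact (Subgroup.card_eq_one).1 hk
    · rw [hk]
      exact dvd_pow_self p hk0.ne'
  have hpP : p ∣ Nat.card P := hpX.trans (Subgroup.card_dvd_of_surjective f hf)
  obtain ⟨x, hx⟩ := exists_prime_orderOf_dvd_card' p hpP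
  have hxp : IsPGroup p (zpowers x) := by
    apply IsPGroup.of_card (n := 1)
    rw [Nat.card_zpowers, hx, pow_one]
  obtain ⟨Q, hQ⟩ := hxp.exists_le_sylow
  have hQn : (Q : Subgroup P).Normal := by
    have := (Group.isNilpotent_of_finite_tfae (G := P)).out 0 3
    exact this.1 hPnil p hp Q
  have hQc : (Q : Subgroup P).Characteristic := Sylow.characteristic_of_normal Q hQn
  have h3 : ((Q : Subgroup P).map P.subtype).Normal := inferInstance
  have h4 := hO _ h3 (Q.isPGroup'.map _)
  have h5 : (Q : Subgroup P) = ⊥ := (map_eq_bot_iff_of_injective _ P.subtype_injective).1 h4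
  have h6 : x ∈ (Q : Subgroup P) := hQ (mem_zpowers x)
  rw [h5, mem_bot] at h6
  rw [h6, orderOf_one] at hx
  exact hp.out.one_lt.ne hx

/-- normal `p'`-subgroups of a normal subgroup -/
theorem r8b_pp {G : Type u} [Group G] {p : ℕ} [hp : Fact p.Prime] [Finite G]
    (C N : Subgroup G) [C.Normal]
    (hmax : ∀ X : Subgroup G, X.Normal → ¬ p ∣ Nat.card X → X ≤ N)
    (P : Subgroup C) (hPn : P.Normal) (hpP : ¬ p ∣ Nat.card P) : P.map C.subtype ≤ N := by
  let S : Set (Subgroup C) := {W | W.Normal ∧ ¬ p ∣ Nat.card W}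
  have hfin : S.Finite := Set.toFinite S
  obtain ⟨W, hPW, hW⟩ := hfin.exists_le_maximal (a := P) ⟨hPn, hpP⟩
  have hsup : ∀ V ∈ S, V ≤ W := by
    intro V hV
    have hmem : V ⊔ W ∈ S := by
      have hWn := hW.prop.1
      have hVn := hV.1
      refine ⟨inferInstance, ?_⟩
      intro hd
      have h1 : W.relIndex (V ⊔ W) = W.relIndex V := relIndex_sup_right V W
      have h2 : Nat.card W * W.relIndex (V ⊔ W) = Nat.card (V ⊔ W : Subgroup C) := by
        rw [← relIndex_bot_left, ← relIndex_bot_left]
        exact relIndex_mul_relIndex _ _ _ bot_le le_sup_right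
      rw [← h2, h1] at hd
      rcases (Nat.Prime.dvd_mul hp.out).1 hd with h3 | h3
      · exact hW.prop.2 h3
      · exact hV.2 (h3.trans (relIndex_dvd_card _ _))
    exact le_trans le_sup_left (hW.le_of_ge hmem le_sup_right)
  have hWc : W.Characteristic := by
    rw [characteristic_iff_map_le]
    intro φ
    apply hsup
    refine ⟨hW.prop.1.map _ φ.surjective, ?_⟩
    have : Nat.card (W.map φ.toMonoidHom) = Nat.card W :=
      Nat.card_congr (W.equivMapOfInjective φ.toMonoidHom φ.injective).symm.toEquiv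
    rw [this]
    exact hW.prop.2
  have h3 : (W.map C.subtype).Normal := inferInstance
  have h4 : W.map C.subtype ≤ N := by
    apply hmax _ h3
    have : Nat.card (W.map C.subtype) = Nat.card W :=
      Nat.card_congr (W.equivMapOfInjective C.subtype C.subtype_injective).symm.toEquiv
    rw [this]
    exact hW.prop.2
  exact (map_mono hPW).trans h4

section
variable {G : Type u} [Group G] {p : ℕ}

theorem r8b_card [Finite G] (N C : Subgroup G) (hN : ¬ p ∣ Nat.card N) :
    ¬ p ∣ Nat.card (N.subgroupOf C) := by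
  intro h
  exact hN (h.trans (card_comap_dvd_of_injective N C.subtype C.subtype_injective))

theorem reduced_op [hp : Fact p.Prime] [Finite G] (hO : OpTrivial p G) (N : Subgroup G) [N.Normal]
    (hN : ¬ p ∣ Nat.card N) :
    OpTrivial p (centralizer (N : Set G) ⧸ N.subgroupOf (centralizer (N : Set G))) := by
  have hCn : (centralizer (N : Set G)).Normal := inferInstance
  have hOC : OpTrivial p (centralizer (N : Set G)) :=
    opTrivial_of_opIn
      (OpIn.descend le_top (fun m _ h hh => hCn.conj_mem _ hh m) (opIn_top hO))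
  apply r8b_op hOC _ _ (r8b_card N _ hN)
  intro z hz c
  have h1 : (z : G) ∈ N := hz
  exact Subtype.ext ((mem_centralizer_iff.1 c.2) _ h1)

theorem reduced_op' [hp : Fact p.Prime] [Finite G] (N : Subgroup G) [N.Normal]
    (hN : ¬ p ∣ Nat.card N) (hmax : ∀ X : Subgroup G, X.Normal → ¬ p ∣ Nat.card X → X ≤ N)
    (X : Subgroup (centralizer (N : Set G) ⧸ N.subgroupOf (centralizer (N : Set G))))
    (hX : X.Normal) (hpX : ¬ p ∣ Nat.card X) : X = ⊥ := by
  have hCn : (centralizer (N : Set G)).Normal := inferInstance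
  revert X
  generalize centralizer (N : Set G) = C at hCn
  intro X hX hpX
  set Z := N.subgroupOf C with hZ
  set P : Subgroup C := X.comap (QuotientGroup.mk' Z) with hP
  have hPn : P.Normal := hX.comap _
  have hcard : Nat.card P = Nat.card X * Nat.card Z := by
    let f : P →* X := (QuotientGroup.mk' Z).subgroupComap X
    have hf : Function.Surjective f := by
      rintro ⟨x, hx⟩
      obtain ⟨y, rfl⟩ := QuotientGroup.mk'_surjective Z x
      exact ⟨⟨y, hx⟩, rfl⟩
    have h1 : Nat.card (P ⧸ f.ker) = Nat.card X :=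
      Nat.card_congr (QuotientGroup.quotientKerEquivOfSurjective f hf).toEquiv
    have h2 : Nat.card f.ker = Nat.card Z := by
      have hZP : Z ≤ P := by
        intro z hz
        have : (QuotientGroup.mk' Z) z = 1 := (QuotientGroup.eq_one_iff z).2 hz
        rw [hP, mem_comap, this]
        exact X.one_mem
      refine Nat.card_congr ⟨fun y => ⟨y.1.1, ?_⟩, fun z => ⟨⟨z.1, hZP z.2⟩, ?_⟩, ?_, ?_⟩
      · have hy := y.2
        rw [MonoidHom.mem_ker] at hy
        exact (QuotientGroup.eq_one_iff _).1 (congrArg Subtype.val hy)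
      · rw [MonoidHom.mem_ker]
        exact Subtype.ext ((QuotientGroup.eq_one_iff z.1).2 z.2)
      · intro y
        rfl
      · intro z
        rfl
    have h3 := Subgroup.card_eq_card_quotient_mul_card_subgroup f.ker
    rw [h3, h1, h2]
  have hpP : ¬ p ∣ Nat.card P := by
    rw [hcard]
    intro h
    rcases (Nat.Prime.dvd_mul hp.out).1 h with h3 | h3
    · exact hpX h3
    · exact r8b_card N C hN h3
  have key := r8b_pp C N hmax P hPn hpP
  rw [eq_bot_iff]
  intro x hx
  obtain ⟨y, rfl⟩ := QuotientGroup.mk'_surjective Z x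
  have h1 : (y : G) ∈ N := key ⟨y, hx, rfl⟩
  rw [mem_bot]
  exact (QuotientGroup.eq_one_iff y).2 h1

end

end Vale.Agent.P240.K
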