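import Vale.Agent.P240.V.R8a
import Vale.Agent.P240.V.R8b

/-!
P240-R8. Central quotients, and the reduced group.

`HQ_central`: `HQ_iff` twice, then `NA_image` (K/NonAcyclic.lean) with `S = ApS p G`, `f = Subgroup.map (QuotientGroup.mk' Z)`: `f '' ApS p G = ApS p (G ⧸ Z)`.
An `E ∈ ApS p G` meets `Z` trivially (`p ∤ |Z|`), and `E` is the set of elements of order dividing `p` of `E ⊔ Z` (if `e z` has
`(e z) ^ p = 1` then `z ^ p = 1` as `z` is central, so `z = 1`), which gives injectivity and `E < E' ↔ f E < f E'`. Surjectivity: let
`X ∈ ApS p (G ⧸ Z)`, `P = X.comap (mk' Z)`; let `m` be a natural number with `m ≡ 1 mod p`, `m ≡ 0 mod |Z|`. For `x ∈ P` we have `x ^ p ∈ Z`. The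
elements of `P` of order dividing `p` form a subgroup `E`: for `x y ∈ P` the commutator `[x, y] ∈ Z` is central with `[x, y] ^ p = [x ^ p, y] = 1`, so `[x, y] = 1`,
so `P` is abelian; and `x ^ m` maps to the same element of `X` as `x` with `(x ^ m) ^ p = 1` (`x ^ p ∈ Z`, `|Z|` divides `m`), so `E` maps onto `X`.

`reduced_quotient`: let `C = centralizer N`, `Z = N.subgroupOf C` (central in `C`, of order prime to `p`). Let `X` be a normal subgroup of `C ⧸ Z`
and `P = X.comap (mk' Z)` its preimage in `C`.
(a) If `X` is a `p`-group: `Z` is central of order prime to `p` and `P/Z` is a `p`-group, so the elements of `p`-power order of `P` form a normal Sylow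
`p`-subgroup `Q` (for example: a Sylow `p`-subgroup `Q` of `P` satisfies `P = Q ⊔ Z`, so it is normal in `P`, `Sylow.normal`/characteristic).
The subgroup of `G` generated by ALL such `Q`: more precisely, we need that `O_p(C) = ⊥`. Let `W` be the subgroup of `C` generated by all normal
`p`-subgroups of `C`; it is a `p`-group, characteristic in `C`, so its image in `G` is normal in `G` (`C` is normal in `G`), so trivial by `hO`.
(The library has `opTrivial` lemmas: see K/Minimal.lean, `OpIn.descend`, `opTrivial_of_opIn`, `opIn_top`, and `V/L2Rest.lean`.) So `Q = ⊥`, `P = Z`, `X = ⊥`.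
(b) If `p ∤ |X|` then `p ∤ |P|`, `P` is a normal `p'`-subgroup of `C`. The product of all normal `p'`-subgroups of `C` is a normal `p'`-subgroup of `C`,
characteristic in `C`, so its image in `G` is a normal `p'`-subgroup of `G`, so contained in `N` by `hmax`. So `P ≤ Z`, `X = ⊥`. (A simpler way: the
normal closure in `G` of the image of `P`: it is generated by the conjugates of the image of `P`, which are normal `p'`-subgroups of `C`; a product of
normal `p'`-subgroups of `C` is a `p'`-subgroup: induct; see V/L2Rest.lean for a similar argument.)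
-/
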