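import Vale.Agent.P240.K.Final

/-!
P240-R8a. Quillen's homology statement passes from a central quotient of order prime to `p`.
-/

namespace Vale.Agent.P240.K

open Finsupp Subgroup

universe u v

variable {𝕜 : Type v} [Field 𝕜]

section
variable {G : Type u} [Group G] {p : ℕ}

lemma r8a_pow_eq_one [hp : Fact p.Prime] [Finite G] {Z : Subgroup G}
    (hpZ : ¬ p ∣ Nat.card Z) {z : G} (hz : z ∈ Z) (h : z ^ p = 1) : z = 1 := by
  have h1 : orderOf z ∣ p := orderOf_dvd_of_pow_eq_one h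
  have h2 : orderOf z ∣ Nat.card Z := by
    have : orderOf (⟨z, hz⟩ : Z) ∣ Nat.card Z := orderOf_dvd_natCard _
    rwa [Subgroup.orderOf_mk] at this
  have h3 : Nat.Coprime p (Nat.card Z) := (Nat.Prime.coprime_iff_not_dvd hp.out).2 hpZ
  have h4 : orderOf z = 1 := Nat.eq_one_of_dvd_coprimes h3 h1 h2
  exact orderOf_eq_one_iff.1 h4

/-- membership in `E` is seen in the quotient -/
lemma r8a_mem_iff [hp : Fact p.Prime] [Finite G] {Z : Subgroup G} [Z.Normal]
    (hZ : ∀ z ∈ Z, ∀ g : G, z * g = g * z) (hpZ : ¬ p ∣ Nat.card Z) {E : Subgroup G}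
    (hE : E ∈ ApS p G) (x : G) :
    x ∈ E ↔ x ^ p = 1 ∧ QuotientGroup.mk' Z x ∈ E.map (QuotientGroup.mk' Z) := by
  constructor
  · intro hx
    exact ⟨hE.2.2 x hx, Subgroup.mem_map_of_mem _ hx⟩
  · rintro ⟨h1, e, he, h2⟩
    have h3 : e⁻¹ * x ∈ Z := by
      rw [← QuotientGroup.eq]
      exact h2
    have h4 : x = (e⁻¹ * x) * e := by
      rw [hZ _ h3 e]
      group
    have h5 : (e⁻¹ * x) ^ p = 1 := by
      have hc : Commute (e⁻¹ * x) e := hZ _ h3 e
      have := hc.mul_pow p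
      rw [← h4, h1, hE.2.2 e he, mul_one] at this
      exact this.symm
    have h6 : e⁻¹ * x = 1 := r8a_pow_eq_one hpZ h3 h5
    have h7 : x = e := by
      rw [h4, h6, one_mul]
    rw [h7]
    exact he

lemma r8a_map_mem [hp : Fact p.Prime] [Finite G] {Z : Subgroup G} [Z.Normal]
    (hpZ : ¬ p ∣ Nat.card Z) {E : Subgroup G}
    (hE : E ∈ ApS p G) : E.map (QuotientGroup.mk' Z) ∈ ApS p (G ⧸ Z) := by
  refine ⟨?_, ?_, ?_⟩
  · intro h
    apply hE.1
    rw [eq_bot_iff]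
    intro x hx
    have h1 : QuotientGroup.mk' Z x ∈ E.map (QuotientGroup.mk' Z) := Subgroup.mem_map_of_mem _ hx
    rw [h, Subgroup.mem_bot] at h1
    have h2 : x ∈ Z := by
      rw [← QuotientGroup.eq_one_iff]
      exact h1
    rw [Subgroup.mem_bot]
    exact r8a_pow_eq_one hpZ h2 (hE.2.2 x hx)
  · rintro _ ⟨x, hx, rfl⟩ _ ⟨y, hy, rfl⟩
    rw [← map_mul, ← map_mul, hE.2.1 x hx y hy]
  · rintro _ ⟨x, hx, rfl⟩
    rw [← map_pow, hE.2.2 x hx, map_one]

lemma r8a_comm [hp : Fact p.Prime] [Finite G] {Z : Subgroup G} [Z.Normal]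
    (hZ : ∀ z ∈ Z, ∀ g : G, z * g = g * z) (hpZ : ¬ p ∣ Nat.card Z) {X : Subgroup (G ⧸ Z)}
    (hX : X ∈ ApS p (G ⧸ Z)) {x y : G} (hx : QuotientGroup.mk' Z x ∈ X)
    (hy : QuotientGroup.mk' Z y ∈ X) : x * y = y * x := by
  have hxp : x ^ p ∈ Z := by
    rw [← QuotientGroup.eq_one_iff]
    have := hX.2.2 _ hx
    rw [← map_pow] at this
    exact this
  have hc : (y * x)⁻¹ * (x * y) ∈ Z := by
    rw [← QuotientGroup.eq]
    have := hX.2.1 _ hy _ hx
    rw [← map_mul, ← map_mul] at this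
    exact this
  set c := (y * x)⁻¹ * (x * y) with hcdef
  have h1 : x * y = c * (y * x) := by
    rw [hZ c hc (y * x), hcdef]
    group
  -- conjugation of `x` by `y`
  have h2 : y⁻¹ * x * y = c * x := by
    have : x * y = y * (c * x) := by
      rw [h1, ← mul_assoc, hZ c hc y, mul_assoc]
    rw [mul_assoc, this]
    group
  have h3 : y⁻¹ * x ^ p * y = c ^ p * x ^ p := by
    have hcx : Commute c x := hZ c hc x
    have h4 : (y⁻¹ * x * y) ^ p = y⁻¹ * x ^ p * y := by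
      have := conj_pow (i := p) (a := y⁻¹) (b := x)
      rw [inv_inv] at this
      exact this
    rw [← h4, h2, hcx.mul_pow]
  have h5 : c ^ p = 1 := by
    have h6 : y⁻¹ * x ^ p * y = x ^ p := by
      rw [mul_assoc, hZ _ hxp y]
      group
    rw [h6] at h3
    exact mul_eq_right.1 h3.symm
  have h7 : c = 1 := r8a_pow_eq_one hpZ hc h5
  rw [h1, h7, one_mul]

lemma r8a_surj [hp : Fact p.Prime] [Finite G] {Z : Subgroup G} [Z.Normal]
    (hZ : ∀ z ∈ Z, ∀ g : G, z * g = g * z) (hpZ : ¬ p ∣ Nat.card Z) {X : Subgroup (G ⧸ Z)}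
    (hX : X ∈ ApS p (G ⧸ Z)) : ∃ E ∈ ApS p G, E.map (QuotientGroup.mk' Z) = X := by
  have hcop : Nat.Coprime p (Nat.card Z) := (Nat.Prime.coprime_iff_not_dvd hp.out).2 hpZ
  obtain ⟨m, hm1, hm2⟩ := Nat.chineseRemainder hcop 1 0
  let E : Subgroup G :=
    { carrier := {x | QuotientGroup.mk' Z x ∈ X ∧ x ^ p = 1}
      one_mem' := ⟨by rw [map_one]; exact one_mem _, one_pow _⟩
      mul_mem' := by
        rintro x y ⟨hx, hx'⟩ ⟨hy, hy'⟩
        refine ⟨by rw [map_mul]; exact mul_mem hx hy, ?_⟩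
        have : Commute x y := r8a_comm hZ hpZ hX hx hy
        rw [this.mul_pow, hx', hy', one_mul]
      inv_mem' := by
        rintro x ⟨hx, hx'⟩
        exact ⟨by rw [map_inv]; exact inv_mem hx, by rw [inv_pow, hx', inv_one]⟩ }
  have hE : ∀ x, x ∈ E ↔ QuotientGroup.mk' Z x ∈ X ∧ x ^ p = 1 := fun x => Iff.rfl
  have hmap : E.map (QuotientGroup.mk' Z) = X := by
    apply le_antisymm
    · rintro _ ⟨x, hx, rfl⟩
      exact ((hE x).1 hx).1
    · intro q hq
      obtain ⟨x, rfl⟩ := QuotientGroup.mk'_surjective Z q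
      have hxp : x ^ p ∈ Z := by
        rw [← QuotientGroup.eq_one_iff]
        have := hX.2.2 _ hq
        rw [← map_pow] at this
        exact this
      have h1 : QuotientGroup.mk' Z (x ^ m) = QuotientGroup.mk' Z x := by
        have hqp : (QuotientGroup.mk' Z x) ^ p = 1 := hX.2.2 _ hq
        rw [map_pow]
        have h2 : m % p = 1 % p := hm1
        have h3 : (QuotientGroup.mk' Z x) ^ m = (QuotientGroup.mk' Z x) ^ (m % p) :=
          pow_eq_pow_mod m hqp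
        have h4 : (QuotientGroup.mk' Z x) ^ (1 : ℕ) = (QuotientGroup.mk' Z x) ^ (1 % p) :=
          pow_eq_pow_mod 1 hqp
        rw [h3, h2, ← h4, pow_one]
      refine ⟨x ^ m, (hE _).2 ⟨by rw [h1]; exact hq, ?_⟩, h1⟩
      have h5 : Nat.card Z ∣ m := (Nat.modEq_zero_iff_dvd).1 hm2
      obtain ⟨t, ht⟩ := h5
      have h6 : (x ^ p) ^ Nat.card Z = 1 := by
        have : (⟨x ^ p, hxp⟩ : Z) ^ Nat.card Z = 1 := pow_card_eq_one'
        have h7 : (((⟨x ^ p, hxp⟩ : Z) ^ Nat.card Z : Z) : G) = ((1 : Z) : G) :=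
          congrArg Subtype.val this
        rwa [Subgroup.coe_pow, Subgroup.coe_one] at h7
      rw [← pow_mul, mul_comm m p, pow_mul, ht, pow_mul, h6, one_pow]
  refine ⟨E, ⟨?_, ?_, ?_⟩, hmap⟩
  · intro h
    apply hX.1
    rw [← hmap, h, Subgroup.map_bot]
  · intro x hx y hy
    exact r8a_comm hZ hpZ hX ((hE x).1 hx).1 ((hE y).1 hy).1
  · intro x hx
    exact ((hE x).1 hx).2

theorem HQ_central [hp : Fact p.Prime] [Finite G] (Z : Subgroup G) [Z.Normal]
    (hZ : ∀ z ∈ Z, ∀ g : G, z * g = g * z) (hpZ : ¬ p ∣ Nat.card Z) (h : HQ 𝕜 p (G ⧸ Z)) :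
    HQ 𝕜 p G := by
  rw [HQ_iff] at h ⊢
  have himg : (fun E : Subgroup G => E.map (QuotientGroup.mk' Z)) '' (ApS p G)
      = ApS p (G ⧸ Z) := by
    ext X
    constructor
    · rintro ⟨E, hE, rfl⟩
      exact r8a_map_mem hpZ hE
    · intro hX
      obtain ⟨E, hE, h2⟩ := r8a_surj hZ hpZ hX
      exact ⟨E, hE, h2⟩
  rw [← himg] at h
  have hle : ∀ E ∈ ApS p G, ∀ F ∈ ApS p G,
      E.map (QuotientGroup.mk' Z) ≤ F.map (QuotientGroup.mk' Z) → E ≤ F := by
    intro E hE F hF hEF x hx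
    rw [r8a_mem_iff hZ hpZ hF]
    exact ⟨hE.2.2 x hx, hEF (Subgroup.mem_map_of_mem _ hx)⟩
  refine (NA_image ?_ ?_).1 h
  · intro E hE F hF hEF
    exact le_antisymm (hle E hE F hF (le_of_eq hEF)) (hle F hF E hE (ge_of_eq hEF))
  · intro E hE F hF
    constructor
    · intro hlt
      refine lt_of_le_of_ne (Subgroup.map_mono hlt.le) fun heq => hlt.ne ?_
      exact le_antisymm hlt.le (hle F hF E hE (ge_of_eq heq))
    · intro hlt
      refine lt_of_le_of_ne (hle E hE F hF hlt.le) ?_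
      rintro rfl
      exact lt_irrefl _ hlt

end

end Vale.Agent.P240.K
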