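import Vale.Agent.P240.V.R7
import Vale.Agent.P240.V.R8

namespace Vale.Agent.P240.K

open Finsupp Subgroup

universe u v

variable {𝕜 : Type v} [Field 𝕜]

section
variable {G : Type u} [Group G] {p : ℕ}

theorem reduce_all [hp : Fact p.Prime] [Finite G] (N : Subgroup G) [N.Normal]
    (hN : ¬ p ∣ Nat.card N) (hsol : SolvableFaithful p N) (h : HQ 𝕜 p (Reduced N)) :
    HQ 𝕜 p G := by
  refine reduce_cent N hN hsol ?_
  refine HQ_central (N.subgroupOf (centralizer (N : Set G))) ?_ ?_ h
  · intro z hz g
    rw [mem_subgroupOf] at hz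
    exact Subtype.ext ((mem_centralizer_iff.1 g.2) z hz)
  · intro hd
    refine hN (hd.trans ?_)
    have h1 : Nat.card ((N.subgroupOf (centralizer (N : Set G))).map
        (centralizer (N : Set G)).subtype) = Nat.card (N.subgroupOf (centralizer (N : Set G))) :=
      card_map_of_injective (subtype_injective _)
    rw [← h1]
    refine card_dvd_of_le ?_
    rw [subgroupOf_map_subtype]
    exact inf_le_left

theorem min_op' [hp : Fact p.Prime] [Finite G] (h : MinimalCounterexample 𝕜 p G)
    (N : Subgroup G) (hNn : N.Normal) (hN : ¬ p ∣ Nat.card N) (hsol : SolvableFaithful p N) :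
    N = ⊥ := by
  obtain ⟨hO, hG, hmin⟩ := h
  by_contra hne
  refine hG (reduce_all N hN hsol (hmin _ ?_ (reduced_op hO N hN)))
  set C := centralizer (N : Set G) with hC
  have h1 : Nat.card C = Nat.card (C ⧸ N.subgroupOf C) * Nat.card (N.subgroupOf C) :=
    card_eq_card_quotient_mul_card_subgroup _
  have h2 : Nat.card C ≤ Nat.card G := Subgroup.card_le_card_group C
  have hpos : 0 < Nat.card (N.subgroupOf C) := Nat.card_pos
  by_cases h3 : C = ⊤
  · have h4 : 1 < Nat.card (N.subgroupOf C) := by
      rw [Subgroup.one_lt_card_iff_ne_bot]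
      intro h5
      apply hne
      rw [subgroupOf_eq_bot, _root_.disjoint_iff, h3, inf_top_eq] at h5
      exact h5
    have h5 : 0 < Nat.card (C ⧸ N.subgroupOf C) := Nat.card_pos
    calc Nat.card (C ⧸ N.subgroupOf C) < Nat.card (C ⧸ N.subgroupOf C) *
          Nat.card (N.subgroupOf C) := lt_mul_of_one_lt_right h5 h4
      _ = Nat.card C := h1.symm
      _ ≤ Nat.card G := h2
  · have h4 : Nat.card C < Nat.card G := by
      refine lt_of_le_of_ne h2 fun h5 => h3 ?_
      exact Subgroup.eq_top_of_card_eq C h5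
    refine lt_of_le_of_lt ?_ h4
    rw [h1]
    exact Nat.le_mul_of_pos_right _ hpos

end

end Vale.Agent.P240.K
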