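import Vale.Agent.P240.V.TBase

/-!
P240-T1. Sums over the centralizer of `F` in an orbit `O = {cj f L | f ∈ F}` of components.

`A = Gn O ⊓ centralizer F`, `B = L ⊓ centralizer (F ⊓ normalizer L)`. Every `x ∈ A ≤ Gn O` has an `L`-component
`l ∈ L` (`Gn O = L ⊔ Gn (O \ {L})`, commuting, trivial intersection: `Fam.gn_comm`, `Fam.gn_inf`, `pf_mem_sup_comm`),
`l ∈ B` (`f ∈ F ⊓ normalizer L` normalizes `L` and `Gn (O \ {L})` and fixes `x`, uniqueness). The map `A → B` is
injective (the `cj f L`-component of `x` is `f l f⁻¹`, so if `l = 1`, then `x` centralizes all members of `O`, `x = 1`)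
and surjective (for `l ∈ B` the elements `l_M = f l f⁻¹` for `M = cj f L` are well defined, since `l` commutes with
`F ⊓ normalizer L` (`F` is abelian); let `d ∈ Gn O` be their product; `f d f⁻¹ = d` since they have the same components).
It is an isomorphism of groups, so `lam p A x = lam p B l` (transport of the poset, `eu_emb`/`eu_image`; see
`lam_conj` in V/PAdic.lean), and `At X L x ↔ l ∈ X` (`At_mul_right`, `At_iff_mem`). Then use `wsum_eq`. -/

namespace Vale.Agent.P240.K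

open Finsupp Subgroup

section
variable {G : Type*} [Group G] {p : ℕ}

/-- `lam` in terms of the subgroups of the group `K` -/
private lemma t1_lam_sub (K : Subgroup G) (x : K) :
    lam p K (x : G) = eu {E : Subgroup K | E ∈ ApS p K ∧ x ∈ normalizer (E : Set K)} := by
  have h1 : {E : Subgroup G | E ∈ Ain p K ∧ (x : G) ∈ normalizer (E : Set G)} =
      (fun E : Subgroup K => E.map K.subtype) ''
        {E : Subgroup K | E ∈ ApS p K ∧ x ∈ normalizer (E : Set K)} := by
    ext E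
    constructor
    · rintro ⟨⟨⟨h1, h2, h3⟩, hK⟩, hn⟩
      have hE : (E.subgroupOf K).map K.subtype = E := by
        rw [Subgroup.map_subgroupOf_eq_of_le hK]
      refine ⟨E.subgroupOf K, ⟨⟨?_, ?_, ?_⟩, ?_⟩, hE⟩
      · intro h
        apply h1
        rw [← hE, h, Subgroup.map_bot]
      · intro a ha b hb
        exact Subtype.ext (h2 a (Subgroup.mem_subgroupOf.1 ha) b (Subgroup.mem_subgroupOf.1 hb))
      · intro a ha
        exact Subtype.ext (by simpa using h3 a (Subgroup.mem_subgroupOf.1 ha))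
      · rw [pf_mem_nz]
        intro a
        rw [Subgroup.mem_subgroupOf, Subgroup.mem_subgroupOf]
        exact pf_mem_nz.1 hn a
    · rintro ⟨E, ⟨⟨h1, h2, h3⟩, hn⟩, rfl⟩
      refine ⟨⟨⟨?_, ?_, ?_⟩, ?_⟩, ?_⟩
      · intro h
        apply h1
        exact (Subgroup.map_eq_bot_iff_of_injective E K.subtype_injective).1 h
      · rintro _ ⟨a, ha, rfl⟩ _ ⟨b, hb, rfl⟩
        exact congrArg Subtype.val (h2 a ha b hb)
      · rintro _ ⟨a, ha, rfl⟩
        have := congrArg Subtype.val (h3 a ha)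
        simpa using this
      · rintro _ ⟨a, _, rfl⟩
        exact a.2
      · refine pf_mem_nz_of ?_ ?_
        · rintro _ ⟨a, ha, rfl⟩
          exact ⟨x * a * x⁻¹, pf_nz_conj hn ha, by simp⟩
        · rintro _ ⟨a, ha, rfl⟩
          exact ⟨x⁻¹ * a * x, pf_nz_conj' hn ha, by simp⟩
  rw [lam, h1]
  refine eu_emb (f := fun E : Subgroup K => E.map K.subtype)
    (Subgroup.map_injective K.subtype_injective) (fun E E' => ?_) _
  rw [lt_iff_le_not_ge, lt_iff_le_not_ge]
  simp only [Subgroup.map_le_map_iff_of_injective K.subtype_injective]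

private lemma t1_lam_iso {A B : Subgroup G} (e : A ≃* B) (x : A) :
    lam p A (x : G) = lam p B (e x : G) := by
  rw [t1_lam_sub A x, t1_lam_sub B (e x)]
  have h1 : {E : Subgroup B | E ∈ ApS p B ∧ e x ∈ normalizer (E : Set B)} =
      (MulEquiv.mapSubgroup e) '' {E : Subgroup A | E ∈ ApS p A ∧ x ∈ normalizer (E : Set A)} := by
    have key : ∀ {C C' : Subgroup G} (u : C ≃* C') (E : Subgroup C) (y : C), E ∈ ApS p C →
        y ∈ normalizer (E : Set C) → E.map u.toMonoidHom ∈ ApS p C' ∧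
          u y ∈ normalizer ((E.map u.toMonoidHom : Subgroup C') : Set C') := by
      intro C C' u E y hE hy
      obtain ⟨h1, h2, h3⟩ := hE
      refine ⟨⟨?_, ?_, ?_⟩, ?_⟩
      · intro h
        apply h1
        exact (Subgroup.map_eq_bot_iff_of_injective E u.injective).1 h
      · rintro _ ⟨a, ha, rfl⟩ _ ⟨b, hb, rfl⟩
        rw [← map_mul, ← map_mul, h2 a ha b hb]
      · rintro _ ⟨a, ha, rfl⟩
        rw [← map_pow, h3 a ha, map_one]
      · refine pf_mem_nz_of ?_ ?_
        · rintro _ ⟨a, ha, rfl⟩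
          exact ⟨y * a * y⁻¹, pf_nz_conj hy ha, by simp⟩
        · rintro _ ⟨a, ha, rfl⟩
          exact ⟨y⁻¹ * a * y, pf_nz_conj' hy ha, by simp⟩
    ext E
    constructor
    · rintro ⟨hE, hn⟩
      obtain ⟨h1, h2⟩ := key e.symm E (e x) hE hn
      rw [e.symm_apply_apply] at h2
      refine ⟨E.map e.symm.toMonoidHom, ⟨h1, h2⟩, ?_⟩
      change (E.map e.symm.toMonoidHom).map e.toMonoidHom = E
      rw [Subgroup.map_map]
      ext y
      simp
    · rintro ⟨E, ⟨hE, hn⟩, rfl⟩
      exact key e E x hE hn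
  rw [h1, eu_image]

private lemma t1_uniq {L : Subgroup G} (hc : L ⊓ centralizer (L : Set G) = ⊥) {l l' x : G}
    (hl : l ∈ L) (hl' : l' ∈ L) (h : l⁻¹ * x ∈ centralizer (L : Set G))
    (h' : l'⁻¹ * x ∈ centralizer (L : Set G)) : l = l' := by
  have h1 : l⁻¹ * l' ∈ L ⊓ centralizer (L : Set G) := by
    refine Subgroup.mem_inf.2 ⟨mul_mem (inv_mem hl) hl', ?_⟩
    have h2 : l⁻¹ * l' = l⁻¹ * x * (l'⁻¹ * x)⁻¹ := by group
    rw [h2]
    exact mul_mem h (inv_mem h')
  rw [hc, Subgroup.mem_bot, inv_mul_eq_one] at h1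
  exact h1

/-- the components of an element of `Gn O` -/
private lemma t1_comp [Finite G] {R : Subgroup G} {D O : Set (Subgroup G)} (hD : Fam p R D)
    (hO : O ⊆ D) {L : Subgroup G} (hL : L ∈ O) {x : G} (hx : x ∈ Gn O) :
    ∃ l ∈ L, l⁻¹ * x ∈ centralizer (L : Set G) := by
  have h1 : O = {L} ∪ (O \ {L}) := by
    ext M
    constructor
    · intro hM
      by_cases h : M = L
      · exact Or.inl h
      · exact Or.inr ⟨hM, h⟩
    · rintro (h | h)
      · rw [Set.mem_singleton_iff.1 h]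
        exact hL
      · exact h.1
  have hL1 : ({L} : Set (Subgroup G)) ⊆ D := Set.singleton_subset_iff.2 (hO hL)
  have hO1 : O \ {L} ⊆ D := fun M hM => hO hM.1
  have hdis : Disjoint ({L} : Set (Subgroup G)) (O \ {L}) := Set.disjoint_sdiff_right
  have hGL : Gn ({L} : Set (Subgroup G)) = L := by simp [Gn]
  have hcomm := hD.gn_comm hL1 hO1 hdis
  rw [h1, Gn_union, pf_mem_sup_comm hcomm] at hx
  obtain ⟨l, hl, y, hy, rfl⟩ := hx
  rw [hGL] at hl
  refine ⟨l, hl, ?_⟩
  rw [inv_mul_cancel_left, mem_centralizer_iff]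
  intro z hz
  exact hcomm z (by rw [hGL]; exact hz) y hy

/-- the centre of `Gn O` is trivial -/
private lemma t1_centre [Finite G] {R : Subgroup G} {D : Set (Subgroup G)} (hD : Fam p R D) :
    ∀ O : Set (Subgroup G), O.Finite → O ⊆ D → ∀ x ∈ Gn O,
      (∀ L ∈ O, x ∈ centralizer (L : Set G)) → x = 1 := by
  intro O hfin
  induction O, hfin using Set.Finite.induction_on with
  | empty =>
    intro _ x hx _
    have h2 : Gn (∅ : Set (Subgroup G)) = ⊥ := by simp [Gn]
    rw [h2] at hx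
    exact Subgroup.mem_bot.1 hx
  | @insert L O hLO hfin ih =>
    intro hsub x hx hc
    have hL : L ∈ D := hsub (Set.mem_insert _ _)
    have hO : O ⊆ D := fun M hM => hsub (Set.mem_insert_of_mem _ hM)
    have hL1 : ({L} : Set (Subgroup G)) ⊆ D := Set.singleton_subset_iff.2 hL
    have hdis : Disjoint ({L} : Set (Subgroup G)) O := Set.disjoint_singleton_left.2 hLO
    have hGL : Gn ({L} : Set (Subgroup G)) = L := by simp [Gn]
    have hcomm := hD.gn_comm hL1 hO hdis
    rw [← Set.singleton_union, Gn_union, pf_mem_sup_comm hcomm] at hx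
    obtain ⟨l, hl, y, hy, rfl⟩ := hx
    rw [hGL] at hl
    have hyL : y ∈ centralizer (L : Set G) := by
      rw [mem_centralizer_iff]
      intro z hz
      exact hcomm z (by rw [hGL]; exact hz) y hy
    have hlL : l ∈ L ⊓ centralizer (L : Set G) := by
      refine Subgroup.mem_inf.2 ⟨hl, ?_⟩
      have := hc L (Set.mem_insert _ _)
      exact (Subgroup.mul_mem_cancel_right _ hyL).1 this
    rw [hD.centre L hL, Subgroup.mem_bot] at hlL
    rw [hlL, one_mul] at hc ⊢
    exact ih hO y hy fun M hM => hc M (Set.mem_insert_of_mem _ hM)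

/-- elements of `Gn O` with given components -/
private lemma t1_exists [Finite G] {R : Subgroup G} {D : Set (Subgroup G)} (hD : Fam p R D)
    (c : Subgroup G → G) :
    ∀ O : Set (Subgroup G), O.Finite → O ⊆ D → (∀ L ∈ O, c L ∈ L) →
      ∃ d ∈ Gn O, ∀ L ∈ O, (c L)⁻¹ * d ∈ centralizer (L : Set G) := by
  intro O hfin
  induction O, hfin using Set.Finite.induction_on with
  | empty =>
    intro _ _
    exact ⟨1, one_mem _, fun L hL => absurd hL (Set.notMem_empty L)⟩
  | @insert L O hLO hfin ih =>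
    intro hsub hc
    have hL : L ∈ D := hsub (Set.mem_insert _ _)
    have hO : O ⊆ D := fun M hM => hsub (Set.mem_insert_of_mem _ hM)
    have hL1 : ({L} : Set (Subgroup G)) ⊆ D := Set.singleton_subset_iff.2 hL
    have hdis : Disjoint ({L} : Set (Subgroup G)) O := Set.disjoint_singleton_left.2 hLO
    have hGL : Gn ({L} : Set (Subgroup G)) = L := by simp [Gn]
    have hcomm := hD.gn_comm hL1 hO hdis
    obtain ⟨d, hd, hd2⟩ := ih hO fun M hM => hc M (Set.mem_insert_of_mem _ hM)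
    have hcL : c L ∈ L := hc L (Set.mem_insert _ _)
    refine ⟨c L * d, ?_, ?_⟩
    · refine mul_mem (le_Gn (Set.mem_insert _ _) hcL) ?_
      rw [← Set.singleton_union, Gn_union]
      exact Subgroup.mem_sup_right hd
    · rintro M (hM | hM)
      · rw [hM, inv_mul_cancel_left, mem_centralizer_iff]
        intro z hz
        exact hcomm z (by rw [hGL]; exact hz) d hd
      · have hne : L ≠ M := fun h => hLO (h ▸ hM)
        have hcM : c M ∈ M := hc M (Set.mem_insert_of_mem _ hM)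
        have h1 : (c M)⁻¹ * (c L * d) = c L * ((c M)⁻¹ * d) := by
          rw [← mul_assoc, ← mul_assoc,
            hD.comm L hL M (hO hM) hne (c L) hcL (c M)⁻¹ (inv_mem hcM)]
        rw [h1]
        refine mul_mem ?_ (hd2 M hM)
        rw [mem_centralizer_iff]
        intro z hz
        exact (hD.comm L hL M (hO hM) hne (c L) hcL z hz).symm

/-- conjugation of a component -/
private lemma t1_conj {L : Subgroup G} {l x f : G} (h : l⁻¹ * x ∈ centralizer (L : Set G)) :
    (f * l * f⁻¹)⁻¹ * (f * x * f⁻¹) ∈ centralizer ((cj f L : Subgroup G) : Set G) := by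
  have h1 : (f * l * f⁻¹)⁻¹ * (f * x * f⁻¹) = f * (l⁻¹ * x) * f⁻¹ := by group
  rw [h1, mem_centralizer_iff]
  intro z hz
  have h2 := mem_centralizer_iff.1 h _ (mem_cj.1 hz)
  calc z * (f * (l⁻¹ * x) * f⁻¹) = f * (f⁻¹ * z * f * (l⁻¹ * x)) * f⁻¹ := by group
    _ = f * (l⁻¹ * x * (f⁻¹ * z * f)) * f⁻¹ := by rw [h2]
    _ = f * (l⁻¹ * x) * f⁻¹ * z := by group

open Classical in
theorem Fam.orb_sum [hp : Fact p.Prime] [Finite G] {R : Subgroup G} {D : Set (Subgroup G)}
    (hD : Fam p R D) (X : Set G) {F : Subgroup G} (hF : F ∈ ApS p G) (hFR : F ≤ R)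
    {L : Subgroup G} (hL : L ∈ D) :
    ∑ x ∈ (Set.toFinite ((Gn {M | ∃ f ∈ F, M = cj f L} ⊓ centralizer (F : Set G) : Subgroup G) :
        Set G)).toFinset,
      (if At X L x then (1 : ℤ) else 0) *
        lam p (Gn {M | ∃ f ∈ F, M = cj f L} ⊓ centralizer (F : Set G)) x =
      wsum p X (L ⊓ centralizer ((F ⊓ normalizer (L : Set G) : Subgroup G) : Set G)) := by
  obtain ⟨O, hOdef⟩ : ∃ O : Set (Subgroup G), O = {M | ∃ f ∈ F, M = cj f L} := ⟨_, rfl⟩
  rw [← hOdef]
  have hOmem : ∀ M, M ∈ O ↔ ∃ f ∈ F, M = cj f L := fun M => by rw [hOdef]; exact Iff.rfl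
  have hO : O ⊆ D := by
    intro M hM
    obtain ⟨f, hf, rfl⟩ := (hOmem M).1 hM
    exact hD.conj L hL f (hFR hf)
  have hLO : L ∈ O := (hOmem L).2 ⟨1, one_mem _, (cj_one L).symm⟩
  have hfO : ∀ f ∈ F, cj f L ∈ O := fun f hf => (hOmem _).2 ⟨f, hf, rfl⟩
  have hfin : O.Finite := Set.toFinite O
  obtain ⟨A, hA⟩ : ∃ A : Subgroup G, A = Gn O ⊓ centralizer (F : Set G) := ⟨_, rfl⟩
  obtain ⟨B, hB⟩ : ∃ B : Subgroup G,
    B = L ⊓ centralizer ((F ⊓ normalizer (L : Set G) : Subgroup G) : Set G) := ⟨_, rfl⟩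
  rw [← hA, ← hB]
  have hcen := hD.centre L hL
  -- elements of `A` are fixed by `F`
  have hAf : ∀ x ∈ A, ∀ f ∈ F, f * x * f⁻¹ = x := by
    intro x hx f hf
    rw [hA] at hx
    have := mem_centralizer_iff.1 (Subgroup.mem_inf.1 hx).2 f hf
    rw [this, mul_inv_cancel_right]
  -- the component
  have hcomp : ∀ x ∈ A, ∃ l ∈ L, l⁻¹ * x ∈ centralizer (L : Set G) := by
    intro x hx
    rw [hA] at hx
    exact t1_comp hD hO hLO (Subgroup.mem_inf.1 hx).1
  choose! π hπL hπc using hcomp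
  have hπB : ∀ x ∈ A, π x ∈ B := by
    intro x hx
    rw [hB]
    refine Subgroup.mem_inf.2 ⟨hπL x hx, ?_⟩
    rw [mem_centralizer_iff]
    intro f hf
    obtain ⟨hfF, hfN⟩ := Subgroup.mem_inf.1 hf
    have h1 : f * π x * f⁻¹ ∈ L := pf_nz_conj hfN (hπL x hx)
    have h2 := t1_conj (f := f) (hπc x hx)
    rw [hAf x hx f hfF, cj_eq_iff.2 hfN] at h2
    have h3 := t1_uniq hcen h1 (hπL x hx) h2 (hπc x hx)
    calc f * π x = f * π x * f⁻¹ * f := by group
      _ = π x * f := by rw [h3]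
  have hπmul : ∀ x ∈ A, ∀ y ∈ A, π (x * y) = π x * π y := by
    intro x hx y hy
    refine t1_uniq hcen (hπL _ (mul_mem hx hy)) (mul_mem (hπL x hx) (hπL y hy))
      (hπc _ (mul_mem hx hy)) ?_
    have h1 : (π x * π y)⁻¹ * (x * y) = (π x)⁻¹ * x * ((π y)⁻¹ * y) := by
      have h2 := mem_centralizer_iff.1 (hπc x hx) (π y)⁻¹ (inv_mem (hπL y hy))
      calc (π x * π y)⁻¹ * (x * y) = (π y)⁻¹ * ((π x)⁻¹ * x) * y := by group
        _ = (π x)⁻¹ * x * (π y)⁻¹ * y := by rw [h2]
        _ = _ := by group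
    rw [h1]
    exact mul_mem (hπc x hx) (hπc y hy)
  -- equality from components
  have hext : ∀ x ∈ Gn O, ∀ y ∈ Gn O, (∀ M ∈ O, x⁻¹ * y ∈ centralizer (M : Set G)) → x = y := by
    intro x hx y hy h
    have := t1_centre hD O hfin hO (x⁻¹ * y) (mul_mem (inv_mem hx) hy) h
    exact inv_mul_eq_one.1 this
  have hinj : ∀ x ∈ A, ∀ y ∈ A, π x = π y → x = y := by
    intro x hx y hy h
    have hx' := hx
    have hy' := hy
    rw [hA] at hx' hy'
    refine hext x (Subgroup.mem_inf.1 hx').1 y (Subgroup.mem_inf.1 hy').1 fun M hM => ?_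
    obtain ⟨f, hf, rfl⟩ := (hOmem M).1 hM
    have h1 : x⁻¹ * y ∈ centralizer (L : Set G) := by
      have h2 : x⁻¹ * y = ((π x)⁻¹ * x)⁻¹ * ((π y)⁻¹ * y) := by rw [h]; group
      rw [h2]
      exact mul_mem (inv_mem (hπc x hx)) (hπc y hy)
    have h3 := t1_conj (f := f) h1
    have h4 : (f * x * f⁻¹)⁻¹ * (f * y * f⁻¹) = x⁻¹ * y := by rw [hAf x hx f hf, hAf y hy f hf]
    rwa [h4] at h3
  have hsurj : ∀ b ∈ B, ∃ x ∈ A, π x = b := by
    intro b hb
    rw [hB] at hb
    obtain ⟨hbL, hbC⟩ := Subgroup.mem_inf.1 hb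
    have hch : ∀ M ∈ O, ∃ f ∈ F, M = cj f L := fun M hM => (hOmem M).1 hM
    choose! φ hφF hφ using hch
    -- the components do not depend on the choice
    have hwd : ∀ f ∈ F, φ (cj f L) * b * (φ (cj f L))⁻¹ = f * b * f⁻¹ := by
      intro f hf
      have h1 := hφ _ (hfO f hf)
      have h2 := hφF _ (hfO f hf)
      generalize φ (cj f L) = g at h1 h2
      have h3 : cj (g⁻¹ * f) L = L := by
        rw [cj_mul, h1, ← cj_mul, inv_mul_cancel, cj_one]
      have h4 : g⁻¹ * f ∈ (F ⊓ normalizer (L : Set G) : Subgroup G) :=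
        Subgroup.mem_inf.2 ⟨mul_mem (inv_mem h2) hf, cj_eq_iff.1 h3⟩
      have h5 := mem_centralizer_iff.1 hbC _ h4
      calc g * b * g⁻¹ = g * (b * (g⁻¹ * f)) * f⁻¹ := by group
        _ = g * (g⁻¹ * f * b) * f⁻¹ := by rw [h5]
        _ = f * b * f⁻¹ := by group
    obtain ⟨d, hd, hdc⟩ := t1_exists hD (fun M => φ M * b * (φ M)⁻¹) O hfin hO (by
      intro M hM
      have h1 := hφ M hM
      have h2 : φ M * b * (φ M)⁻¹ ∈ cj (φ M) L := cj_mul_mem hbL
      rwa [← h1] at h2)
    have hdc' : ∀ f ∈ F, (f * b * f⁻¹)⁻¹ * d ∈ centralizer ((cj f L : Subgroup G) : Set G) := by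
      intro f hf
      rw [← hwd f hf]
      exact hdc _ (hfO f hf)
    have hdF : ∀ g ∈ F, g * d * g⁻¹ = d := by
      intro g hg
      have hgN : g ∈ normalizer (Gn O : Set G) := mem_normalizer_Gn (by
        intro M hM
        obtain ⟨f, hf, rfl⟩ := (hOmem M).1 hM
        rw [← cj_mul]
        exact hfO _ (mul_mem hg hf))
      refine hext _ (pf_nz_conj hgN hd) d hd fun M hM => ?_
      obtain ⟨f, hf, rfl⟩ := (hOmem M).1 hM
      have h1 := t1_conj (f := g) (hdc' (g⁻¹ * f) (mul_mem (inv_mem hg) hf))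
      have h2 : cj g (cj (g⁻¹ * f) L) = cj f L := by rw [← cj_mul, mul_inv_cancel_left]
      have h3 : g * (g⁻¹ * f * b * (g⁻¹ * f)⁻¹) * g⁻¹ = f * b * f⁻¹ := by group
      rw [h2, h3] at h1
      have h4 : (g * d * g⁻¹)⁻¹ * d =
          ((f * b * f⁻¹)⁻¹ * (g * d * g⁻¹))⁻¹ * ((f * b * f⁻¹)⁻¹ * d) := by group
      rw [h4]
      exact mul_mem (inv_mem h1) (hdc' f hf)
    have hdA : d ∈ A := by
      rw [hA]
      refine Subgroup.mem_inf.2 ⟨hd, ?_⟩
      rw [mem_centralizer_iff]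
      intro g hg
      calc g * d = g * d * g⁻¹ * g := by group
        _ = d * g := by rw [hdF g hg]
    refine ⟨d, hdA, t1_uniq hcen (hπL d hdA) hbL (hπc d hdA) ?_⟩
    have h1 := hdc' 1 (one_mem _)
    rw [cj_one, one_mul, inv_one, mul_one] at h1
    exact h1
  -- the isomorphism
  let ψ : A →* B :=
    { toFun := fun x => ⟨π x, hπB x x.2⟩
      map_one' := by
        apply Subtype.ext
        have h1 := hπmul 1 (one_mem _) 1 (one_mem _)
        rw [mul_one] at h1
        change π ((1 : A) : G) = 1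
        rw [Subgroup.coe_one]
        exact (mul_eq_left.1 h1.symm)
      map_mul' := fun x y => Subtype.ext (hπmul x x.2 y y.2) }
  have hψ : Function.Bijective ψ := by
    constructor
    · intro x y h
      exact Subtype.ext (hinj x x.2 y y.2 (congrArg Subtype.val h))
    · rintro ⟨b, hb⟩
      obtain ⟨x, hx, hxb⟩ := hsurj b hb
      exact ⟨⟨x, hx⟩, Subtype.ext hxb⟩
  let e : A ≃* B := MulEquiv.ofBijective ψ hψ
  have he : ∀ x (hx : x ∈ A), ((e ⟨x, hx⟩ : B) : G) = π x := fun x hx => rfl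
  rw [wsum_eq]
  refine Finset.sum_bij (fun x _ => π x) ?_ ?_ ?_ ?_
  · intro x hx
    rw [Set.Finite.mem_toFinset] at hx ⊢
    exact hπB x hx
  · intro x hx y hy h
    rw [Set.Finite.mem_toFinset] at hx hy
    exact hinj x hx y hy h
  · intro b hb
    rw [Set.Finite.mem_toFinset] at hb
    obtain ⟨x, hx, hxb⟩ := hsurj b hb
    exact ⟨x, by rw [Set.Finite.mem_toFinset]; exact hx, hxb⟩
  · intro x hx
    rw [Set.Finite.mem_toFinset] at hx
    have hx' : x ∈ A := hx
    have h1 : At X L x ↔ π x ∈ X := by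
      have h0 := At_mul_right (S := X) (g := π x) (hπc x hx')
      rw [mul_inv_cancel_left] at h0
      rw [h0, At_iff_mem hcen (hπL x hx')]
    have h2 := t1_lam_iso (p := p) e ⟨x, hx'⟩
    rw [he x hx'] at h2
    simp only [h1]
    rw [← h2]

end

end Vale.Agent.P240.K
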