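import Vale.Agent.P240.V.T1

/-!
P240-T2. The trick with two sets `S`, `X`: compare `Fam.kill`, `Fam.trick_one` in V/Trick.lean.

`kill2`: `O = {M | ∃ f ∈ F, M = cj f L}`, `A = Gn O ⊓ centralizer F`, `B = Gn (D \ O) ⊓ centralizer F`; for `x ∈ A`,
`y ∈ B`: `cnt S D (x * y) = cnt S O x + cnt S (D \ O) y` with `p ∣ cnt S O x` (`Fam.dvd_cnt`), and
`cnt X D' (x * y) = cnt X (D' ∩ O) x + cnt X (D' \ O) y` with `cnt X (D' ∩ O) x = n * [At X L x]`,
`n = (D' ∩ O).ncard` (an element `x` centralizing `F` has `At X M x` for all or for no `M ∈ O`: `orb_At_step`),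
`lam p (A ⊔ B) (x * y) = lam p A x * lam p B y` (see the proof of `Fam.zero_sum`). So the sum over `x ∈ A` is
`∑ lam p A x + (ζ ^ n - 1) * ∑ [At X L x] lam p A x = 0` by `webb` (as in `Fam.zero_sum`) and `Fam.orb_sum`, `hzero`
(with `E = F ⊓ normalizer L`, which is `⊥` or elementary abelian, `E ≤ R`, `E ≤ normalizer L`).
`trick2`: as `Fam.trick_one`. -/

namespace Vale.Agent.P240.K

open Finsupp Subgroup

section
variable {G : Type*} [Group G] {p : ℕ}

/-- counting over a subset of `D` -/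
lemma Fam.t2_cnt [Finite G] {R : Subgroup G} {D O D' : Set (Subgroup G)} (hD : Fam p R D)
    (hO : O ⊆ D) (hD' : D' ⊆ D) (S : Set G) {x y : G} (hx : x ∈ Gn O) (hy : y ∈ Gn (D \ O)) :
    cnt S D' (x * y) = cnt S (D' ∩ O) x + cnt S (D' \ O) y := by
  have hcom := hD.gn_comm hO Set.sdiff_subset Set.disjoint_sdiff_right
  have e : {L | L ∈ D' ∧ At S L (x * y)} =
      {L | L ∈ D' ∩ O ∧ At S L x} ∪ {L | L ∈ D' \ O ∧ At S L y} := by
    ext L
    simp only [Set.mem_union, Set.mem_ofPred_eq]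
    constructor
    · rintro ⟨hL, hA⟩
      by_cases hLO : L ∈ O
      · refine Or.inl ⟨⟨hL, hLO⟩, ?_⟩
        rwa [At_mul_right] at hA
        exact Subgroup.mem_centralizer_iff.2 fun z hz => hcom z (le_Gn hLO hz) y hy
      · refine Or.inr ⟨⟨hL, hLO⟩, ?_⟩
        rwa [At_mul_left] at hA
        exact Subgroup.mem_centralizer_iff.2 fun z hz =>
          (hcom x hx z (le_Gn (O := D \ O) ⟨hD' hL, hLO⟩ hz)).symm
    · rintro (⟨⟨hL, hLO⟩, hA⟩ | ⟨⟨hL, hLO⟩, hA⟩)
      · refine ⟨hL, ?_⟩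
        rwa [At_mul_right]
        exact Subgroup.mem_centralizer_iff.2 fun z hz => hcom z (le_Gn hLO hz) y hy
      · refine ⟨hL, ?_⟩
        rwa [At_mul_left]
        exact Subgroup.mem_centralizer_iff.2 fun z hz =>
          (hcom x hx z (le_Gn (O := D \ O) ⟨hD' hL, hLO⟩ hz)).symm
  unfold cnt
  rw [e]
  refine Set.ncard_union_eq ?_ (Set.toFinite _) (Set.toFinite _)
  rw [Set.disjoint_left]
  rintro L ⟨h1, _⟩ ⟨h2, _⟩
  exact h2.2 h1.2

/-- all or none -/
lemma Fam.t2_at {R : Subgroup G} {D : Set (Subgroup G)} (hD : Fam p R D) {X : Set G}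
    (hX : ∀ L ∈ D, ∀ h ∈ R, h ^ p = 1 → h ∉ normalizer (L : Set G) → ∀ s ∈ X, s ∈ L →
      h * s * h⁻¹ ∈ X)
    {F : Subgroup G} (hF : F ∈ ApS p G) (hFR : F ≤ R) {L : Subgroup G} (hL : L ∈ D)
    {x : G} (hx : x ∈ centralizer (F : Set G)) {M : Subgroup G} (hM : ∃ f ∈ F, M = cj f L) :
    At X M x ↔ At X L x := by
  obtain ⟨f, hf, rfl⟩ := hM
  have hfx : ∀ f ∈ F, f * x = x * f := fun f hf => (mem_centralizer_iff.1 hx) f hf
  constructor
  · intro h
    have h1 := orb_At_step hX (hD.conj L hL f (hFR hf)) (hFR (inv_mem hf))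
      (hF.2.2 _ (inv_mem hf)) (hfx _ (inv_mem hf)) h
    rwa [← cj_mul, inv_mul_cancel, cj_one] at h1
  · intro h
    exact orb_At_step hX hL (hFR hf) (hF.2.2 _ hf) (hfx _ hf) h

open Classical in
lemma Fam.t2_cntX {R : Subgroup G} {D : Set (Subgroup G)} (hD : Fam p R D) {X : Set G}
    (hX : ∀ L ∈ D, ∀ h ∈ R, h ^ p = 1 → h ∉ normalizer (L : Set G) → ∀ s ∈ X, s ∈ L →
      h * s * h⁻¹ ∈ X)
    {F : Subgroup G} (hF : F ∈ ApS p G) (hFR : F ≤ R) {L : Subgroup G} (hL : L ∈ D)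
    {x : G} (hx : x ∈ centralizer (F : Set G)) (D' : Set (Subgroup G)) :
    cnt X (D' ∩ {M | ∃ f ∈ F, M = cj f L}) x =
      if At X L x then (D' ∩ {M | ∃ f ∈ F, M = cj f L}).ncard else 0 := by
  unfold cnt
  split_ifs with h
  · congr 1
    ext M
    constructor
    · exact fun hM => hM.1
    · exact fun hM => ⟨hM, (hD.t2_at hX hF hFR hL hx hM.2).2 h⟩
  · rw [← Set.ncard_empty (α := Subgroup G)]
    congr 1
    ext M
    simp only [Set.mem_ofPred_eq, Set.mem_empty_iff_false, iff_false]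
    rintro ⟨hM, hA⟩
    exact h ((hD.t2_at hX hF hFR hL hx hM.2).1 hA)

theorem Fam.kill2 [hp : Fact p.Prime] [Finite G] {R : Subgroup G} {D : Set (Subgroup G)}
    (hD : Fam p R D) {S X : Set G}
    (hS : ∀ L ∈ D, ∀ h ∈ R, h ^ p = 1 → h ∉ normalizer (L : Set G) → ∀ s ∈ S, s ∈ L →
      h * s * h⁻¹ ∈ S)
    (hX : ∀ L ∈ D, ∀ h ∈ R, h ^ p = 1 → h ∉ normalizer (L : Set G) → ∀ s ∈ X, s ∈ L →
      h * s * h⁻¹ ∈ X)
    (hzero : ∀ L ∈ D, ∀ E ≤ normalizer (L : Set G), E = ⊥ ∨ ElemAb p E →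
      wsum p X (L ⊓ centralizer (E : Set G)) = 0)
    {K : Type*} [CommRing K] {ζ : K} (hζ : ζ ^ p = 1) {D' : Set (Subgroup G)} (hD' : D' ⊆ D)
    {F : Subgroup G} (hF : F ∈ ApB p G)
    (hFR : F ≤ R) (hmove : ∃ L ∈ D, ¬ F ≤ normalizer (L : Set G)) :
    ∑ g ∈ (Set.toFinite ((Gn D ⊓ centralizer (F : Set G) : Subgroup G) : Set G)).toFinset,
      ζ ^ (cnt S D g + cnt X D' g) * (lam p (Gn D ⊓ centralizer (F : Set G)) g : K) = 0 := by
  classical
  obtain ⟨L, hL, hmv⟩ := hmove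
  have hFS : F ∈ ApS p G := by
    rcases hF with h | h
    · exact absurd (by rw [h]; exact bot_le) hmv
    · exact h
  set O : Set (Subgroup G) := {M | ∃ f ∈ F, M = cj f L} with hOdef
  have hO : O ⊆ D := by
    rintro M ⟨f, hf, rfl⟩
    exact hD.conj L hL f (hFR hf)
  have hst : ∀ f ∈ F, ∀ M ∈ O, cj f M ∈ O := by
    rintro f hf M ⟨f', hf', rfl⟩
    exact ⟨f * f', mul_mem hf hf', by rw [cj_mul]⟩
  have hLO : L ∈ O := ⟨1, one_mem _, by rw [cj_one]⟩
  have hFp : IsPGroup p F := isPGroup_of_ApS hFS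
  have hdis : Disjoint O (D \ O) := Set.disjoint_sdiff_right
  have hF' := stable_diff hst (fun f hf L hL => hD.conj L hL f (hFR hf))
  have hdec := hD.inf_centralizer hO Set.sdiff_subset hdis hst hF'
  rw [Set.union_sdiff_cancel hO] at hdec
  have horb := hD.orb_sum X hFS hFR hL
  rw [← hOdef, hzero L hL (F ⊓ normalizer (L : Set G)) inf_le_right ?_] at horb
  swap
  · by_cases hb : F ⊓ normalizer (L : Set G) = ⊥
    · exact Or.inl hb
    · refine Or.inr ⟨hb, ?_, ?_⟩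
      · exact fun x hx y hy => hFS.2.1 x (Subgroup.mem_inf.1 hx).1 y (Subgroup.mem_inf.1 hy).1
      · exact fun x hx => hFS.2.2 x (Subgroup.mem_inf.1 hx).1
  set A : Subgroup G := Gn O ⊓ centralizer (F : Set G) with hA
  set B : Subgroup G := Gn (D \ O) ⊓ centralizer (F : Set G) with hB
  have hcomm : ∀ x ∈ A, ∀ y ∈ B, x * y = y * x := fun x hx y hy =>
    hD.gn_comm hO Set.sdiff_subset hdis x (Subgroup.mem_inf.1 hx).1 y (Subgroup.mem_inf.1 hy).1
  have hint : A ⊓ B = ⊥ := by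
    rw [eq_bot_iff, ← hD.gn_inf hO Set.sdiff_subset hdis]
    exact inf_le_inf inf_le_left inf_le_left
  have hcard : p ∣ Nat.card A :=
    dvd_card_inf_centralizer hFp (fun f hf => mem_normalizer_Gn (hst f hf))
      ((hD.dvd L hL).trans (Subgroup.card_dvd_of_le (le_Gn hLO)))
  have hwebb := webb (p := p) A hcard
  have h1 : ∀ f : G → K,
      ∑ g ∈ (Set.toFinite ((Gn D ⊓ centralizer (F : Set G) : Subgroup G) : Set G)).toFinset, f g =
      ∑ g ∈ (Set.toFinite ((A ⊔ B : Subgroup G) : Set G)).toFinset, f g := by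
    intro f
    refine Finset.sum_congr ?_ fun _ _ => rfl
    ext g
    rw [Set.Finite.mem_toFinset, Set.Finite.mem_toFinset, hdec]
  rw [h1, sum_sup hcomm hint, Finset.sum_comm]
  refine Finset.sum_eq_zero fun y hy => ?_
  rw [Set.Finite.mem_toFinset] at hy
  set n : ℕ := (D' ∩ O).ncard with hn
  have h2 : ∀ x ∈ (Set.toFinite (A : Set G)).toFinset,
      ζ ^ (cnt S D (x * y) + cnt X D' (x * y)) *
        (lam p (Gn D ⊓ centralizer (F : Set G)) (x * y) : K) =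
      (ζ ^ (cnt S (D \ O) y + cnt X (D' \ O) y) * (lam p B y : K)) *
        (((lam p A x : ℤ) : K) +
          (ζ ^ n - 1) * (((if At X L x then (1 : ℤ) else 0) * lam p A x : ℤ) : K)) := by
    intro x hx
    rw [Set.Finite.mem_toFinset] at hx
    have hxA := Subgroup.mem_inf.1 hx
    have hyB := Subgroup.mem_inf.1 hy
    have hyA : ∀ z ∈ A, y * z = z * y := fun z hz => (hcomm z hz y hy).symm
    have hxB : ∀ z ∈ B, x * z = z * x := fun z hz => hcomm x hx z hz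
    have h3 : lam p (Gn D ⊓ centralizer (F : Set G)) (x * y) = lam p A x * lam p B y := by
      rw [hdec, lam_sup hcomm hint (mul_mem (Subgroup.le_normalizer hx)
        (mem_normalizer_of_comm hyA))
        (mul_mem (mem_normalizer_of_comm hxB) (Subgroup.le_normalizer hy)),
        lam_mul_right hyA, lam_mul_left hxB]
    have h4 : cnt S D (x * y) = cnt S O x + cnt S (D \ O) y := by
      have h5 := hD.t2_cnt hO subset_rfl S hxA.1 hyB.1
      rwa [Set.inter_eq_self_of_subset_right hO] at h5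
    have h5 : cnt X D' (x * y) = (if At X L x then n else 0) + cnt X (D' \ O) y := by
      rw [hD.t2_cnt hO hD' X hxA.1 hyB.1, hD.t2_cntX hX hFS hFR hL hxA.2 D']
    obtain ⟨a, ha⟩ := hD.dvd_cnt hS hFS hFR hL hmv hxA.2
    rw [← hOdef] at ha
    rw [h3, h4, h5, ha]
    have h6 : ζ ^ (p * a + cnt S (D \ O) y + ((if At X L x then n else 0) + cnt X (D' \ O) y)) =
        ζ ^ (if At X L x then n else 0) * ζ ^ (cnt S (D \ O) y + cnt X (D' \ O) y) := by
      have h7 : p * a + cnt S (D \ O) y + ((if At X L x then n else 0) + cnt X (D' \ O) y) =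
          p * a + ((if At X L x then n else 0) + (cnt S (D \ O) y + cnt X (D' \ O) y)) := by
        ring
      rw [h7, pow_add, pow_mul, hζ, one_pow, one_mul, pow_add]
    rw [h6]
    by_cases h8 : At X L x
    · rw [if_pos h8, if_pos h8]
      push_cast
      ring
    · rw [if_neg h8, if_neg h8]
      push_cast
      ring
  rw [Finset.sum_congr rfl h2, ← Finset.mul_sum, Finset.sum_add_distrib, ← Finset.mul_sum,
    ← Int.cast_sum, ← Int.cast_sum, hwebb, horb]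
  simp

theorem Fam.trick2 [hp : Fact p.Prime] [Finite G] {R : Subgroup G} {D : Set (Subgroup G)}
    (hD : Fam p R D) {S X : Set G}
    (hS : ∀ L ∈ D, ∀ h ∈ R, h ^ p = 1 → h ∉ normalizer (L : Set G) → ∀ s ∈ S, s ∈ L →
      h * s * h⁻¹ ∈ S)
    (hX : ∀ L ∈ D, ∀ h ∈ R, h ^ p = 1 → h ∉ normalizer (L : Set G) → ∀ s ∈ X, s ∈ L →
      h * s * h⁻¹ ∈ X)
    (hzero : ∀ L ∈ D, ∀ E ≤ normalizer (L : Set G), E = ⊥ ∨ ElemAb p E →
      wsum p X (L ⊓ centralizer (E : Set G)) = 0)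
    {K : Type*} [CommRing K] {ζ : K} (hζ : ζ ^ p = 1) {D' : Set (Subgroup G)} (hD' : D' ⊆ D) :
    ∑ g ∈ (Set.toFinite (Gn D : Set G)).toFinset,
        ζ ^ (cnt S D g + cnt X D' g) * (lam p R g : K) =
      ∑ g ∈ (Set.toFinite (Gn D : Set G)).toFinset,
        ζ ^ (cnt S D g + cnt X D' g) * (lam p (Rz R D) g : K) := by
  rw [sum_attach hD.gn_le hD.gn_normal,
    sum_attach hD.gn_le_Rz (fun h hh => hD.gn_normal h (mem_Rz.1 hh).1)]
  symm
  refine Finset.sum_subset ?_ ?_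
  · intro F hF
    rw [Set.Finite.mem_toFinset] at hF ⊢
    exact ⟨hF.1, hF.2.1.trans inf_le_left, hF.2.2⟩
  · intro F hF hF'
    rw [Set.Finite.mem_toFinset] at hF hF'
    rw [hD.kill2 hS hX hzero hζ hD' hF.1 hF.2.1 ?_, mul_zero]
    by_contra h
    push Not at h
    exact hF' ⟨hF.1, fun x hx => mem_Rz.2 ⟨hF.2.1 hx, fun L hL => h L hL hx⟩, hF.2.2⟩

end

end Vale.Agent.P240.K
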