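import Vale.Agent.P240.V.T2

/-!
P240-T3. Extraction.

`mass2`: for `M ∈ D` and `ψ : G → K` with `ψ (x * y) = ψ y` for `x ∈ M` (all `y`), the sum of
`[At X M g] * ψ g * lam p (Rz R D) g` over `Gn D` vanishes: use `sum_attach` for `Rz R D` (as in `Fam.mass_zero`), for
every `F ≤ Rz R D` decompose `Gn D ⊓ centralizer F` into `M ⊓ centralizer F` and `Gn (D \ {M}) ⊓ centralizer F`
(`Fam.inf_centralizer`, `sum_sup`, `lam_sup` as in `Fam.sum_zero`/`Fam.zero_sum`); the sum over `x ∈ M ⊓ centralizer F`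
of `[At X M x] lam` is `wsum p X (M ⊓ centralizer F) = 0` (`wsum_eq`, `At_iff_mem`, `hzero`).
`extract`: let `V J K = ∑ g ∈ Gn D, [∀ L ∈ J, At S L g] * [∀ L ∈ K, At X L g] * lam p (Rz R D) g` (`J K ⊆ D`). If
`M ∈ D \ J`, then `V J K = 0`: by `Fam.mass_zero` if `M ∉ K`, by `mass2` if `M ∈ K`. Expanding
`ζ ^ cnt S D g = ∑ J ⊆ D, (ζ - 1) ^ |J| [∀ L ∈ J, At S L g]` (see the proof of `Fam.trick`) and the same for `X`, `D'`,
`0 = ∑ K ⊆ D', (ζ - 1) ^ (|D| + |K|) * V D K` for all `D' ⊆ D`, so `V D D' = 0` for all `D' ⊆ D` by induction on `D'`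
(`ζ ≠ 1`, `K` a field of characteristic `0`, e.g. `ℂ`). Finally
`∑ g ∈ Sel2 D D2 S X, lam = ∑ D2 ⊆ K ⊆ D, (-1) ^ |K \ D2| V D K = 0`, since
`[∀ L ∈ D \ D2, ¬ At X L g] = ∏ (1 - [At X L g])`; `g ∈ Gn D` is in `Sel2 D D2 S X` iff `At S L g` for all `L ∈ D` and
(`At X L g ↔ L ∈ D2`) for all `L ∈ D` (the `L`-component is unique by `Fam.centre`).
`twin_prod`: as `prod_main` with `r = 0` and `twisted` (V/Main.lean): if `HQ` fails, then `lam p (Rest F D) g = 0` for all
`g ∈ Rest F D` (`residue_lam` with `r = 0`, `NA_of_rat`, `remove`). -/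

namespace Vale.Agent.P240.K

open Finsupp Subgroup

universe u v

variable {𝕜 : Type v} [Field 𝕜]

section
variable {G : Type u} [Group G] {p : ℕ}

open Classical in
theorem Fam.mass2 [hp : Fact p.Prime] [Finite G] {R : Subgroup G} {D : Set (Subgroup G)}
    (hD : Fam p R D) {X : Set G} {M : Subgroup G} (hM : M ∈ D)
    (hzero : ∀ E ≤ normalizer (M : Set G), E = ⊥ ∨ ElemAb p E →
      wsum p X (M ⊓ centralizer (E : Set G)) = 0)
    {K : Type*} [CommRing K] (ψ : G → K) (hψ : ∀ x ∈ M, ∀ y, ψ (x * y) = ψ y) :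
    ∑ g ∈ (Set.toFinite (Gn D : Set G)).toFinset,
      ((if At X M g then 1 else 0) * ψ g) * (lam p (Rz R D) g : K) = 0 := by
  rw [sum_attach hD.gn_le_Rz (fun h hh => hD.gn_normal h (mem_Rz.1 hh).1)]
  refine Finset.sum_eq_zero fun F hF => ?_
  rw [Set.Finite.mem_toFinset] at hF
  obtain ⟨hF1, hF2, _⟩ := hF
  have hO : D \ {M} ⊆ D := Set.sdiff_subset
  have hL1 : ({M} : Set (Subgroup G)) ⊆ D := Set.singleton_subset_iff.2 hM
  have hdis : Disjoint ({M} : Set (Subgroup G)) (D \ {M}) := Set.disjoint_sdiff_right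
  have hst : ∀ f ∈ F, ∀ L ∈ D, cj f L = L := fun f hf L hL =>
    cj_eq_iff.2 ((mem_Rz.1 (hF2 hf)).2 L hL)
  have hdec := hD.inf_centralizer hL1 hO hdis (F := F)
    (fun f hf L hL => by rw [hst f hf L (hL1 hL)]; exact hL)
    (fun f hf L hL => by rw [hst f hf L (hO hL)]; exact hL)
  have hGL : Gn ({M} : Set (Subgroup G)) = M := by simp [Gn]
  rw [Set.union_sdiff_cancel hL1, hGL] at hdec
  have hcom : ∀ x ∈ M, ∀ y ∈ Gn (D \ {M}), x * y = y * x := fun x hx y hy =>
    hD.gn_comm hL1 hO hdis x (by rw [hGL]; exact hx) y hy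
  have hcomm : ∀ x ∈ M ⊓ centralizer (F : Set G), ∀ y ∈ Gn (D \ {M}) ⊓ centralizer (F : Set G),
      x * y = y * x := fun x hx y hy =>
    hcom x (Subgroup.mem_inf.1 hx).1 y (Subgroup.mem_inf.1 hy).1
  have hint : (M ⊓ centralizer (F : Set G)) ⊓ (Gn (D \ {M}) ⊓ centralizer (F : Set G)) = ⊥ := by
    rw [eq_bot_iff]
    refine (inf_le_inf inf_le_left inf_le_left).trans ?_
    have h3 := hD.gn_inf hL1 hO hdis
    rw [hGL] at h3
    exact h3.le
  have h1 : ∀ f : G → K,
      ∑ g ∈ (Set.toFinite ((Gn D ⊓ centralizer (F : Set G) : Subgroup G) : Set G)).toFinset, f g =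
      ∑ g ∈ (Set.toFinite (((M ⊓ centralizer (F : Set G)) ⊔
        (Gn (D \ {M}) ⊓ centralizer (F : Set G)) : Subgroup G) : Set G)).toFinset, f g := by
    intro f
    refine Finset.sum_congr ?_ fun _ _ => rfl
    ext g
    rw [Set.Finite.mem_toFinset, Set.Finite.mem_toFinset, hdec]
  rw [h1, sum_sup hcomm hint, Finset.sum_comm]
  have hz : wsum p X (M ⊓ centralizer (F : Set G)) = 0 := by
    refine hzero F (fun f hf => (mem_Rz.1 (hF2 hf)).2 M hM) ?_
    rcases hF1 with h | h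
    · exact Or.inl h
    · exact Or.inr h
  have hz' : ∑ a ∈ (Set.toFinite ((M ⊓ centralizer (F : Set G) : Subgroup G) : Set G)).toFinset,
      (if a ∈ X then (1 : K) else 0) * (lam p (M ⊓ centralizer (F : Set G)) a : K) = 0 := by
    rw [wsum_eq] at hz
    have h2 := congrArg (Int.cast : ℤ → K) hz
    rw [Int.cast_sum, Int.cast_zero] at h2
    refine Eq.trans (Finset.sum_congr rfl fun a _ => ?_) h2
    rw [Int.cast_mul]
    split_ifs <;> simp
  have h3 : ∀ b ∈ (Set.toFinite ((Gn (D \ {M}) ⊓ centralizer (F : Set G) : Subgroup G) :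
      Set G)).toFinset,
      ∑ a ∈ (Set.toFinite ((M ⊓ centralizer (F : Set G) : Subgroup G) : Set G)).toFinset,
        ((if At X M (a * b) then 1 else 0) * ψ (a * b)) *
          (lam p (Gn D ⊓ centralizer (F : Set G)) (a * b) : K) = 0 := by
    intro b hb
    rw [Set.Finite.mem_toFinset] at hb
    have hbA : ∀ z ∈ M ⊓ centralizer (F : Set G), b * z = z * b := fun z hz =>
      (hcomm z hz b hb).symm
    have h4 : ∀ a ∈ (Set.toFinite ((M ⊓ centralizer (F : Set G) : Subgroup G) :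
        Set G)).toFinset,
        ((if At X M (a * b) then 1 else 0) * ψ (a * b)) *
          (lam p (Gn D ⊓ centralizer (F : Set G)) (a * b) : K) =
        (ψ b * (lam p (Gn (D \ {M}) ⊓ centralizer (F : Set G)) b : K)) *
          ((if a ∈ X then (1 : K) else 0) * (lam p (M ⊓ centralizer (F : Set G)) a : K)) := by
      intro a ha
      rw [Set.Finite.mem_toFinset] at ha
      have haM : a ∈ M := (Subgroup.mem_inf.1 ha).1
      have haB : ∀ z ∈ Gn (D \ {M}) ⊓ centralizer (F : Set G), a * z = z * a :=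
        fun z hz => hcomm a ha z hz
      have h5 : At X M (a * b) ↔ a ∈ X := by
        rw [At_mul_right, At_iff_mem (hD.centre M hM) haM]
        rw [mem_centralizer_iff]
        exact fun z hz => hcom z hz b (Subgroup.mem_inf.1 hb).1
      have h6 : lam p (Gn D ⊓ centralizer (F : Set G)) (a * b) =
          lam p (M ⊓ centralizer (F : Set G)) a *
            lam p (Gn (D \ {M}) ⊓ centralizer (F : Set G)) b := by
        rw [hdec, lam_sup hcomm hint
          (mul_mem (Subgroup.le_normalizer ha) (mem_normalizer_of_comm hbA))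
          (mul_mem (mem_normalizer_of_comm haB) (Subgroup.le_normalizer hb)),
          lam_mul_right hbA, lam_mul_left haB]
      rw [h6, hψ a haM b, Int.cast_mul]
      by_cases h7 : a ∈ X
      · rw [if_pos (h5.2 h7), if_pos h7]
        ring
      · rw [if_neg (fun h => h7 (h5.1 h)), if_neg h7]
        ring
    rw [Finset.sum_congr rfl h4, ← Finset.mul_sum, hz', mul_zero]
  rw [Finset.sum_eq_zero h3, mul_zero]

namespace T3b

lemma At_comp {L : Subgroup G} (hc : L ⊓ centralizer (L : Set G) = ⊥) {X : Set G} {s g : G}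
    (hs : s ∈ L) (h : s⁻¹ * g ∈ centralizer (L : Set G)) : At X L g ↔ s ∈ X := by
  have h1 : g = s * (s⁻¹ * g) := by group
  conv_lhs => rw [h1]
  rw [At_mul_right h, At_iff_mem hc hs]

open Classical in
lemma pow_expand {ι K : Type*} [CommRing K] (A : Finset ι) (P : ι → Prop) (ζ : K) :
    ζ ^ (A.filter P).card =
      ∑ J ∈ A.powerset, (ζ - 1) ^ J.card * (if ∀ L ∈ J, P L then (1 : K) else 0) := by
  have h1 : ζ ^ (A.filter P).card = ∏ L ∈ A, (1 + if P L then ζ - 1 else 0) := by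
    have h2 : ∀ L ∈ A, (1 + if P L then ζ - 1 else 0) = if P L then ζ else 1 := by
      intro L _
      split_ifs <;> ring
    rw [Finset.prod_congr rfl h2, Finset.prod_ite, Finset.prod_const, Finset.prod_const_one,
      mul_one]
  rw [h1, Finset.prod_one_add]
  refine Finset.sum_congr rfl fun J _ => ?_
  rw [Finset.prod_ite_zero, Finset.prod_const]
  split_ifs <;> ring

open Classical in
lemma cnt_card [Finite G] (S : Set G) (O : Set (Subgroup G)) (g : G) :
    cnt S O g = ((Set.toFinite O).toFinset.filter (fun L => At S L g)).card := by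
  rw [cnt, Set.ncard_eq_toFinset_card _ (Set.toFinite _)]
  congr 1
  ext L
  rw [Set.Finite.mem_toFinset, Finset.mem_filter, Set.Finite.mem_toFinset]
  rfl

open Classical in
/-- the twisted sums -/
noncomputable def vv [Finite G] (p : ℕ) (R : Subgroup G) (D : Set (Subgroup G)) (S X : Set G)
    (J K : Finset (Subgroup G)) : ℂ :=
  ∑ g ∈ (Set.toFinite (Gn D : Set G)).toFinset,
    ((if ∀ L ∈ J, At S L g then (1 : ℂ) else 0) * (if ∀ L ∈ K, At X L g then (1 : ℂ) else 0)) *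
      (lam p (Rz R D) g : ℂ)

section
variable [hp : Fact p.Prime] [Finite G] {R : Subgroup G} {D : Set (Subgroup G)}
    {S X : Set G}

omit hp [Finite G] in
lemma all_mul (hD : Fam p R D) {M : Subgroup G} (hM : M ∈ D) {J : Finset (Subgroup G)}
    (hJ : ∀ L ∈ J, L ∈ D) (hMJ : M ∉ J) (Y : Set G) {x : G} (hx : x ∈ M) (y : G) :
    (∀ L ∈ J, At Y L (x * y)) ↔ ∀ L ∈ J, At Y L y := by
  refine forall₂_congr fun L hL => At_mul_left ?_
  rw [mem_centralizer_iff]
  intro z hz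
  refine hD.comm L (hJ L hL) M hM ?_ z hz x hx
  rintro rfl
  exact hMJ hL

lemma vv_zero (hD : Fam p R D)
    (hzero : ∀ L ∈ D, ∀ E ≤ normalizer (L : Set G), E = ⊥ ∨ ElemAb p E →
      wsum p X (L ⊓ centralizer (E : Set G)) = 0)
    {J K : Finset (Subgroup G)} (hJ : ∀ L ∈ J, L ∈ D) (hK : ∀ L ∈ K, L ∈ D) {M : Subgroup G}
    (hM : M ∈ D) (hMJ : M ∉ J) : vv p R D S X J K = 0 := by
  classical
  by_cases hMK : M ∈ K
  · have hK' : ∀ L ∈ K.erase M, L ∈ D := fun L hL => hK L (Finset.mem_of_mem_erase hL)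
    have h := hD.mass2 (X := X) hM (hzero M hM) (K := ℂ)
      (fun g => (if ∀ L ∈ J, At S L g then (1 : ℂ) else 0) *
        (if ∀ L ∈ K.erase M, At X L g then (1 : ℂ) else 0)) (by
        intro x hx y
        simp only [all_mul hD hM hJ hMJ S hx y,
          all_mul hD hM hK' (Finset.notMem_erase M K) X hx y])
    rw [← h]
    unfold vv
    refine Finset.sum_congr rfl fun g _ => ?_
    have h1 : (∀ L ∈ K, At X L g) ↔ At X M g ∧ ∀ L ∈ K.erase M, At X L g := by
      constructor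
      · exact fun h => ⟨h M hMK, fun L hL => h L (Finset.mem_of_mem_erase hL)⟩
      · rintro ⟨h2, h3⟩ L hL
        by_cases hLM : L = M
        · rw [hLM]; exact h2
        · exact h3 L (Finset.mem_erase.2 ⟨hLM, hL⟩)
    by_cases h2 : At X M g
    · have h3 : (∀ L ∈ K, At X L g) ↔ ∀ L ∈ K.erase M, At X L g :=
        h1.trans ⟨fun h => h.2, fun h => ⟨h2, h⟩⟩
      simp only [h3, h2, if_true, one_mul]
    · have h3 : ¬ ∀ L ∈ K, At X L g := fun h => h2 (h1.1 h).1
      simp only [h3, h2, if_false, mul_zero, zero_mul]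
  · refine hD.mass_zero S (J := D \ {M}) Set.sdiff_subset ?_
      (fun g => (if ∀ L ∈ J, At S L g then (1 : ℂ) else 0) *
        (if ∀ L ∈ K, At X L g then (1 : ℂ) else 0)) ?_
    · intro h
      have h1 : M ∈ D \ {M} := by rw [h]; exact hM
      exact h1.2 rfl
    · intro L hL hLM x hx y
      have hLM' : L = M := by
        by_contra h
        exact hLM ⟨hL, h⟩
      subst hLM'
      simp only [all_mul hD hM hJ hMJ S hx y, all_mul hD hM hK hMK X hx y]

lemma vv_sum (hD : Fam p R D)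
    (hS : ∀ L ∈ D, ∀ h ∈ R, h ^ p = 1 → h ∉ normalizer (L : Set G) → ∀ s ∈ S, s ∈ L →
      h * s * h⁻¹ ∈ S)
    (hX : ∀ L ∈ D, ∀ h ∈ R, h ^ p = 1 → h ∉ normalizer (L : Set G) → ∀ s ∈ X, s ∈ L →
      h * s * h⁻¹ ∈ X)
    (hzero : ∀ L ∈ D, ∀ E ≤ normalizer (L : Set G), E = ⊥ ∨ ElemAb p E →
      wsum p X (L ⊓ centralizer (E : Set G)) = 0)
    (hac : ∀ g ∈ R, lam p R g = 0) {ζ : ℂ} (hζ : ζ ^ p = 1) (hζ1 : ζ ≠ 1)
    {K : Finset (Subgroup G)} (hK : K ⊆ (Set.toFinite D).toFinset) :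
    ∑ K' ∈ K.powerset, (ζ - 1) ^ K'.card * vv p R D S X (Set.toFinite D).toFinset K' = 0 := by
  classical
  set A : Finset (Subgroup G) := (Set.toFinite D).toFinset with hA
  have hAD : ∀ L, L ∈ A ↔ L ∈ D := fun L => by rw [hA, Set.Finite.mem_toFinset]
  have hKD : (K : Set (Subgroup G)) ⊆ D := fun L hL => (hAD L).1 (hK hL)
  have h := hD.trick2 hS hX hzero hζ hKD
  have h0 : ∑ g ∈ (Set.toFinite (Gn D : Set G)).toFinset,
      ζ ^ (cnt S D g + cnt X (K : Set (Subgroup G)) g) * (lam p R g : ℂ) = 0 := by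
    refine Finset.sum_eq_zero fun g hg => ?_
    rw [Set.Finite.mem_toFinset] at hg
    rw [hac g (hD.gn_le hg), Int.cast_zero, mul_zero]
  rw [h0] at h
  have hterm : ∀ g ∈ (Set.toFinite (Gn D : Set G)).toFinset,
      ζ ^ (cnt S D g + cnt X (K : Set (Subgroup G)) g) * (lam p (Rz R D) g : ℂ) =
      ∑ J ∈ A.powerset, ∑ K' ∈ K.powerset, (ζ - 1) ^ J.card * (ζ - 1) ^ K'.card *
        (((if ∀ L ∈ J, At S L g then (1 : ℂ) else 0) *
          (if ∀ L ∈ K', At X L g then (1 : ℂ) else 0)) * (lam p (Rz R D) g : ℂ)) := by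
    intro g _
    have hKf : (Set.toFinite (K : Set (Subgroup G))).toFinset = K := by
      ext L
      rw [Set.Finite.mem_toFinset]
      rfl
    rw [pow_add, cnt_card, cnt_card, hKf, ← hA, pow_expand, pow_expand, Finset.sum_mul_sum,
      Finset.sum_mul]
    refine Finset.sum_congr rfl fun J _ => ?_
    rw [Finset.sum_mul]
    refine Finset.sum_congr rfl fun K' _ => ?_
    ring
  rw [Finset.sum_congr rfl hterm, Finset.sum_comm] at h
  have hJ : ∀ J ∈ A.powerset, (∑ g ∈ (Set.toFinite (Gn D : Set G)).toFinset,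
      ∑ K' ∈ K.powerset, (ζ - 1) ^ J.card * (ζ - 1) ^ K'.card *
        (((if ∀ L ∈ J, At S L g then (1 : ℂ) else 0) *
          (if ∀ L ∈ K', At X L g then (1 : ℂ) else 0)) * (lam p (Rz R D) g : ℂ))) =
      ∑ K' ∈ K.powerset, (ζ - 1) ^ J.card * (ζ - 1) ^ K'.card * vv p R D S X J K' := by
    intro J _
    rw [Finset.sum_comm]
    refine Finset.sum_congr rfl fun K' _ => ?_
    rw [vv, Finset.mul_sum]
  rw [Finset.sum_congr rfl hJ, Finset.sum_eq_single A] at h
  · have h1 : ∑ K' ∈ K.powerset, (ζ - 1) ^ A.card * (ζ - 1) ^ K'.card * vv p R D S X A K' =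
        (ζ - 1) ^ A.card * ∑ K' ∈ K.powerset, (ζ - 1) ^ K'.card * vv p R D S X A K' := by
      rw [Finset.mul_sum]
      exact Finset.sum_congr rfl fun K' _ => by ring
    rw [h1] at h
    rcases mul_eq_zero.1 h.symm with h2 | h2
    · exact absurd h2 (pow_ne_zero _ (sub_ne_zero.2 hζ1))
    · exact h2
  · intro J hJ hne
    rw [Finset.mem_powerset] at hJ
    obtain ⟨M, hMA, hMJ⟩ : ∃ M ∈ A, M ∉ J := by
      by_contra hcon
      push Not at hcon
      exact hne (Finset.Subset.antisymm hJ hcon)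
    refine Finset.sum_eq_zero fun K' hK' => ?_
    rw [vv_zero hD hzero (fun L hL => (hAD L).1 (hJ hL))
      (fun L hL => hKD (Finset.mem_powerset.1 hK' hL)) ((hAD M).1 hMA) hMJ, mul_zero]
  · intro hcon
    exact absurd (Finset.mem_powerset_self A) hcon

lemma vv_all (hD : Fam p R D)
    (hS : ∀ L ∈ D, ∀ h ∈ R, h ^ p = 1 → h ∉ normalizer (L : Set G) → ∀ s ∈ S, s ∈ L →
      h * s * h⁻¹ ∈ S)
    (hX : ∀ L ∈ D, ∀ h ∈ R, h ^ p = 1 → h ∉ normalizer (L : Set G) → ∀ s ∈ X, s ∈ L →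
      h * s * h⁻¹ ∈ X)
    (hzero : ∀ L ∈ D, ∀ E ≤ normalizer (L : Set G), E = ⊥ ∨ ElemAb p E →
      wsum p X (L ⊓ centralizer (E : Set G)) = 0)
    (hac : ∀ g ∈ R, lam p R g = 0) :
    ∀ K : Finset (Subgroup G), K ⊆ (Set.toFinite D).toFinset →
      vv p R D S X (Set.toFinite D).toFinset K = 0 := by
  classical
  have hprim := Complex.isPrimitiveRoot_exp p hp.out.ne_zero
  set ζ : ℂ := Complex.exp (2 * Real.pi * Complex.I / p) with hζdef
  have hζ : ζ ^ p = 1 := hprim.pow_eq_one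
  have hζ1 : ζ ≠ 1 := hprim.ne_one hp.out.one_lt
  intro K
  induction K using Finset.strongInduction with
  | H K ih =>
    intro hK
    have h := vv_sum (S := S) hD hS hX hzero hac hζ hζ1 hK
    rw [Finset.sum_eq_single K] at h
    · rcases mul_eq_zero.1 h with h2 | h2
      · exact absurd h2 (pow_ne_zero _ (sub_ne_zero.2 hζ1))
      · exact h2
    · intro K' hK' hne
      have h1 := Finset.mem_powerset.1 hK'
      rw [ih K' (lt_of_le_of_ne h1 hne) (h1.trans hK), mul_zero]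
    · intro hcon
      exact absurd (Finset.mem_powerset_self K) hcon

omit hp [Finite G] in
lemma mem_Sel2_iff (hD : Fam p R D) {D2 : Set (Subgroup G)} {g : G} (hg : g ∈ Gn D) :
    g ∈ Sel2 D D2 S X ↔ (∀ L ∈ D, At S L g) ∧ ∀ L ∈ D, (At X L g ↔ L ∈ D2) := by
  constructor
  · rintro ⟨_, h⟩
    refine ⟨fun L hL => ?_, fun L hL => ?_⟩
    · obtain ⟨s, h1, h2, h3, _⟩ := h L hL
      exact ⟨s, h1, h2, h3⟩
    · obtain ⟨s, _, h2, h3, h4⟩ := h L hL
      rw [← h4]
      exact At_comp (hD.centre L hL) h2 h3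
  · rintro ⟨h1, h2⟩
    refine ⟨hg, fun L hL => ?_⟩
    obtain ⟨s, h3, h4, h5⟩ := h1 L hL
    refine ⟨s, h3, h4, h5, ?_⟩
    rw [← h2 L hL]
    exact (At_comp (hD.centre L hL) h4 h5).symm

end

end T3b

open T3b in
theorem Fam.extract [hp : Fact p.Prime] [Finite G] {R : Subgroup G} {D : Set (Subgroup G)}
    (hD : Fam p R D) {S X : Set G}
    (hS : ∀ L ∈ D, ∀ h ∈ R, h ^ p = 1 → h ∉ normalizer (L : Set G) → ∀ s ∈ S, s ∈ L →
      h * s * h⁻¹ ∈ S)
    (hX : ∀ L ∈ D, ∀ h ∈ R, h ^ p = 1 → h ∉ normalizer (L : Set G) → ∀ s ∈ X, s ∈ L →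
      h * s * h⁻¹ ∈ X)
    (hzero : ∀ L ∈ D, ∀ E ≤ normalizer (L : Set G), E = ⊥ ∨ ElemAb p E →
      wsum p X (L ⊓ centralizer (E : Set G)) = 0)
    (hac : ∀ g ∈ R, lam p R g = 0) (D2 : Set (Subgroup G)) (hD2 : D2 ⊆ D) :
    ∑ g ∈ (Set.toFinite (Sel2 D D2 S X)).toFinset, lam p (Rz R D) g = 0 := by
  classical
  have hall := vv_all (S := S) hD hS hX hzero hac
  set A : Finset (Subgroup G) := (Set.toFinite D).toFinset with hA
  have hAD : ∀ L, L ∈ A ↔ L ∈ D := fun L => by rw [hA, Set.Finite.mem_toFinset]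
  set B : Finset (Subgroup G) := A.filter (fun L => L ∈ D2) with hB
  set C : Finset (Subgroup G) := A.filter (fun L => L ∉ D2) with hC
  have hkey : ((∑ g ∈ (Set.toFinite (Sel2 D D2 S X)).toFinset, lam p (Rz R D) g : ℤ) : ℂ) =
      ∑ T ∈ C.powerset, (-1 : ℂ) ^ T.card * vv p R D S X A (B ∪ T) := by
    have h1 : ∀ g : G, (if (∀ L ∈ A, At S L g) ∧ (∀ L ∈ B, At X L g) ∧ (∀ L ∈ C, ¬ At X L g)
        then (1 : ℂ) else 0) = ∑ T ∈ C.powerset, (-1 : ℂ) ^ T.card *
          ((if ∀ L ∈ A, At S L g then (1 : ℂ) else 0) *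
            (if ∀ L ∈ B ∪ T, At X L g then (1 : ℂ) else 0)) := by
      intro g
      have h2 := Finset.prod_one_add (f := fun L => if At X L g then (-1 : ℂ) else 0) (s := C)
      have h3 : ∏ L ∈ C, (1 + if At X L g then (-1 : ℂ) else 0) =
          if ∀ L ∈ C, ¬ At X L g then 1 else 0 := by
        have h4 : ∀ L ∈ C, (1 + if At X L g then (-1 : ℂ) else 0) =
            if ¬ At X L g then 1 else 0 := by
          intro L _
          by_cases h : At X L g
          · simp [h]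
          · simp [h]
        rw [Finset.prod_congr rfl h4, Finset.prod_ite_zero, Finset.prod_const_one]
      rw [h3] at h2
      have h5 : ∀ T ∈ C.powerset, (-1 : ℂ) ^ T.card *
          ((if ∀ L ∈ A, At S L g then (1 : ℂ) else 0) *
            (if ∀ L ∈ B ∪ T, At X L g then (1 : ℂ) else 0)) =
          ((if ∀ L ∈ A, At S L g then (1 : ℂ) else 0) *
            (if ∀ L ∈ B, At X L g then (1 : ℂ) else 0)) *
            ∏ L ∈ T, (if At X L g then (-1 : ℂ) else 0) := by
        intro T _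
        rw [Finset.prod_ite_zero, Finset.prod_const]
        have h6 : (∀ L ∈ B ∪ T, At X L g) ↔ (∀ L ∈ B, At X L g) ∧ ∀ L ∈ T, At X L g := by
          constructor
          · exact fun h => ⟨fun L hL => h L (Finset.mem_union_left _ hL),
              fun L hL => h L (Finset.mem_union_right _ hL)⟩
          · rintro ⟨ha, hb⟩ L hL
            rcases Finset.mem_union.1 hL with h | h
            · exact ha L h
            · exact hb L h
        by_cases ha : ∀ L ∈ B, At X L g <;> by_cases hb : ∀ L ∈ T, At X L g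
        · rw [if_pos (h6.2 ⟨ha, hb⟩), if_pos ha, if_pos hb]; ring
        · rw [if_neg (fun h => hb (h6.1 h).2), if_neg hb]; ring
        · rw [if_neg (fun h => ha (h6.1 h).1), if_neg ha]; ring
        · rw [if_neg (fun h => ha (h6.1 h).1), if_neg ha]; ring
      rw [Finset.sum_congr rfl h5, ← Finset.mul_sum, ← h2]
      by_cases h11 : (∀ L ∈ A, At S L g) ∧ (∀ L ∈ B, At X L g) ∧ (∀ L ∈ C, ¬ At X L g)
      · rw [if_pos h11, if_pos h11.1, if_pos h11.2.1, if_pos h11.2.2]; ring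
      · rw [if_neg h11]
        by_cases ha : ∀ L ∈ A, At S L g
        · by_cases hb : ∀ L ∈ B, At X L g
          · rw [if_neg (fun hc => h11 ⟨ha, hb, hc⟩), mul_zero]
          · rw [if_neg hb]; ring
        · rw [if_neg ha]; ring
    have h7 : ∀ T ∈ C.powerset, (-1 : ℂ) ^ T.card * vv p R D S X A (B ∪ T) =
        ∑ g ∈ (Set.toFinite (Gn D : Set G)).toFinset, (-1 : ℂ) ^ T.card *
          ((if ∀ L ∈ A, At S L g then (1 : ℂ) else 0) *
            (if ∀ L ∈ B ∪ T, At X L g then (1 : ℂ) else 0)) * (lam p (Rz R D) g : ℂ) := by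
      intro T _
      rw [vv, Finset.mul_sum]
      exact Finset.sum_congr rfl fun g _ => by ring
    rw [Finset.sum_congr rfl h7, Finset.sum_comm]
    have h8 : ∀ g ∈ (Set.toFinite (Gn D : Set G)).toFinset,
        ∑ T ∈ C.powerset, (-1 : ℂ) ^ T.card *
          ((if ∀ L ∈ A, At S L g then (1 : ℂ) else 0) *
            (if ∀ L ∈ B ∪ T, At X L g then (1 : ℂ) else 0)) * (lam p (Rz R D) g : ℂ) =
        if g ∈ Sel2 D D2 S X then (lam p (Rz R D) g : ℂ) else 0 := by
      intro g hg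
      rw [Set.Finite.mem_toFinset] at hg
      rw [← Finset.sum_mul, ← h1 g]
      have h9 : ((∀ L ∈ A, At S L g) ∧ (∀ L ∈ B, At X L g) ∧ (∀ L ∈ C, ¬ At X L g)) ↔
          g ∈ Sel2 D D2 S X := by
        rw [mem_Sel2_iff hD hg]
        constructor
        · rintro ⟨ha, hb, hc⟩
          refine ⟨fun L hL => ha L ((hAD L).2 hL), fun L hL => ⟨fun h => ?_, fun h => ?_⟩⟩
          · by_contra h'
            exact hc L (Finset.mem_filter.2 ⟨(hAD L).2 hL, h'⟩) h
          · exact hb L (Finset.mem_filter.2 ⟨(hAD L).2 hL, h⟩)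
        · rintro ⟨ha, hb⟩
          refine ⟨fun L hL => ha L ((hAD L).1 hL), fun L hL => ?_, fun L hL => ?_⟩
          · have h := Finset.mem_filter.1 hL
            exact (hb L ((hAD L).1 h.1)).2 h.2
          · have h := Finset.mem_filter.1 hL
            exact fun h' => h.2 ((hb L ((hAD L).1 h.1)).1 h')
      by_cases h10 : g ∈ Sel2 D D2 S X
      · rw [if_pos (h9.2 h10), if_pos h10, one_mul]
      · rw [if_neg (fun h => h10 (h9.1 h)), if_neg h10, zero_mul]
    rw [Finset.sum_congr rfl h8, ← Finset.sum_filter, Int.cast_sum]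
    refine Finset.sum_congr ?_ fun _ _ => rfl
    ext g
    rw [Finset.mem_filter, Set.Finite.mem_toFinset, Set.Finite.mem_toFinset]
    exact ⟨fun h => ⟨h.1, h⟩, fun h => h.2⟩
  have hz : ∑ T ∈ C.powerset, (-1 : ℂ) ^ T.card * vv p R D S X A (B ∪ T) = 0 := by
    refine Finset.sum_eq_zero fun T hT => ?_
    rw [hall (B ∪ T) ?_, mul_zero]
    refine Finset.union_subset (Finset.filter_subset _ _) ?_
    exact (Finset.mem_powerset.1 hT).trans (Finset.filter_subset _ _)
  rw [hz] at hkey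
  exact_mod_cast hkey

theorem twin_prod [hp : Fact p.Prime] [Finite G] {F : Set (Subgroup G)} (hF : Family p F)
    {D : Set (Subgroup G)} (hDF : D ⊆ F)
    (hconj : ∀ L ∈ D, ∀ g : G, L.map (MulAut.conj g).toMonoidHom ∈ D) {S X : Set G}
    (hS : ∀ L ∈ D, ∀ h ∈ Rest F D, h ^ p = 1 → h ∉ normalizer (L : Set G) → ∀ s ∈ S, s ∈ L →
      h * s * h⁻¹ ∈ S)
    (hX : ∀ L ∈ D, ∀ h ∈ Rest F D, h ^ p = 1 → h ∉ normalizer (L : Set G) → ∀ s ∈ X, s ∈ L →
      h * s * h⁻¹ ∈ X)
    (hzero : ∀ L ∈ D, ∀ E ≤ normalizer (L : Set G), E = ⊥ ∨ ElemAb p E →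
      wsum p X (L ⊓ centralizer (E : Set G)) = 0)
    {D2 : Set (Subgroup G)} (hD2 : D2 ⊆ D)
    (hno : ∑ g ∈ (Set.toFinite (Sel2 D D2 S X)).toFinset, lam p (Rz (Rest F D) D) g ≠ 0)
    (hT : ∀ L ∈ F, L ∈ D ∨ Removable 𝕜 p L) : HQ 𝕜 p G := by
  rw [HQ_iff]
  refine remove hF (T := {L | L ∈ F ∧ L ∉ D ∧ Removable 𝕜 p L}) (fun L hL => hL.1)
    (fun L hL => hL.2.2) (NA_of_rat (Set.toFinite _) ?_)
  by_contra hac
  apply hno
  refine (family_Fam hF hDF hconj).extract hS hX hzero (fun g hg => ?_) D2 hD2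
  have h0 : ((0 : ℕ) : ℤ) ∣ lam p (Rest F D) g :=
    residue_lam hF (fun L hL => hL.1) (fun L hL h => h.2.1 hL) hp.out.ne_zero.symm
      (fun L h1 h2 h3 => absurd ⟨h1, h3, (hT L h1).resolve_left h3⟩ h2) hac hg
  rw [Nat.cast_zero, zero_dvd_iff] at h0
  exact h0

end

end Vale.Agent.P240.K
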