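import Vale.Agent.P240.V.TBase

/-!
P240-T4. Elements `z ∈ Sel2 D D2 S X`: copy `sel_good`, `exists_kernel` (V/L3.lean) and `lam_same` (V/L5.lean).

`sel2_good`: word by word as `sel_good`. `lam_same2`: as `lam_same` (`lam_prod`, `lam_cj` in V/L5.lean).
`sel2_nonempty`: as `sel_nonempty` in V/L6.lean.
`exists_kernel2`: as `exists_kernel`; only the faithfulness differs: let `x ∈ Cent0 F D z`, `x ^ p = 1`, `x` centralizing
`W`. For `L ∈ D \ D2` (component `s ∉ X`): `x ∈ centralizer L`. For `L ∈ D2` (component `s ∈ S ∩ X`): `x ∈ Cn L s`, so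
`x ∈ Mid p S X L` (`mem_Mid`). So `x ∈ Zn`, by `hHit` `x ∈ Gn D`, so `x ∈ L ⊔ centralizer L` for `L ∈ D2`, and
`TwinGood.inner` gives `x ∈ centralizer L`. Hence `x ∈ Rest F ∅ = ⊥`. -/

namespace Vale.Agent.P240.K

open Finsupp Subgroup

universe u

section
variable {G : Type u} [Group G] {p : ℕ}

private lemma t4_act {L : Subgroup G} {s z e : G} (hs : s ∈ L)
    (hsz : s⁻¹ * z ∈ centralizer (L : Set G)) (he : e ∈ normalizer (L : Set G)) :
    ∃ k ∈ centralizer (L : Set G), s * e * s⁻¹ = k * (z * e * z⁻¹) := by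
  have hsN : s ∈ normalizer (L : Set G) := Subgroup.le_normalizer hs
  set c := s⁻¹ * z with hc
  have h1 : e * c⁻¹ * e⁻¹ ∈ centralizer (L : Set G) := conj_centralizer he (inv_mem hsz)
  have h2 : c * (e * c⁻¹ * e⁻¹) ∈ centralizer (L : Set G) :=
    (centralizer (L : Set G)).mul_mem hsz h1
  have h3 := conj_centralizer hsN ((centralizer (L : Set G)).inv_mem h2)
  refine ⟨_, h3, ?_⟩
  rw [hc]
  group

private lemma t4_Gn_eq (D : Set (Subgroup G)) : (⨆ L ∈ D, L) = sSup D := sSup_eq_iSup.symm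

private lemma t4_rest {F D : Set (Subgroup G)} (hF : Family p F) (hDF : D ⊆ F) :
    sSup D ≤ Rest F D := by
  refine le_Rest fun M hM hMD => sSup_le fun L hL x hx => ?_
  rw [mem_centralizer_iff]
  intro y hy
  refine hF.comm M hM L (hDF hL) ?_ y hy x hx
  rintro rfl
  exact hMD hL

private lemma t4_range {A B : Subgroup G} (h : ∀ a ∈ A, ∀ b ∈ B, a * b = b * a) :
    ∃ f : A × B →* G, f.range = A ⊔ B := by
  have hc : ∀ (a : A) (b : B), Commute (A.subtype a) (B.subtype b) := fun a b => h a a.2 b b.2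
  refine ⟨MonoidHom.noncommCoprod A.subtype B.subtype hc, ?_⟩
  rw [MonoidHom.noncommCoprod_range, Subgroup.range_subtype, Subgroup.range_subtype]

private lemma t4_two {A B : Subgroup G} [Finite G] [hp : Fact p.Prime]
    (h : ∀ a ∈ A, ∀ b ∈ B, a * b = b * a)
    (hA : Group.IsSolvable A) (hB : Group.IsSolvable B) (hA' : ¬ p ∣ Nat.card A)
    (hB' : ¬ p ∣ Nat.card B) :
    Group.IsSolvable (A ⊔ B : Subgroup G) ∧ ¬ p ∣ Nat.card (A ⊔ B : Subgroup G) := by
  obtain ⟨f, hf⟩ := t4_range h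
  rw [← hf]
  constructor
  · exact Group.isSolvable_of_surjective f.rangeRestrict_surjective
  · intro hd
    have h1 := hd.trans (Subgroup.card_range_dvd f)
    rw [Nat.card_prod] at h1
    exact (hp.out.dvd_mul.1 h1).elim hA' hB'

private lemma t4_fin [hp : Fact p.Prime] [Finite G] {F D : Set (Subgroup G)}
    (hF : Family p F) (hDF : D ⊆ F) (W : Subgroup G → Subgroup G) (hW : ∀ L ∈ D, W L ≤ L)
    (hW1 : ∀ L ∈ D, Group.IsSolvable (W L)) (hW2 : ∀ L ∈ D, ¬ p ∣ Nat.card (W L)) :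
    Group.IsSolvable (⨆ L ∈ D, W L : Subgroup G) ∧ ¬ p ∣ Nat.card (⨆ L ∈ D, W L : Subgroup G) ∧
      ∀ l : Subgroup G → G, (∀ L ∈ D, l L ∈ W L) → ∃ d ∈ (⨆ L ∈ D, W L : Subgroup G),
        ∀ L ∈ D, ∃ c ∈ centralizer (L : Set G), d = l L * c := by
  have key : ∀ T : Set (Subgroup G), T.Finite → T ⊆ D →
      Group.IsSolvable (⨆ L ∈ T, W L : Subgroup G) ∧
      ¬ p ∣ Nat.card (⨆ L ∈ T, W L : Subgroup G) ∧
      ∀ l : Subgroup G → G, (∀ L ∈ D, l L ∈ W L) → ∃ d ∈ (⨆ L ∈ T, W L : Subgroup G),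
        ∀ L ∈ T, ∃ c ∈ centralizer (L : Set G), d = l L * c := by
    intro T hfin
    induction T, hfin using Set.Finite.induction_on with
    | empty =>
      intro _
      have h0 : (⨆ L ∈ (∅ : Set (Subgroup G)), W L : Subgroup G) = ⊥ := by simp
      rw [h0]
      refine ⟨inferInstance, ?_, fun l _ => ⟨1, one_mem _, by simp⟩⟩
      rw [Subgroup.card_bot]
      exact hp.out.not_dvd_one
    | @insert M T hMT _ ih =>
      intro hsub
      obtain ⟨i1, i2, i3⟩ := ih fun L hL => hsub (Set.mem_insert_of_mem _ hL)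
      have hMD : M ∈ D := hsub (Set.mem_insert _ _)
      have hTD : ∀ L ∈ T, L ∈ D := fun L hL => hsub (Set.mem_insert_of_mem _ hL)
      have hTM : (⨆ L ∈ T, W L : Subgroup G) ≤ centralizer (M : Set G) := by
        refine iSup₂_le fun L hL x hx => ?_
        rw [mem_centralizer_iff]
        intro y hy
        refine hF.comm M (hDF hMD) L (hDF (hTD L hL)) ?_ y hy x (hW L (hTD L hL) hx)
        rintro rfl
        exact hMT hL
      have hsup : (⨆ L ∈ insert M T, W L : Subgroup G) = W M ⊔ ⨆ L ∈ T, W L := iSup_insert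
      have htwo := t4_two (A := W M) (B := ⨆ L ∈ T, W L)
        (fun a ha b hb => (mem_centralizer_iff.1 (hTM hb)) a (hW M hMD ha))
        (hW1 M hMD) i1 (hW2 M hMD) i2
      rw [hsup]
      refine ⟨htwo.1, htwo.2, fun l hl => ?_⟩
      obtain ⟨d, hd, h1⟩ := i3 l hl
      refine ⟨l M * d, mul_mem (mem_sup_left (hl M hMD)) (mem_sup_right hd), ?_⟩
      intro L hL
      rcases Set.mem_insert_iff.1 hL with h | hL2
      · subst h
        exact ⟨d, hTM hd, rfl⟩
      · obtain ⟨c, hc, hdc⟩ := h1 L hL2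
        have hLD : L ∈ D := hTD L hL2
        have hne : L ≠ M := by
          rintro rfl
          exact hMT hL2
        have hlM : l M ∈ centralizer (L : Set G) := by
          rw [mem_centralizer_iff]
          intro y hy
          exact hF.comm L (hDF hLD) M (hDF hMD) hne y hy _ (hW M hMD (hl M hMD))
        refine ⟨l M * c, mul_mem hlM hc, ?_⟩
        have h3 : l L * l M = l M * l L := (mem_centralizer_iff.1 hlM) _ (hW L hLD (hl L hLD))
        rw [hdc, ← mul_assoc, ← h3, mul_assoc]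
  exact key D (Set.toFinite _) (Set.Subset.refl _)

theorem sel2_good [hp : Fact p.Prime] [Finite G] {F D D2 : Set (Subgroup G)} {S X : Set G}
    (hF : Family p F) (hDF : D ⊆ F)
    (hconj : ∀ L ∈ D, ∀ g : G, L.map (MulAut.conj g).toMonoidHom ∈ D)
    (hT : ∀ L ∈ D, TwinGood p S X L) {z : G} (hz : z ∈ Sel2 D D2 S X) : GoodElement p F D z := by
  obtain ⟨hz1, hz2⟩ := hz
  rw [Gn, t4_Gn_eq] at hz1
  choose! s hsS hsL hsz _hsX using hz2
  refine
    { sub := hDF
      conj := hconj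
      rest := t4_rest hF hDF hz1
      order := ?_
      comm := ?_
      norm := fun L hL => sSup_le_norm hF hDF (hDF hL) hz1
      fix := ?_ }
  · have hd1 : ∃ m, ¬ p ∣ m ∧ z ^ m = 1 := by
      classical
      refine ⟨∏ L ∈ (Set.toFinite D).toFinset, orderOf (s L), ?_, ?_⟩
      · intro h
        obtain ⟨L, hL, h1⟩ := (hp.out.prime.dvd_finsetProd_iff _).1 h
        rw [Set.Finite.mem_toFinset] at hL
        exact (hT L hL).order (s L) (hsS L hL) (hsL L hL) h1
      · refine hF.center_trivial hDF (pow_mem hz1 _) fun L hL => ?_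
        have hc' := hsz L hL
        have h1 : Commute (s L) ((s L)⁻¹ * z) := (mem_centralizer_iff.1 hc') _ (hsL L hL)
        have h0 : z = s L * ((s L)⁻¹ * z) := by group
        rw [h0, h1.mul_pow]
        have h2 : (s L) ^ (∏ M ∈ (Set.toFinite D).toFinset, orderOf (s M)) = 1 := by
          rw [← orderOf_dvd_iff_pow_eq_one]
          exact Finset.dvd_prod_of_mem (fun M => orderOf (s M))
            ((Set.Finite.mem_toFinset _).2 hL)
        rw [h2, one_mul]
        exact pow_mem hc' _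
    obtain ⟨m, hm1, hm2⟩ := hd1
    exact fun h => hm1 (h.trans (orderOf_dvd_of_pow_eq_one hm2))
  · intro g hg _
    have h1 : sSup D ≤ centralizer ({g} : Set G) := by
      refine sSup_le fun L hL x hx => ?_
      rw [mem_centralizer_iff]
      intro y hy
      rw [Set.mem_singleton_iff.1 hy]
      exact ((mem_centralizer_iff.1 (mem_Rest.1 hg L (hDF hL) (Set.notMem_empty L))) x hx).symm
    exact ((mem_centralizer_iff.1 (h1 hz1)) g rfl).symm
  · intro L hL E hE hEA h1 h2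
    refine (hT L hL).fix (s L) (hsS L hL) (hsL L hL) E (hE.trans inf_le_right) hEA ?_ ?_
    · intro e he
      obtain ⟨k, hk, hk2⟩ := t4_act (hsL L hL) (hsz L hL) (Subgroup.mem_inf.1 (hE he)).2
      rw [hk2]
      exact mul_mem (mem_sup_right hk) (h1 e he)
    · intro e he h3
      obtain ⟨k, hk, hk2⟩ := t4_act (hsL L hL) (hsz L hL) (Subgroup.mem_inf.1 (hE he)).2
      refine h2 e he ?_
      have h4 : z * e * z⁻¹ * e⁻¹ = k⁻¹ * (s L * e * (s L)⁻¹ * e⁻¹) := by
        rw [hk2]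
        group
      rw [h4]
      exact (centralizer (L : Set G)).mul_mem ((centralizer (L : Set G)).inv_mem hk) h3

theorem exists_kernel2 [hp : Fact p.Prime] [Finite G] {F D D2 : Set (Subgroup G)} {S X : Set G}
    (hF : Family p F) (hDF : D ⊆ F)
    (hconj : ∀ L ∈ D, ∀ g : G, L.map (MulAut.conj g).toMonoidHom ∈ D)
    (hC : Rest F (∅ : Set (Subgroup G)) = ⊥) (hHit : Hit p F D D2 S X)
    (hT : ∀ L ∈ D, TwinGood p S X L) {z : G} (hz : z ∈ Sel2 D D2 S X) :
    ∃ W : Subgroup G, W ≤ Gn D ∧ W ≤ Cent0 F D z ∧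
      (∀ x ∈ Cent0 F D z, ∀ w ∈ W, x * w * x⁻¹ ∈ W) ∧
      Group.IsSolvable W ∧ ¬ p ∣ Nat.card W ∧
      (∀ x ∈ Cent0 F D z, x ^ p = 1 → (∀ w ∈ W, x * w = w * x) → x = 1) ∧
      ∀ x ∈ Cent0 F D z, ∀ y ∈ Cent0 F D z, x ^ p = 1 → y ^ p = 1 →
        x * y * x⁻¹ * y⁻¹ ∈ W := by
  have hgood := sel2_good hF hDF hconj hT hz
  obtain ⟨hz1, hz2⟩ := hz
  choose! s hsS hsL hsz hsX using hz2
  have hker : ∀ L ∈ D, ∃ W : Subgroup G, W ≤ L ⊓ Cn L (s L) ∧ Group.IsSolvable W ∧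
      ¬ p ∣ Nat.card W ∧ (∀ x ∈ Cn L (s L), ∀ w ∈ W, x * w * x⁻¹ ∈ W) ∧
      ∀ x ∈ Cn L (s L), x ^ p = 1 →
        ((∀ w ∈ W, x * w = w * x) → s L ∈ X ∨ x ∈ centralizer (L : Set G)) ∧
        ∀ y ∈ Cn L (s L), y ^ p = 1 → x * y * x⁻¹ * y⁻¹ ∈ W ⊔ centralizer (L : Set G) :=
    fun L hL => (hT L hL).kernel (s L) (hsS L hL) (hsL L hL)
  choose! W hW1 hW2 hW3 hW4 hW5 using hker
  have hWL : ∀ L ∈ D, W L ≤ L := fun L hL => (hW1 L hL).trans inf_le_left
  have hWC : ∀ L ∈ D, W L ≤ Cn L (s L) := fun L hL => (hW1 L hL).trans inf_le_right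
  obtain ⟨f1, f2, f3⟩ := t4_fin hF hDF W hWL hW2 hW3
  -- elements of `Cent0`
  have hC0 : ∀ x ∈ Cent0 F D z, x ∈ Rest F D ∧ ∀ L ∈ D, x ∈ Cn L (s L) := by
    intro x hx
    obtain ⟨hx1, hx2⟩ := Subgroup.mem_inf.1 hx
    obtain ⟨hx3, hx4⟩ := Subgroup.mem_inf.1 hx1
    refine ⟨hx3, fun L hL => ?_⟩
    simp only [mem_iInf] at hx2
    exact sel_comm (hF.centre L (hDF hL)) (hsL L hL) (hsz L hL) (hx2 L hL)
      ((mem_centralizer_iff.1 hx4) z rfl).symm
  have hWG : (⨆ L ∈ D, W L : Subgroup G) ≤ Gn D := iSup₂_mono hWL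
  have hWR : (⨆ L ∈ D, W L : Subgroup G) ≤ Rest F D :=
    hWG.trans ((t4_Gn_eq D).le.trans (t4_rest hF hDF))
  have hall : ∀ x ∈ Rest F D, (∀ L ∈ D, x ∈ centralizer (L : Set G)) → x = 1 := by
    intro x hx h
    have h1 : x ∈ Rest F (∅ : Set (Subgroup G)) := by
      refine mem_Rest.2 fun M hM _ => ?_
      by_cases hMD : M ∈ D
      · exact h M hMD
      · exact mem_Rest.1 hx M hM hMD
    rw [hC, mem_bot] at h1
    exact h1
  refine ⟨⨆ L ∈ D, W L, hWG, ?_, ?_, f1, f2, ?_, ?_⟩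
  · refine iSup₂_le fun L hL w hw => ?_
    have hwL : w ∈ L := hWL L hL hw
    have hwG : w ∈ sSup D := (le_sSup hL : L ≤ sSup D) hwL
    refine Subgroup.mem_inf.2 ⟨Subgroup.mem_inf.2 ⟨t4_rest hF hDF hwG, ?_⟩, ?_⟩
    · rw [mem_centralizer_iff]
      intro y hy
      rw [Set.mem_singleton_iff.1 hy]
      have h1 : s L * w = w * s L :=
        (mem_centralizer_iff.1 (Subgroup.mem_inf.1 (hWC L hL hw)).2) _ rfl
      have h2 : w * ((s L)⁻¹ * z) = ((s L)⁻¹ * z) * w := (mem_centralizer_iff.1 (hsz L hL)) w hwL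
      calc z * w = s L * (((s L)⁻¹ * z) * w) := by group
        _ = s L * (w * ((s L)⁻¹ * z)) := by rw [h2]
        _ = (s L * w) * ((s L)⁻¹ * z) := by group
        _ = (w * s L) * ((s L)⁻¹ * z) := by rw [h1]
        _ = w * z := by group
    · simp only [mem_iInf]
      exact fun M hM => sSup_le_norm hF hDF (hDF hM) hwG
  · intro x hx w hw
    have h1 : (⨆ L ∈ D, W L : Subgroup G) ≤
        (⨆ L ∈ D, W L : Subgroup G).comap (MulAut.conj x).toMonoidHom := by
      refine iSup₂_le fun L hL w hw => ?_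
      have h2 : W L ≤ ⨆ L ∈ D, W L := le_iSup₂_of_le L hL le_rfl
      exact h2 (hW4 L hL x ((hC0 x hx).2 L hL) w hw)
    exact h1 hw
  · intro x hx hxp hxw
    have hxC : ∀ L ∈ D, x ∈ Cn L (s L) := (hC0 x hx).2
    have hor : ∀ L ∈ D, s L ∈ X ∨ x ∈ centralizer (L : Set G) := fun L hL =>
      (hW5 L hL x (hxC L hL) hxp).1 fun w hw => hxw w
        ((le_iSup₂_of_le L hL le_rfl : W L ≤ ⨆ L ∈ D, W L) hw)
    have hZn : x ∈ Zn p F D S X := by
      refine mem_Zn.2 ⟨?_, fun L hL => ?_⟩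
      · obtain ⟨hx1, hx2⟩ := Subgroup.mem_inf.1 hx
        exact Subgroup.mem_inf.2 ⟨(Subgroup.mem_inf.1 hx1).1, hx2⟩
      · rcases hor L hL with h | h
        · refine mem_Mid (hsS L hL) h (hsL L hL) (hxC L hL) ?_
          rw [hxp]
          exact one_mem _
        · exact le_Mid (mem_sup_right h)
    have hGn : x ∈ Gn D := by
      refine hHit x hZn fun L hL hL2 => mem_sup_right ?_
      exact (hor L hL).resolve_left fun h => hL2 ((hsX L hL).1 h)
    refine hall x (hC0 x hx).1 fun L hL => ?_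
    rcases hor L hL with h | h
    · refine ((hT L hL).inner (s L) (hsS L hL) (hsL L hL) x (hxC L hL) hxp).1 h ?_
      have h1 : Gn D ≤ L ⊔ centralizer (L : Set G) := by
        refine iSup₂_le fun M hM => ?_
        by_cases hML : M = L
        · rw [hML]
          exact le_sup_left
        · intro y hy
          refine mem_sup_right ?_
          rw [mem_centralizer_iff]
          intro v hv
          exact hF.comm L (hDF hL) M (hDF hM) (fun h => hML h.symm) v hv y hy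
      exact h1 hGn
    · exact h
  · intro x hx y hy hxp hyp
    have h1 : ∀ L ∈ D, ∃ w ∈ W L, ∃ c ∈ centralizer (L : Set G),
        x * y * x⁻¹ * y⁻¹ = w * c := by
      intro L hL
      refine mem_sup_comm (fun a ha b hb => ?_)
        ((hW5 L hL x ((hC0 x hx).2 L hL) hxp).2 y ((hC0 y hy).2 L hL) hyp)
      exact (mem_centralizer_iff.1 hb) a (hWL L hL ha)
    choose! l hl c hc hlc using h1
    obtain ⟨d, hd, hdc⟩ := f3 l hl
    have h2 : d⁻¹ * (x * y * x⁻¹ * y⁻¹) = 1 := by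
      refine hall _ ?_ fun L hL => ?_
      · exact mul_mem (inv_mem (hWR hd)) (mul_mem (mul_mem (mul_mem (hC0 x hx).1 (hC0 y hy).1)
          (inv_mem (hC0 x hx).1)) (inv_mem (hC0 y hy).1))
      · obtain ⟨c', hc', hd'⟩ := hdc L hL
        rw [hlc L hL, hd']
        have h3 : (l L * c')⁻¹ * (l L * c L) = c'⁻¹ * c L := by group
        rw [h3]
        exact (centralizer (L : Set G)).mul_mem ((centralizer (L : Set G)).inv_mem hc') (hc L hL)
    rw [← inv_mul_eq_one.1 h2]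
    exact hd

theorem lam_same2 [hp : Fact p.Prime] [Finite G] {F D D2 : Set (Subgroup G)} {S X : Set G}
    (hF : Family p F) (hDF : D ⊆ F)
    (hconj : ∀ L ∈ D, ∀ g : G, L.map (MulAut.conj g).toMonoidHom ∈ D)
    (hT : ∀ L ∈ D, TwinGood p S X L) {z y : G} (hz : z ∈ Sel2 D D2 S X)
    (hy : y ∈ Sel2 D D2 S X) :
    lam p (Gn D) z = lam p (Gn D) y := by
  have hD : Fam p (⊤ : Subgroup G) D :=
    { le := fun _ _ => le_top
      conj := fun L hL g _ => hconj L hL g
      comm := fun L hL M hM hne => hF.comm L (hDF hL) M (hDF hM) hne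
      centre := fun L hL => hF.centre L (hDF hL)
      dvd := fun L hL => hF.dvd L (hDF hL) }
  have key : ∀ L : Subgroup G, ∀ s x : G, s⁻¹ * x ∈ centralizer (L : Set G) →
      lam p L x = lam p L s := by
    intro L s x hx
    have h1 : lam p L (s * (s⁻¹ * x)) = lam p L s :=
      lam_mul_right fun y hy => (mem_centralizer_iff.1 hx y hy).symm
    rwa [mul_inv_cancel_left] at h1
  rw [lam_prod hD hz.1, lam_prod hD hy.1]
  refine Finset.prod_congr rfl fun L hL => ?_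
  rw [Set.Finite.mem_toFinset] at hL
  obtain ⟨s, hs, hsL, hsz, hsX⟩ := hz.2 L hL
  obtain ⟨t, ht, htL, hty, htX⟩ := hy.2 L hL
  obtain ⟨g, hg, hgst⟩ := (hT L hL).same s hs hsL t ht htL (hsX.trans htX.symm)
  rw [key L s z hsz, key L t y hty, ← hgst, lam_cj hg]

theorem sel2_nonempty [hp : Fact p.Prime] [Finite G] {F D D2 : Set (Subgroup G)} {S X : Set G}
    (hF : Family p F) (hDF : D ⊆ F) (hT : ∀ L ∈ D, TwinGood p S X L)
    (hD2 : ∀ L ∈ D2, ∃ s ∈ S ∩ X, s ∈ L) : (Sel2 D D2 S X).Nonempty := by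
  have h : ∀ L ∈ D, ∃ l ∈ S, l ∈ L ∧ (l ∈ X ↔ L ∈ D2) := by
    intro L hL
    by_cases h2 : L ∈ D2
    · obtain ⟨s, ⟨hs, hsX⟩, hsL⟩ := hD2 L h2
      exact ⟨s, hs, hsL, iff_of_true hsX h2⟩
    · obtain ⟨s, ⟨hs, hsX⟩, hsL⟩ := (hT L hL).ne
      exact ⟨s, hs, hsL, iff_of_false hsX h2⟩
  choose! l hlS hlL hlX using h
  obtain ⟨d, hd, hdc⟩ := exists_prod hF hDF l hlL
  refine ⟨d, ?_, fun L hL => ⟨l L, hlS L hL, hlL L hL, ?_, hlX L hL⟩⟩
  · rw [sSup_eq_iSup] at hd
    exact hd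
  · obtain ⟨c, hc, hdc⟩ := hdc L hL
    rw [hdc, inv_mul_cancel_left]
    exact hc

end

end Vale.Agent.P240.K
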