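import Vale.Agent.P240.V.TBase

/-!
P240-T5. The choice of `D2`.

`exists_D2`: take `D2` maximal (finite set) among the subsets of `{L ∈ D | ∃ s ∈ S ∩ X, s ∈ L}` with `Hit p F D D2 S X`.
`D2 = ∅` has `Hit`: if `x ∈ Rz (Rest F D) D` and `x ∈ L ⊔ centralizer L` for all `L ∈ D`, write `x = l L * c L`
(`l L ∈ L`, `c L ∈ centralizer L`), let `d ∈ sSup D = Gn D` have components `l L` (`exists_prod`); `d⁻¹ * x` centralizes all
members of `F`, so it lies in `Rest F ∅ = ⊥`, `x = d ∈ Gn D`.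
`Full`: call `T`-statement: for `T ⊆ D \ D2` and `m` as in `Full` there is `x ∈ Zn` with `(m L)⁻¹ * x ∈ L ⊔ C(L)` for
`L ∈ T` and `x ∈ L ⊔ C(L)` for `L ∈ D \ D2 \ T`. One `L`: if there is no `s ∈ S ∩ X`, `s ∈ L`, then
`Mid p S X L = L ⊔ C(L)` (closure of the empty set) and `x = 1`. Otherwise by maximality there is `y ∈ Zn` with
`y ∈ M ⊔ C(M)` for all `M ∈ D \ D2`, `M ≠ L`, and `y ∉ Gn D`; by `Hit` for `D2`, `y ∉ L ⊔ C(L)`. As
`(L ⊔ C(L)).relIndex (Mid p S X L) ∣ p` (`TwinGood.index`) and `L ⊔ C(L)` is normalized by `Mid` (all elements of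
`Mid p S X L` normalize `L`), the quotient has order `p` and is generated by `y`: `m L ∈ y ^ i * (L ⊔ C(L))`. Induction on
`T` (`Set.Finite.induction_on`), products (`L ⊔ C(L)` is normalized by the elements of `Rz (Rest F D) D`). -/

namespace Vale.Agent.P240.K

open Finsupp Subgroup

universe u

section
variable {G : Type u} [Group G] {p : ℕ}

private lemma t5_comm {L : Subgroup G} :
    ∀ a ∈ L, ∀ b ∈ centralizer (L : Set G), a * b = b * a :=
  fun a ha _ hb => (mem_centralizer_iff.1 hb) a ha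

private lemma t5_cen_le {L : Subgroup G} : centralizer (L : Set G) ≤ normalizer (L : Set G) := by
  intro c hc
  exact mem_of_comm fun y hy => ((mem_centralizer_iff.1 hc) y hy).symm

private lemma t5_H_le {L : Subgroup G} :
    L ⊔ centralizer (L : Set G) ≤ normalizer (L : Set G) :=
  sup_le Subgroup.le_normalizer t5_cen_le

/-- elements of the normalizer of `L` normalize `L ⊔ C(L)` -/
private lemma t5_conj {L : Subgroup G} {g h : G} (hg : g ∈ normalizer (L : Set G))
    (hh : h ∈ L ⊔ centralizer (L : Set G)) : g * h * g⁻¹ ∈ L ⊔ centralizer (L : Set G) := by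
  obtain ⟨l, hl, c, hc, rfl⟩ := mem_sup_comm t5_comm hh
  have h1 : g * l * g⁻¹ ∈ L := (mem_normalizer_iff.1 hg l).1 hl
  have h2 : g * c * g⁻¹ ∈ centralizer (L : Set G) := by
    rw [mem_centralizer_iff]
    intro y hy
    have h3 : g⁻¹ * y * g ∈ L := by
      have := (mem_normalizer_iff.1 (inv_mem hg) y).1 hy
      rwa [inv_inv] at this
    have h4 := (mem_centralizer_iff.1 hc) _ h3
    calc y * (g * c * g⁻¹) = g * ((g⁻¹ * y * g) * c) * g⁻¹ := by group
      _ = g * (c * (g⁻¹ * y * g)) * g⁻¹ := by rw [h4]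
      _ = g * c * g⁻¹ * y := by group
  have h3 : g * (l * c) * g⁻¹ = (g * l * g⁻¹) * (g * c * g⁻¹) := by group
  rw [h3]
  exact mul_mem ((le_sup_left : L ≤ L ⊔ centralizer (L : Set G)) h1)
    ((le_sup_right : centralizer (L : Set G) ≤ L ⊔ centralizer (L : Set G)) h2)

private lemma t5_conj' {L : Subgroup G} {g h : G} (hg : g ∈ normalizer (L : Set G))
    (hh : h ∈ L ⊔ centralizer (L : Set G)) : g⁻¹ * h * g ∈ L ⊔ centralizer (L : Set G) := by
  have := t5_conj (inv_mem hg) hh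
  rwa [inv_inv] at this

private lemma t5_Mid_le {S X : Set G} {L : Subgroup G} :
    Mid p S X L ≤ normalizer (L : Set G) := by
  refine sup_le t5_H_le ?_
  rw [Subgroup.closure_le]
  rintro x ⟨a, -, -, hx, -⟩
  exact hx.1

/-- the empty set detects -/
private lemma t5_hit_empty [Finite G] {F D : Set (Subgroup G)} {S X : Set G}
    (hF : Family p F) (hDF : D ⊆ F) (hC : Rest F (∅ : Set (Subgroup G)) = ⊥) :
    Hit p F D ∅ S X := by
  intro x hx hH
  have hxR := (mem_Zn.1 hx).1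
  have h1 : ∀ L : Subgroup G, ∃ l : G, L ∈ D → l ∈ L ∧ ∃ c ∈ centralizer (L : Set G),
      x = l * c := by
    intro L
    by_cases hL : L ∈ D
    · obtain ⟨l, hl, c, hc, h⟩ := mem_sup_comm t5_comm (hH L hL (Set.notMem_empty L))
      exact ⟨l, fun _ => ⟨hl, c, hc, h⟩⟩
    · exact ⟨1, fun h => absurd h hL⟩
  choose l hl using h1
  obtain ⟨d, hd, hdc⟩ := exists_prod hF hDF l fun L hL => (hl L hL).1
  have h2 : d⁻¹ * x ∈ Rest F (∅ : Set (Subgroup G)) := by
    refine mem_Rest.2 fun M hM _ => ?_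
    by_cases hMD : M ∈ D
    · obtain ⟨c, hc, h⟩ := hdc M hMD
      obtain ⟨c', hc', h'⟩ := (hl M hMD).2
      have : d⁻¹ * x = c⁻¹ * c' := by
        rw [h]
        nth_rewrite 1 [h']
        group
      rw [this]
      exact mul_mem (inv_mem hc) hc'
    · have h3 : d ∈ centralizer (M : Set G) := by
        have h4 : sSup D ≤ centralizer (M : Set G) := by
          refine sSup_le fun L hL z hz => ?_
          rw [mem_centralizer_iff]
          intro y hy
          refine hF.comm M hM L (hDF hL) ?_ y hy z hz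
          rintro rfl
          exact hMD hL
        exact h4 hd
      exact mul_mem (inv_mem h3) (mem_Rest.1 (mem_Rz.1 hxR).1 M hM hMD)
  rw [hC, Subgroup.mem_bot] at h2
  have h5 : x = d := by
    have := congrArg (fun t => d * t) h2
    simpa using this
  rw [h5]
  have h6 : sSup D = Gn D := sSup_eq_iSup
  rw [← h6]
  exact hd

/-- one component -/
private lemma t5_one [hp : Fact p.Prime] [Finite G] {S X : Set G} {L : Subgroup G}
    (hT : (L ⊔ centralizer (L : Set G)).relIndex (Mid p S X L) ∣ p) {y m : G}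
    (hy : y ∈ Mid p S X L) (hyH : y ∉ L ⊔ centralizer (L : Set G)) (hm : m ∈ Mid p S X L) :
    ∃ i : ℤ, m⁻¹ * y ^ i ∈ L ⊔ centralizer (L : Set G) := by
  set H : Subgroup G := L ⊔ centralizer (L : Set G) with hH
  have hHK : H ≤ zpowers y ⊔ H := le_sup_right
  have hKM : zpowers y ⊔ H ≤ Mid p S X L := sup_le (by rwa [zpowers_le]) le_Mid
  have h1 := relIndex_mul_relIndex H (zpowers y ⊔ H) (Mid p S X L) hHK hKM
  have h2 : H.relIndex (zpowers y ⊔ H) ≠ 1 := by
    intro h
    rw [relIndex_eq_one] at h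
    exact hyH (h ((le_sup_left : zpowers y ≤ zpowers y ⊔ H) (mem_zpowers y)))
  have h3 : H.relIndex (zpowers y ⊔ H) = p := by
    have h4 : H.relIndex (zpowers y ⊔ H) ∣ p := (Dvd.intro _ h1).trans hT
    exact ((Nat.dvd_prime hp.out).1 h4).resolve_left h2
  have h5 : (zpowers y ⊔ H).relIndex (Mid p S X L) = 1 := by
    have h6 : p * (zpowers y ⊔ H).relIndex (Mid p S X L) ∣ p * 1 := by
      rw [mul_one]
      rw [h3] at h1
      rw [h1]
      exact hT
    exact Nat.dvd_one.1 (Nat.dvd_of_mul_dvd_mul_left hp.out.pos h6)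
  rw [relIndex_eq_one] at h5
  have h7 : m ∈ zpowers y ⊔ H := h5 hm
  have hyN : y ∈ normalizer (L : Set G) := t5_Mid_le hy
  have hN : zpowers y ≤ normalizer (H : Set G) := by
    rw [zpowers_le, mem_normalizer_iff]
    intro h
    constructor
    · intro hh
      exact t5_conj hyN hh
    · intro hh
      have := t5_conj' hyN hh
      have h8 : y⁻¹ * (y * h * y⁻¹) * y = h := by group
      rwa [h8] at this
  have h8 : m ∈ ((zpowers y ⊔ H : Subgroup G) : Set G) := h7
  rw [coe_mul_of_left_le_normalizer_right _ _ hN] at h8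
  obtain ⟨_, ⟨i, rfl⟩, h, hh, rfl⟩ := Set.mem_mul.1 h8
  refine ⟨i, ?_⟩
  have h9 : (y ^ i * h)⁻¹ * y ^ i = h⁻¹ := by group
  have h10 : ((fun x : ℤ => y ^ x) i * h)⁻¹ * y ^ i = h⁻¹ := h9
  rw [h10]
  exact inv_mem hh

theorem exists_D2 [hp : Fact p.Prime] [Finite G] {F D : Set (Subgroup G)} {S X : Set G}
    (hF : Family p F) (hDF : D ⊆ F)
    (hconj : ∀ L ∈ D, ∀ g : G, L.map (MulAut.conj g).toMonoidHom ∈ D)
    (hC : Rest F (∅ : Set (Subgroup G)) = ⊥)
    (hT : ∀ L ∈ D, TwinGood p S X L) :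
    ∃ D2 ⊆ D, (∀ L ∈ D2, ∃ s ∈ S ∩ X, s ∈ L) ∧ Hit p F D D2 S X ∧ Full p F D D2 S X := by
  classical
  obtain ⟨D2, hD2⟩ := (Set.toFinite {E : Set (Subgroup G) |
    E ⊆ D ∧ (∀ L ∈ E, ∃ s ∈ S ∩ X, s ∈ L) ∧ Hit p F D E S X}).exists_maximal
    ⟨∅, Set.empty_subset _, fun L hL => absurd hL (Set.notMem_empty L),
      t5_hit_empty hF hDF hC⟩
  obtain ⟨⟨hD2D, hD2s, hD2h⟩, hmax⟩ := hD2
  refine ⟨D2, hD2D, hD2s, hD2h, ?_⟩
  -- one component
  have hone : ∀ L ∈ D, L ∉ D2 → ∀ m ∈ Mid p S X L, ∃ x ∈ Zn p F D S X,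
      m⁻¹ * x ∈ L ⊔ centralizer (L : Set G) ∧
      ∀ M ∈ D, M ∉ D2 → M ≠ L → x ∈ M ⊔ centralizer (M : Set G) := by
    intro L hL hL2 m hm
    by_cases hs : ∃ s ∈ S ∩ X, s ∈ L
    · have hnh : ¬ Hit p F D (insert L D2) S X := by
        intro hh
        have h1 : insert L D2 ⊆ D2 := hmax ⟨Set.insert_subset hL hD2D, by
          intro M hM
          rcases Set.mem_insert_iff.1 hM with rfl | hM
          · exact hs
          · exact hD2s M hM, hh⟩ (Set.subset_insert L D2)
        exact hL2 (h1 (Set.mem_insert L D2))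
      unfold Hit at hnh
      push Not at hnh
      obtain ⟨y, hy, hyM, hyG⟩ := hnh
      have hyM' : ∀ M ∈ D, M ∉ D2 → M ≠ L → y ∈ M ⊔ centralizer (M : Set G) := by
        intro M hM hM2 hML
        refine hyM M hM ?_
        rw [Set.mem_insert_iff, not_or]
        exact ⟨hML, hM2⟩
      have hyL : y ∉ L ⊔ centralizer (L : Set G) := by
        intro h
        apply hyG
        refine hD2h y hy fun M hM hM2 => ?_
        by_cases hML : M = L
        · rw [hML]; exact h
        · exact hyM' M hM hM2 hML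
      obtain ⟨i, hi⟩ := t5_one (hT L hL).index ((mem_Zn.1 hy).2 L hL) hyL hm
      exact ⟨y ^ i, zpow_mem hy i, hi, fun M hM hM2 hML => zpow_mem (hyM' M hM hM2 hML) i⟩
    · have h1 : Mid p S X L = L ⊔ centralizer (L : Set G) := by
        unfold Mid
        have h2 : {x | ∃ a ∈ S ∩ X, a ∈ L ∧ x ∈ Cn L a ∧ x ^ p ∈ centralizer (L : Set G)} =
            (∅ : Set G) := by
          rw [Set.eq_empty_iff_forall_notMem]
          rintro x ⟨a, ha, haL, -⟩
          exact hs ⟨a, ha, haL⟩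
        rw [h2, Subgroup.closure_empty, sup_bot_eq]
      rw [h1] at hm
      refine ⟨1, one_mem _, ?_, fun M _ _ _ => one_mem _⟩
      rw [mul_one]
      exact inv_mem hm
  intro m hm
  have key : ∀ T : Set (Subgroup G), T.Finite → T ⊆ D \ D2 → ∃ x ∈ Zn p F D S X,
      (∀ L ∈ T, (m L)⁻¹ * x ∈ L ⊔ centralizer (L : Set G)) ∧
      ∀ L ∈ D, L ∉ D2 → L ∉ T → x ∈ L ⊔ centralizer (L : Set G) := by
    intro T hfin
    induction T, hfin using Set.Finite.induction_on with
    | empty =>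
      intro _
      exact ⟨1, one_mem _, fun L hL => absurd hL (Set.notMem_empty L), fun L _ _ _ => one_mem _⟩
    | @insert M T hMT _ ih =>
      intro hsub
      obtain ⟨x, hx, hx1, hx2⟩ := ih fun L hL => hsub (Set.mem_insert_of_mem _ hL)
      have hM : M ∈ D \ D2 := hsub (Set.mem_insert M T)
      obtain ⟨y, hy, hy1, hy2⟩ := hone M hM.1 hM.2 (m M) (hm M hM.1)
      refine ⟨x * y, mul_mem hx hy, ?_, ?_⟩
      · intro L hL
        rcases Set.mem_insert_iff.1 hL with h | hLT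
        · subst h
          have h1 : (m L)⁻¹ * x * m L ∈ L ⊔ centralizer (L : Set G) :=
            t5_conj' (t5_Mid_le (hm L hM.1)) (hx2 L hM.1 hM.2 hMT)
          have h2 : (m L)⁻¹ * (x * y) = ((m L)⁻¹ * x * m L) * ((m L)⁻¹ * y) := by group
          rw [h2]
          exact mul_mem h1 hy1
        · have hLD := hsub (Set.mem_insert_of_mem _ hLT)
          have hne : L ≠ M := by
            rintro rfl
            exact hMT hLT
          rw [← mul_assoc]
          exact mul_mem (hx1 L hLT) (hy2 L hLD.1 hLD.2 hne)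
      · intro L hL hL2 hLT
        rw [Set.mem_insert_iff, not_or] at hLT
        exact mul_mem (hx2 L hL hL2 hLT.2) (hy2 L hL hL2 hLT.1)
  obtain ⟨x, hx, hx1, -⟩ := key (D \ D2) (Set.toFinite _) (Set.Subset.refl _)
  exact ⟨x, hx, fun L hL hL2 => hx1 L ⟨hL, hL2⟩⟩

end

end Vale.Agent.P240.K
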