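import Vale.Agent.P240.V.TBase

/-!
P240-T6. Lifting elements of order `p`: compare `lift_elt` (V/L4.lean) and copy its proof.

Let `x ∈ Cent0 F D z`, `x ^ p = 1`. For `L ∈ D \ D2` with components `s, t ∉ X` of `z`, `y`: `TwinGood.lift` gives
`m L ∈ Mid` with `x * m L ∈ Cn L t`, `(x * m L) ^ p ∈ C(L)`; put `m L = 1` for `L ∈ D2`. By `hFull` there is
`ζ ∈ Zn` with `(m L)⁻¹ * ζ ∈ L ⊔ C(L)` for `L ∈ D \ D2`. Claim: for every `L ∈ D` there is `n L ∈ L` with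
`x * ζ * n L ∈ Cn L t` and `(x * ζ * n L) ^ p ∈ C(L)`: for `L ∈ D \ D2` write `(m L)⁻¹ * ζ = l * c`, `n L = l⁻¹`,
`x ζ l⁻¹ = x (m L) l c l⁻¹ = (x * m L) * c'` with `c' ∈ C(L)` (`l4_pow`); for `L ∈ D2` (components `s, t ∈ S ∩ X`):
`x ∈ Mid p S X L` (`mem_Mid`; `x ∈ Cn L s` by `sel_comm`), `ζ ∈ Mid`, so `TwinGood.mid` gives `n L`. Now the proof of
`lift_elt` with `x * ζ` instead of `x` gives `d ∈ Gn D` with `x * ζ * d ∈ Cent0 F D y`, `(x * ζ * d) ^ p = 1`; take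
`n = ζ * d` (`Gn D ≤ Zn`: the elements of `Gn D` lie in `L ⊔ C(L)` for all `L ∈ D`). -/

namespace Vale.Agent.P240.K

open Finsupp Subgroup

universe u

section
variable {G : Type u} [Group G] {p : ℕ}

/-- `Gn D ≤ Zn` -/
theorem gn_le_Zn [hp : Fact p.Prime] [Finite G] {F D : Set (Subgroup G)} {S X : Set G}
    (hF : Family p F) (hDF : D ⊆ F)
    (hconj : ∀ L ∈ D, ∀ g : G, L.map (MulAut.conj g).toMonoidHom ∈ D) :
    Gn D ≤ Zn p F D S X ∧ ∀ x ∈ Gn D, ∀ L ∈ D, x ∈ L ⊔ centralizer (L : Set G) := by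
  have hcent : ∀ M ∈ F, ∀ L ∈ F, L ≠ M → L ≤ centralizer (M : Set G) := by
    intro M hM L hL hne w hw
    rw [mem_centralizer_iff]
    intro v hv
    exact hF.comm M hM L hL (Ne.symm hne) v hv w hw
  have key : ∀ L ∈ D, Gn D ≤ L ⊔ centralizer (L : Set G) := by
    intro L hL
    refine iSup₂_le fun M hM => ?_
    by_cases h : M = L
    · rw [h]
      exact le_sup_left
    · exact (hcent L (hDF hL) M (hDF hM) h).trans le_sup_right
  refine ⟨fun x hx => mem_Zn.2 ⟨mem_Rz.2 ⟨?_, fun L hL => ?_⟩, fun L hL => ?_⟩,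
    fun x hx L hL => key L hL hx⟩
  · refine mem_Rest.2 fun M hM hMD => ?_
    have h1 : Gn D ≤ centralizer (M : Set G) := by
      refine iSup₂_le fun L hL => hcent M hM L (hDF hL) ?_
      rintro rfl
      exact hMD hL
    exact h1 hx
  · have h1 : x ∈ sSup D := by
      rw [sSup_eq_iSup]
      exact hx
    exact sSup_le_norm hF hDF (hDF hL) h1
  · exact le_Mid (key L hL hx)

theorem lift_elt2 [hp : Fact p.Prime] [Finite G] {F D D2 : Set (Subgroup G)} {S X : Set G}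
    (hF : Family p F) (hDF : D ⊆ F)
    (hconj : ∀ L ∈ D, ∀ g : G, L.map (MulAut.conj g).toMonoidHom ∈ D)
    (hC : Rest F (∅ : Set (Subgroup G)) = ⊥) (hFull : Full p F D D2 S X)
    (hT : ∀ L ∈ D, TwinGood p S X L) {z y : G} (hz : z ∈ Sel2 D D2 S X)
    (hy : y ∈ Sel2 D D2 S X) {x : G} (hx : x ∈ Cent0 F D z) (hxp : x ^ p = 1) :
    ∃ n ∈ Zn p F D S X, x * n ∈ Cent0 F D y ∧ (x * n) ^ p = 1 := by
  have hx1 := Subgroup.mem_inf.1 hx
  have hx2 := Subgroup.mem_inf.1 hx1.1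
  have hxN : ∀ L ∈ D, x ∈ normalizer (L : Set G) := fun L hL => by
    have h1 := mem_iInf.1 hx1.2 L
    exact mem_iInf.1 h1 hL
  have hxz : x * z = z * x := ((mem_centralizer_iff.1 hx2.2) z rfl).symm
  choose! s hs using hz.2
  choose! t ht using hy.2
  have hxs : ∀ L ∈ D, x ∈ Cn L (s L) := fun L hL =>
    sel_comm (hF.centre L (hDF hL)) (hs L hL).2.1 (hs L hL).2.2.1 (hxN L hL) hxz
  have hA : ∀ L : Subgroup G, ∃ m : G, L ∈ D → (m ∈ Mid p S X L ∧
      (L ∉ D2 → x * m ∈ Cn L (t L) ∧ (x * m) ^ p ∈ centralizer (L : Set G))) := by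
    intro L
    by_cases hL : L ∈ D
    · by_cases hL2 : L ∈ D2
      · exact ⟨1, fun _ => ⟨one_mem _, fun h => absurd hL2 h⟩⟩
      · obtain ⟨hsS, hsL, hsz, hsX⟩ := hs L hL
        obtain ⟨htS, htL, hty, htX⟩ := ht L hL
        obtain ⟨n, hn, hn1, hn2⟩ := (hT L hL).lift (s L) ⟨hsS, fun h => hL2 (hsX.1 h)⟩ hsL
          (t L) ⟨htS, fun h => hL2 (htX.1 h)⟩ htL x (hxs L hL) hxp
        exact ⟨n, fun _ => ⟨hn, fun _ => ⟨hn1, hn2⟩⟩⟩
    · exact ⟨1, fun h => absurd h hL⟩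
  choose m hm using hA
  obtain ⟨ζ, hζ, hζ2⟩ := hFull m fun L hL => (hm L hL).1
  obtain ⟨hζR, hζM⟩ := mem_Zn.1 hζ
  obtain ⟨hζR1, hζN⟩ := mem_Rz.1 hζR
  have hsel : ∀ L : Subgroup G, L ∈ D → ∃ n : G, n ∈ L ∧ x * ζ * n ∈ Cn L (t L) ∧
      (x * ζ * n) ^ p ∈ centralizer (L : Set G) := by
    intro L hL
    obtain ⟨hsS, hsL, hsz, hsX⟩ := hs L hL
    obtain ⟨htS, htL, hty, htX⟩ := ht L hL
    by_cases hL2 : L ∈ D2
    · have h1 : x ∈ Mid p S X L := mem_Mid hsS (hsX.2 hL2) hsL (hxs L hL)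
        (by rw [hxp]; exact one_mem _)
      exact (hT L hL).mid (t L) ⟨htS, htX.2 hL2⟩ htL (x * ζ) (mul_mem h1 (hζM L hL))
    · obtain ⟨l, hl, c, hc, hlc⟩ := mem_sup_cent (hζ2 L hL hL2)
      obtain ⟨hm1, hm2⟩ := (hm L hL).2 hL2
      have hlN : l ∈ normalizer (L : Set G) := Subgroup.le_normalizer hl
      have hc' : l * c * l⁻¹ ∈ centralizer (L : Set G) := conj_centralizer hlN hc
      have e1 : ζ = m L * (l * c) := by rw [← hlc, mul_inv_cancel_left]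
      have e2 : x * ζ * l⁻¹ = (x * m L) * (l * c * l⁻¹) := by
        rw [e1]
        group
      refine ⟨l⁻¹, inv_mem hl, ?_, ?_⟩
      · rw [e2]
        have h1 := Subgroup.mem_inf.1 hm1
        refine Subgroup.mem_inf.2 ⟨mul_mem h1.1 ?_, mul_mem h1.2 ?_⟩
        · refine mem_of_comm fun w hw => ?_
          exact ((mem_centralizer_iff.1 hc') w hw).symm
        · rw [mem_centralizer_iff]
          intro w hw
          rw [Set.mem_singleton_iff.1 hw]
          exact (mem_centralizer_iff.1 hc') (t L) htL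
      · rw [e2]
        obtain ⟨c', hc'', h3⟩ := l4_pow (Subgroup.mem_inf.1 hm1).1 hc' p
        rw [h3]
        exact mul_mem hc'' hm2
  choose! l hlL hlC hlp using hsel
  obtain ⟨d, hd, hdc⟩ := exists_prod hF hDF l hlL
  have hySup : y ∈ sSup D := by
    rw [sSup_eq_iSup]
    exact hy.1
  have hdGn : d ∈ Gn D := by
    rw [Gn, ← sSup_eq_iSup]
    exact hd
  have hdC : ∀ M ∈ F, M ∉ D → d ∈ centralizer (M : Set G) := by
    intro M hM hMD
    have : sSup D ≤ centralizer (M : Set G) := by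
      refine sSup_le fun L hL => ?_
      intro w hw
      rw [mem_centralizer_iff]
      intro v hv
      refine hF.comm M hM L (hDF hL) ?_ v hv w hw
      rintro rfl
      exact hMD hL
    exact this hd
  have hxR : x * ζ ∈ Rest F D := mul_mem hx2.1 hζR1
  have hxN' : ∀ L ∈ D, x * ζ ∈ normalizer (L : Set G) := fun L hL =>
    mul_mem (hxN L hL) (hζN L hL)
  have hxdR : x * ζ * d ∈ Rest F D := mem_Rest.2 fun M hM hMD =>
    mul_mem (mem_Rest.1 hxR M hM hMD) (hdC M hM hMD)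
  have hxdN : ∀ L ∈ D, x * ζ * d ∈ normalizer (L : Set G) := fun L hL =>
    mul_mem (hxN' L hL) (sSup_le_norm hF hDF (hDF hL) hd)
  have hcm : (x * ζ * d) * y * (x * ζ * d)⁻¹ * y⁻¹ = 1 := by
    refine hF.center_trivial hDF (mul_mem (sSup_conj hconj (x * ζ * d) hySup) (inv_mem hySup))
      fun L hL => ?_
    obtain ⟨c, hc, hdl⟩ := hdc L hL
    have h1 := Subgroup.mem_inf.1 (hlC L hL)
    have h2 : (x * ζ * l L) * t L = t L * (x * ζ * l L) :=
      ((mem_centralizer_iff.1 h1.2) (t L) rfl).symm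
    have h3 := l4_comm h1.1 hc (ht L hL).2.1 (ht L hL).2.2.1 h2
    have h4 : x * ζ * d = (x * ζ * l L) * c := by rw [hdl, mul_assoc (x * ζ)]
    have h5 : y = t L * ((t L)⁻¹ * y) := by rw [mul_inv_cancel_left]
    rw [← h5, ← h4] at h3
    exact h3
  refine ⟨ζ * d, mul_mem hζ ((gn_le_Zn hF hDF hconj).1 hdGn), ?_, ?_⟩
  · rw [← mul_assoc]
    refine Subgroup.mem_inf.2 ⟨Subgroup.mem_inf.2 ⟨hxdR, ?_⟩, ?_⟩
    · rw [mem_centralizer_iff]
      intro w hw
      rw [Set.mem_singleton_iff.1 hw]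
      have h1 : (x * ζ * d) * y * (x * ζ * d)⁻¹ = y := mul_inv_eq_one.1 hcm
      exact (mul_inv_eq_iff_eq_mul.1 h1).symm
    · rw [mem_iInf]
      intro L
      rw [mem_iInf]
      exact hxdN L
  · rw [← mul_assoc]
    have h1 : (x * ζ * d) ^ p ∈ Rest F (∅ : Set (Subgroup G)) := by
      refine mem_Rest.2 fun M hM _ => ?_
      by_cases hMD : M ∈ D
      · obtain ⟨c, hc, hdl⟩ := hdc M hMD
        have h2 := (Subgroup.mem_inf.1 (hlC M hMD)).1
        obtain ⟨c', hc', h3⟩ := l4_pow h2 hc p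
        have h4 : x * ζ * d = (x * ζ * l M) * c := by rw [hdl, mul_assoc (x * ζ)]
        rw [h4, h3]
        exact mul_mem hc' (hlp M hMD)
      · exact (centralizer (M : Set G)).pow_mem (mem_Rest.1 hxdR M hM hMD) p
    rw [hC, mem_bot] at h1
    exact h1

end

end Vale.Agent.P240.K
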