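import Vale.Agent.P240.V.T3
import Vale.Agent.P240.V.T4
import Vale.Agent.P240.V.T5
import Vale.Agent.P240.V.T6

/-!
P240-T7. The sign and the final theorem: compare V/L6.lean. -/

namespace Vale.Agent.P240.K

open Finsupp Subgroup

universe u v

variable {𝕜 : Type v} [Field 𝕜]

section
variable {G : Type u} [Group G] {p : ℕ}

/-- comparison of the numbers of cosets -/
private lemma t7_le [Finite G] {A B Z : Subgroup G} (h : ∀ x ∈ A, ∃ y ∈ B, x⁻¹ * y ∈ Z) :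
    Z.relIndex A ≤ Z.relIndex B := by
  choose! f hf hfz using h
  rw [relIndex, relIndex, Subgroup.index_eq_card, Subgroup.index_eq_card]
  let Φ : A ⧸ Z.subgroupOf A → B ⧸ Z.subgroupOf B :=
    fun q => ((⟨f q.out, hf _ q.out.2⟩ : B) : B ⧸ Z.subgroupOf B)
  refine Nat.card_le_card_of_injective Φ ?_
  intro q q' hqq
  have h1 : (⟨f q.out, hf _ q.out.2⟩ : B)⁻¹ * ⟨f q'.out, hf _ q'.out.2⟩ ∈ Z.subgroupOf B :=
    QuotientGroup.eq.1 hqq
  rw [Subgroup.mem_subgroupOf] at h1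
  have h1' : (f q.out)⁻¹ * f q'.out ∈ Z := h1
  have h2 : ((q.out : A) : G)⁻¹ * ((q'.out : A) : G) ∈ Z := by
    have h3 : ((q.out : A) : G)⁻¹ * ((q'.out : A) : G) =
        (((q.out : A) : G)⁻¹ * f q.out) * ((f q.out)⁻¹ * f q'.out) *
          (((q'.out : A) : G)⁻¹ * f q'.out)⁻¹ := by group
    rw [h3]
    exact mul_mem (mul_mem (hfz _ q.out.2) h1') (inv_mem (hfz _ q'.out.2))
  rw [← q.out_eq', ← q'.out_eq']
  refine QuotientGroup.eq.2 ?_
  rw [Subgroup.mem_subgroupOf]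
  exact h2

/-- the data attached to one `z` -/
private lemma t7_data [hp : Fact p.Prime] [Finite G] {F D D2 : Set (Subgroup G)} {S X : Set G}
    (hF : Family p F) (hDF : D ⊆ F)
    (hconj : ∀ L ∈ D, ∀ g : G, L.map (MulAut.conj g).toMonoidHom ∈ D)
    (hC : Rest F (∅ : Set (Subgroup G)) = ⊥) (hHit : Hit p F D D2 S X)
    (hT : ∀ L ∈ D, TwinGood p S X L) {z : G} (hz : z ∈ Sel2 D D2 S X) :
    ∃ (k κ : ℕ) (Om : Subgroup G), 0 < (-1 : ℤ) ^ k * lam p (Rz (Rest F D) D) z ∧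
      0 < (-1 : ℤ) ^ κ * lam p (Gn D) z ∧
      (∀ x ∈ Cent0 F D z, x ^ p = 1 → x ∈ Om) ∧
      (∀ x ∈ Om, ∃ e ∈ Cent0 F D z, e ^ p = 1 ∧ e⁻¹ * x ∈ Gn D) ∧
      p ^ κ * (Zn p F D S X).relIndex Om = p ^ k := by
  obtain ⟨W, hWN, hWC, hnorm, hsol, hpW, hfaith, hcomm⟩ :=
    exists_kernel2 hF hDF hconj hC hHit hT hz
  have hgood := sel2_good hF hDF hconj hT hz
  have hFam := family_Fam hF hDF hconj
  have hNC : Gn D ⊓ centralizer {z} ≤ Cent0 F D z := by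
    rw [Cent0_eq]
    exact inf_le_inf_right _ hFam.gn_le_Rz
  have hCz : Cent0 F D z ≤ centralizer {z} := by
    rw [Cent0_eq]
    exact inf_le_right
  obtain ⟨k, Om, hOmC, hWOm, hcard, hall, hex, hpos⟩ :=
    comm_sign_sub hWC hnorm hsol hpW hfaith hcomm
  obtain ⟨κ, Om', hOmC', hWOm', hcard', hall', hex', hpos'⟩ :=
    comm_sign_sub (C := Gn D ⊓ centralizer {z}) (le_inf hWN (hWC.trans hCz))
      (fun x hx => hnorm x (hNC hx)) hsol hpW (fun x hx => hfaith x (hNC hx))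
      (fun x hx y hy => hcomm x (hNC hx) y (hNC hy))
  have hOmeq : Om ⊓ Gn D = Om' := by
    apply le_antisymm
    · intro x hx
      obtain ⟨hx1, hx2⟩ := Subgroup.mem_inf.1 hx
      obtain ⟨e, he, hep, hew⟩ := hex x hx1
      have heN : e ∈ Gn D := by
        have h1 : e = x * (e⁻¹ * x)⁻¹ := by group
        rw [h1]
        exact mul_mem hx2 (inv_mem (hWN hew))
      have h2 : e ∈ Om' := hall' e (Subgroup.mem_inf.2 ⟨heN, hCz he⟩) hep
      have h3 : x = e * (e⁻¹ * x) := by group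
      rw [h3]
      exact mul_mem h2 (hWOm' hew)
    · intro x hx
      obtain ⟨e, he, hep, hew⟩ := hex' x hx
      refine Subgroup.mem_inf.2 ⟨?_, (Subgroup.mem_inf.1 (hOmC' hx)).1⟩
      have h3 : x = e * (e⁻¹ * x) := by group
      rw [h3]
      exact mul_mem (hall e (hNC he) hep) (hWOm hew)
  have hGZ : Gn D ≤ Zn p F D S X := (gn_le_Zn hF hDF hconj).1
  have hZeq : Om ⊓ Zn p F D S X = Om ⊓ Gn D := by
    refine le_antisymm (fun x hx => ?_) (inf_le_inf_left _ hGZ)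
    obtain ⟨hx1, hx2⟩ := Subgroup.mem_inf.1 hx
    obtain ⟨e, he, hep, hew⟩ := hex x hx1
    have heZ : e ∈ Zn p F D S X := by
      have h1 : e = x * (e⁻¹ * x)⁻¹ := by group
      rw [h1]
      exact mul_mem hx2 (inv_mem (hGZ (hWN hew)))
    have heC := he
    rw [Cent0_eq] at heC
    obtain ⟨he1, he2⟩ := Subgroup.mem_inf.1 heC
    have heN : e ∈ Gn D := by
      refine hHit e heZ fun L hL hL2 => ?_
      obtain ⟨s, hsS, hsL, hsz, hsX⟩ := hz.2 L hL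
      have h1 : e ∈ Cn L s := sel_comm (hF.centre L (hDF hL)) hsL hsz ((mem_Rz.1 he1).2 L hL)
        ((mem_centralizer_iff.1 he2) z rfl).symm
      exact ((hT L hL).inner s hsS hsL e h1 hep).2 (fun h => hL2 (hsX.1 h)) ((mem_Zn.1 heZ).2 L hL)
    have h3 : x = e * (e⁻¹ * x) := by group
    refine Subgroup.mem_inf.2 ⟨hx1, ?_⟩
    rw [h3]
    exact mul_mem heN (hWN hew)
  refine ⟨k, κ, Om, ?_, ?_, hall, ?_, ?_⟩
  · rw [hgood.lam_eq hF]
    exact hpos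
  · rw [hgood.lam_eq' hF]
    exact hpos'
  · intro x hx
    obtain ⟨e, he, hep, hew⟩ := hex x hx
    exact ⟨e, he, hep, hWN hew⟩
  · have h2 := Subgroup.relIndex_mul_relIndex ⊥ (Om ⊓ Zn p F D S X) Om bot_le inf_le_left
    rw [relIndex_bot_left, relIndex_bot_left, inf_relIndex_left, hZeq, hOmeq, hcard, hcard'] at h2
    have hW0 : 0 < Nat.card W := Nat.card_pos
    refine Nat.eq_of_mul_eq_mul_right hW0 ?_
    rw [← h2]
    ring

/-- the lifts give a comparison of the two numbers of cosets -/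
private lemma t7_cmp [hp : Fact p.Prime] [Finite G] {F D D2 : Set (Subgroup G)} {S X : Set G}
    (hF : Family p F) (hDF : D ⊆ F)
    (hconj : ∀ L ∈ D, ∀ g : G, L.map (MulAut.conj g).toMonoidHom ∈ D)
    (hC : Rest F (∅ : Set (Subgroup G)) = ⊥) (hFull : Full p F D D2 S X)
    (hT : ∀ L ∈ D, TwinGood p S X L) {z y : G} (hz : z ∈ Sel2 D D2 S X)
    (hy : y ∈ Sel2 D D2 S X) {A B : Subgroup G}
    (hA : ∀ x ∈ A, ∃ e ∈ Cent0 F D z, e ^ p = 1 ∧ e⁻¹ * x ∈ Gn D)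
    (hB : ∀ x ∈ Cent0 F D y, x ^ p = 1 → x ∈ B) :
    (Zn p F D S X).relIndex A ≤ (Zn p F D S X).relIndex B := by
  refine t7_le fun x hx => ?_
  obtain ⟨e, he, hep, hen⟩ := hA x hx
  obtain ⟨n, hn, hn1, hn2⟩ := lift_elt2 hF hDF hconj hC hFull hT hz hy he hep
  refine ⟨e * n, hB _ hn1 hn2, ?_⟩
  have h1 : x⁻¹ * (e * n) = (e⁻¹ * x)⁻¹ * n := by group
  rw [h1]
  exact mul_mem (inv_mem ((gn_le_Zn hF hDF hconj).1 hen)) hn

private lemma t7_parity {a b : ℕ} {l : ℤ} (h1 : 0 < (-1 : ℤ) ^ a * l) (h2 : 0 < (-1 : ℤ) ^ b * l) :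
    (-1 : ℤ) ^ a = (-1 : ℤ) ^ b := by
  rcases neg_one_pow_eq_or ℤ a with ha | ha <;> rcases neg_one_pow_eq_or ℤ b with hb | hb
  · rw [ha, hb]
  · rw [ha] at h1; rw [hb] at h2; linarith
  · rw [ha] at h1; rw [hb] at h2; linarith
  · rw [ha, hb]

theorem sign_const2 [hp : Fact p.Prime] [Finite G] {F D D2 : Set (Subgroup G)} {S X : Set G}
    (hF : Family p F) (hDF : D ⊆ F)
    (hconj : ∀ L ∈ D, ∀ g : G, L.map (MulAut.conj g).toMonoidHom ∈ D)
    (hC : Rest F (∅ : Set (Subgroup G)) = ⊥) (hHit : Hit p F D D2 S X)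
    (hFull : Full p F D D2 S X) (hT : ∀ L ∈ D, TwinGood p S X L) :
    ∃ k : ℕ, ∀ z ∈ Sel2 D D2 S X, 0 < (-1 : ℤ) ^ k * lam p (Rz (Rest F D) D) z := by
  by_cases hne : (Sel2 D D2 S X).Nonempty
  swap
  · exact ⟨0, fun z hz => absurd ⟨z, hz⟩ hne⟩
  obtain ⟨y, hy⟩ := hne
  obtain ⟨k, κ, Om, hk, hκ, hall, hex, hcard⟩ := t7_data hF hDF hconj hC hHit hT hy
  refine ⟨k, fun z hz => ?_⟩
  obtain ⟨k', κ', Om', hk', hκ', hall', hex', hcard'⟩ := t7_data hF hDF hconj hC hHit hT hz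
  have hr : (Zn p F D S X).relIndex Om = (Zn p F D S X).relIndex Om' :=
    le_antisymm (t7_cmp hF hDF hconj hC hFull hT hy hz hex hall')
      (t7_cmp hF hDF hconj hC hFull hT hz hy hex' hall)
  have hpow : p ^ (k + κ') = p ^ (k' + κ) := by
    rw [pow_add, pow_add, ← hcard, ← hcard', hr]
    ring
  have hexp : k + κ' = k' + κ := Nat.pow_right_injective hp.out.two_le hpow
  have hsame : lam p (Gn D) z = lam p (Gn D) y := lam_same2 hF hDF hconj hT hz hy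
  rw [hsame] at hκ'
  have hpar := t7_parity hκ hκ'
  have hkk : (-1 : ℤ) ^ k = (-1 : ℤ) ^ k' := by
    have h1 : (-1 : ℤ) ^ k * (-1 : ℤ) ^ κ' = (-1 : ℤ) ^ k' * (-1 : ℤ) ^ κ := by
      rw [← pow_add, ← pow_add, hexp]
    rw [hpar] at h1
    exact mul_right_cancel₀ (pow_ne_zero _ (by norm_num)) h1
  rw [hkk]
  exact hk'

theorem twin_fam [hp : Fact p.Prime] [Finite G] {F D : Set (Subgroup G)} {S X : Set G}
    (hF : Family p F) (hDF : D ⊆ F)
    (hconj : ∀ L ∈ D, ∀ g : G, L.map (MulAut.conj g).toMonoidHom ∈ D)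
    (hC : Rest F (∅ : Set (Subgroup G)) = ⊥)
    (hT : ∀ L ∈ D, TwinGood p S X L) (hR : ∀ L ∈ F, L ∈ D ∨ Removable 𝕜 p L) : HQ 𝕜 p G := by
  obtain ⟨D2, hD2, hD2', hHit, hFull⟩ := exists_D2 hF hDF hconj hC hT
  obtain ⟨k, hk⟩ := sign_const2 hF hDF hconj hC hHit hFull hT
  refine twin_prod hF hDF hconj
    (fun L hL h _ hp' hn s hs hsL => ((hT L hL).move h hp' hn s hsL).1 hs)
    (fun L hL h _ hp' hn s hs hsL => ((hT L hL).move h hp' hn s hsL).2 hs)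
    (fun L hL => (hT L hL).zero) hD2 ?_ hR
  intro h0
  obtain ⟨y, hy⟩ := sel2_nonempty (D2 := D2) hF hDF hT hD2'
  have h1 : 0 < ∑ z ∈ (Set.toFinite (Sel2 D D2 S X)).toFinset,
      (-1 : ℤ) ^ k * lam p (Rz (Rest F D) D) z :=
    Finset.sum_pos (fun z hz => hk z ((Set.Finite.mem_toFinset _).1 hz))
      ⟨y, (Set.Finite.mem_toFinset _).2 hy⟩
  rw [← Finset.mul_sum, h0, mul_zero] at h1
  exact lt_irrefl _ h1

theorem twin_main [hp : Fact p.Prime] [Finite G] (hO : OpTrivial p G)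
    (hO' : ∀ N : Subgroup G, N.Normal → ¬ p ∣ Nat.card N → N = ⊥) (D : Set (Subgroup G))
    (S X : Set G) (hDF : D ⊆ Comp G)
    (hconj : ∀ L ∈ D, ∀ g : G, L.map (MulAut.conj g).toMonoidHom ∈ D)
    (hT : ∀ L ∈ D, TwinGood p S X L) (hR : ∀ L ∈ Comp G, L ∈ D ∨ Removable 𝕜 p L) :
    HQ 𝕜 p G :=
  twin_fam (comp_family hO hO') hDF hconj (comp_rest hO hO') hT hR

end

end Vale.Agent.P240.K
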