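import Vale.Agent.P240.V.TBase
import Vale.Agent.P240.V.QDefs

/-!
P240-T8. From the compact definitions of V/QDefs.lean (namespace `Q`, used in the hand-in) to `K.TwinGood` and
`K.AdicGood`. The `Q` versions of `MinNormal`, `Comp`, `Cn`, `eulerFix`, `wsum`, `Cz` are definitionally equal to the
`K` versions (`Q.Cz L = centralizer L`).

`local_twin`: `S' = S ∪ A`, `S' \ X = S`, `S' ∩ X = A` (on `L`), `K.Mid p (S ∪ A) X L = Q.Mid p A L`.
`mid` (for `t ∈ A ∩ L`, `m ∈ Mid` there is `n ∈ L` with `m * n ∈ Cn L t`, `(m * n) ^ p ∈ C(L)`): put `H = L ⊔ Cz L`. If all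
generators `x` of `Mid` lie in `H`, then `m = l * c`, `n = l⁻¹` (`m * l⁻¹ = l * c * l⁻¹ ∈ C(L)`). Otherwise take a generator
`x ∉ H`, `x ∈ Cn L a`, `x ^ p ∈ Cz L`, `a ∈ A ∩ L`; the last condition of `Half p A L` gives `n ∈ H`, `y = x * n ∈ Cn L t`,
`y ^ p ∈ Cz L`, `y ∉ H`; as `H.relIndex Mid ∣ p`, `Mid` is the union of the cosets `y ^ i H` (see the private lemma `t5_one` in
V/T5.lean), `m = y ^ i * l * c`, `n = l⁻¹`, `m * n = y ^ i * c'` with `c' ∈ C(L)`; `l4_pow`. -/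

namespace Vale.Agent.P240.K

open Finsupp Subgroup

universe u

section
variable {G : Type u} [Group G] {p : ℕ}

private lemma t8_Mid_le {S X : Set G} {L : Subgroup G} :
    Mid p S X L ≤ normalizer (L : Set G) := by
  refine sup_le (sup_le Subgroup.le_normalizer ?_) ?_
  · intro c hc
    exact mem_of_comm fun v hv => (mem_centralizer_iff.1 hc v hv).symm
  · rw [closure_le]
    rintro x ⟨a, _, _, hx, _⟩
    exact (Subgroup.mem_inf.1 hx).1

private lemma t8_cent_norm {L : Subgroup G} {g : G} (hg : g ∈ normalizer (L : Set G)) :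
    g ∈ normalizer ((centralizer (L : Set G) : Subgroup G) : Set G) :=
  pf_mem_nz_of (fun _ hx => conj_centralizer hg hx) (fun x hx => by
    have := conj_centralizer (inv_mem hg) hx
    rwa [inv_inv] at this)

/-- `y ∈ Mid \ LC` generates `Mid` modulo `LC` -/
private lemma t8_gen [hp : Fact p.Prime] [Finite G] {S X : Set G} {L : Subgroup G}
    (hT : (L ⊔ centralizer (L : Set G)).relIndex (Mid p S X L) ∣ p) {y a : G}
    (hy : y ∈ Mid p S X L) (hyn : y ∉ L ⊔ centralizer (L : Set G)) (ha : a ∈ Mid p S X L) :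
    ∃ i : ℤ, a⁻¹ * y ^ i ∈ L ⊔ centralizer (L : Set G) := by
  set N : Subgroup G := L ⊔ centralizer (L : Set G) with hN
  have hyN : y ∈ normalizer (N : Set G) := by
    have h1 : y ∈ normalizer (L : Set G) := t8_Mid_le hy
    exact pf_nz_sup h1 (t8_cent_norm h1)
  let H : Subgroup G :=
    { carrier := {x | ∃ i : ℤ, x⁻¹ * y ^ i ∈ N}
      one_mem' := ⟨0, by simp⟩
      mul_mem' := by
        rintro u v ⟨i, hi⟩ ⟨j, hj⟩
        refine ⟨i + j, ?_⟩
        have h1 : y ^ j ∈ normalizer (N : Set G) := zpow_mem hyN j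
        have h2 : (u * v)⁻¹ * y ^ (i + j) = (v⁻¹ * y ^ j) * ((y ^ j)⁻¹ * (u⁻¹ * y ^ i) * y ^ j) := by
          rw [zpow_add]; group
        rw [h2]
        exact mul_mem hj (pf_nz_conj' h1 hi)
      inv_mem' := by
        rintro u ⟨i, hi⟩
        refine ⟨-i, ?_⟩
        have h1 : y ^ i ∈ normalizer (N : Set G) := zpow_mem hyN i
        have h2 : (u⁻¹)⁻¹ * y ^ (-i) = y ^ i * (u⁻¹ * y ^ i)⁻¹ * (y ^ i)⁻¹ := by
          group
        rw [h2]
        exact pf_nz_conj h1 (inv_mem hi) }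
  have hNH : N ≤ H := fun x hx => ⟨0, by simpa using hx⟩
  have hyH : y ∈ H := ⟨1, by simp⟩
  have hNM : N ≤ Mid p S X L := le_Mid
  have hHM : H ≤ Mid p S X L := by
    rintro x ⟨i, hi⟩
    have h1 : x⁻¹ * y ^ i ∈ Mid p S X L := hNM hi
    have h2 : x⁻¹ * y ^ i * (y ^ i)⁻¹ ∈ Mid p S X L := mul_mem h1 (inv_mem (zpow_mem hy i))
    rw [mul_inv_cancel_right] at h2
    exact (Subgroup.inv_mem_iff _).1 h2
  have h1 : N.relIndex H * H.relIndex (Mid p S X L) = N.relIndex (Mid p S X L) :=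
    Subgroup.relIndex_mul_relIndex _ _ _ hNH hHM
  have h2 : N.relIndex H ≠ 1 := by
    rw [Ne, Subgroup.relIndex_eq_one]
    intro h
    exact hyn (h hyH)
  have h3 : N.relIndex H ∣ p := (Dvd.intro _ h1).trans hT
  have h4 : N.relIndex H = p := ((Nat.dvd_prime hp.1).1 h3).resolve_left h2
  have h5 : H.relIndex (Mid p S X L) ∣ 1 := by
    have h6 : p * H.relIndex (Mid p S X L) ∣ p * 1 := by
      rw [h4] at h1
      rw [mul_one, h1]
      exact hT
    exact (Nat.mul_dvd_mul_iff_left hp.1.pos).1 h6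
  have h6 : Mid p S X L ≤ H := Subgroup.relIndex_eq_one.1 (Nat.dvd_one.1 h5)
  exact h6 ha

private lemma t8_wsum {S : Set G} {K : Subgroup G} : Q.wsum p S K = wsum p S K := rfl

theorem local_twin [hp : Fact p.Prime] [Finite G] {S A X : Set G} {L : Subgroup G}
    (h : Q.Local p S A X L) : TwinGood p (S ∪ A) X L := by
  obtain ⟨h1, ⟨hSm, hS⟩, ⟨hAm, hA⟩, hidx, hX, hAX, hSX, hz⟩ := h
  have hMid : Mid p (S ∪ A) X L = Q.Mid p A L := by
    have e : {x | ∃ a ∈ (S ∪ A) ∩ X, a ∈ L ∧ x ∈ Cn L a ∧ x ^ p ∈ centralizer (L : Set G)} =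
        {x | ∃ a ∈ A, a ∈ L ∧ x ∈ Q.Cn L a ∧ x ^ p ∈ Q.Cz L} := by
      ext x
      constructor
      · rintro ⟨a, ⟨ha, haX⟩, haL, hx, hxp⟩
        rcases ha with ha | ha
        · exact absurd haX (hSX ha)
        · exact ⟨a, ha, haL, hx, hxp⟩
      · rintro ⟨a, ha, haL, hx, hxp⟩
        exact ⟨a, ⟨Or.inr ha, hAX ha⟩, haL, hx, hxp⟩
    rw [Mid, e]
    rfl
  have hidx' : (L ⊔ centralizer (L : Set G)).relIndex (Mid p (S ∪ A) X L) ∣ p := by
    rw [hMid]
    exact hidx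
  refine ⟨?_, ?_, ?_, ?_, ?_, ?_, ?_, hidx', ?_, ?_, ?_⟩
  · -- ne
    obtain ⟨s, hs, hsL⟩ := h1
    exact ⟨s, ⟨Or.inl hs, hSX hs⟩, hsL⟩
  · -- move
    intro g hgp hgN s hsL
    refine ⟨fun hs => ?_, fun hs => hX g hgp hgN s hs hsL⟩
    rcases hs with hs | hs
    · exact Or.inl (hSm g hgp hgN s hs hsL)
    · exact Or.inr (hAm g hgp hgN s hs hsL)
  · -- zero
    intro E hE hE'
    exact hz E hE hE'
  · -- order
    intro s hs hsL
    rcases hs with hs | hs
    · exact (hS s hs hsL).1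
    · exact (hA s hs hsL).1
  · -- fix
    intro s hs hsL
    rcases hs with hs | hs
    · exact (hS s hs hsL).2.1
    · exact (hA s hs hsL).2.1
  · -- kernel
    intro s hs hsL
    rcases hs with hs | hs
    · obtain ⟨W, hW, hWs, hWp, hW1⟩ := (hS s hs hsL).2.2.1
      refine ⟨W, hW, hWs, hWp, fun x hx => (hW1 x hx).1, fun x hx hxp => ?_⟩
      obtain ⟨_, h3, h4⟩ := (hW1 x hx).2 hxp
      exact ⟨fun hc => Or.inr (h3 hc), h4⟩
    · obtain ⟨W, hW, hWs, hWp, hW1⟩ := (hA s hs hsL).2.2.1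
      refine ⟨W, hW, hWs, hWp, fun x hx => (hW1 x hx).1, fun x hx hxp => ?_⟩
      obtain ⟨_, _, h4⟩ := (hW1 x hx).2 hxp
      exact ⟨fun _ => Or.inl (hAX hs), h4⟩
  · -- same
    intro s hs hsL t ht htL hst
    rcases hs with hs | hs <;> rcases ht with ht | ht
    · exact ((hS s hs hsL).2.2.2 t ht htL).1
    · exact absurd (hst.2 (hAX ht)) (hSX hs)
    · exact absurd (hst.1 (hAX hs)) (hSX ht)
    · exact ((hA s hs hsL).2.2.2 t ht htL).1
  · -- inner
    intro s hs hsL x hx hxp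
    rcases hs with hs | hs
    · refine ⟨fun h => absurd h (hSX hs), fun _ hxM => ?_⟩
      obtain ⟨W, _, _, _, hW1⟩ := (hS s hs hsL).2.2.1
      rw [hMid] at hxM
      exact ((hW1 x hx).2 hxp).1 hxM
    · refine ⟨fun _ hxM => ?_, fun h => absurd (hAX hs) h⟩
      obtain ⟨W, _, _, _, hW1⟩ := (hA s hs hsL).2.2.1
      exact ((hW1 x hx).2 hxp).1 hxM
  · -- lift
    intro s hs hsL t ht htL x hx hxp
    have hs' : s ∈ S := hs.1.resolve_right fun h => hs.2 (hAX h)
    have ht' : t ∈ S := ht.1.resolve_right fun h => ht.2 (hAX h)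
    rw [hMid]
    exact ((hS s hs' hsL).2.2.2 t ht' htL).2 x hx (by rw [hxp]; exact one_mem _)
  · -- mid
    intro t ht htL m hm
    have ht' : t ∈ A := ht.1.resolve_left fun h => hSX h ht.2
    have hCn : ∀ c ∈ centralizer (L : Set G), c ∈ Cn L t := by
      intro c hc
      refine Subgroup.mem_inf.2 ⟨mem_of_comm fun v hv => (mem_centralizer_iff.1 hc v hv).symm, ?_⟩
      rw [mem_centralizer_iff]
      intro w hw
      rw [Set.mem_singleton_iff.1 hw]
      exact mem_centralizer_iff.1 hc t htL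
    by_cases hgen : ∃ x, (∃ a ∈ A, a ∈ L ∧ x ∈ Q.Cn L a ∧ x ^ p ∈ Q.Cz L) ∧
        x ∉ L ⊔ centralizer (L : Set G)
    · obtain ⟨x, ⟨a, haA, haL, hxa, hxp⟩, hxH⟩ := hgen
      obtain ⟨n, hn, hn1, hn2⟩ := ((hA a haA haL).2.2.2 t ht' htL).2 x hxa hxp
      have hxM : x ∈ Mid p (S ∪ A) X L := mem_Mid (Or.inr haA) (hAX haA) haL hxa hxp
      have hyM : x * n ∈ Mid p (S ∪ A) X L := mul_mem hxM (le_Mid hn)
      have hyH : x * n ∉ L ⊔ centralizer (L : Set G) := by
        intro h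
        have h2 : x * n * n⁻¹ ∈ L ⊔ centralizer (L : Set G) := mul_mem h (inv_mem hn)
        rw [mul_inv_cancel_right] at h2
        exact hxH h2
      obtain ⟨i, hi⟩ := t8_gen hidx' hyM hyH hm
      obtain ⟨l, hl, c, hc, hlc⟩ := mem_sup_cent hi
      have e1 : m * l = (x * n) ^ i * c⁻¹ := by
        have e2 : (x * n) ^ i = m * (l * c) := by rw [← hlc, mul_inv_cancel_left]
        rw [e2]
        group
      have hyC : (x * n) ^ i ∈ Cn L t := zpow_mem hn1 i
      refine ⟨l, hl, ?_, ?_⟩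
      · rw [e1]
        exact mul_mem hyC (hCn _ (inv_mem hc))
      · rw [e1]
        obtain ⟨c', hc', h3⟩ := l4_pow (Subgroup.mem_inf.1 hyC).1 (inv_mem hc) p
        rw [h3]
        refine mul_mem hc' ?_
        have e3 : ((x * n) ^ i) ^ p = ((x * n) ^ p) ^ i := by
          rw [← zpow_natCast, ← zpow_natCast, ← zpow_mul, ← zpow_mul, mul_comm]
        rw [e3]
        exact zpow_mem hn2 i
    · have hle : Mid p (S ∪ A) X L ≤ L ⊔ centralizer (L : Set G) := by
        rw [hMid]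
        refine sup_le le_rfl ?_
        rw [closure_le]
        intro x hx
        by_contra hxH
        exact hgen ⟨x, hx, hxH⟩
      obtain ⟨l, hl, c, hc, hlc⟩ := mem_sup_cent (hle hm)
      have hcl : l * c = c * l := mem_centralizer_iff.1 hc l hl
      have e1 : m * l⁻¹ = c := by rw [hlc, hcl, mul_inv_cancel_right]
      refine ⟨l⁻¹, inv_mem hl, ?_, ?_⟩
      · rw [e1]
        exact hCn c hc
      · rw [e1]
        exact pow_mem hc p

theorem adic_adic [hp : Fact p.Prime] [Finite G] {l : ℕ} {S : Set G} {L : Subgroup G}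
    (h : Q.Adic p l S L) : AdicGood p l S L := by
  obtain ⟨h1, h2, k, hk, h3⟩ := h
  refine ⟨h1, h2, ?_⟩
  cases k with
  | zero => exact absurd (by simp) hk
  | succ k => exact ⟨k, hk, h3⟩

theorem q_comp : Q.Comp G = Comp G := rfl

end

end Vale.Agent.P240.K
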