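import Vale.Agent.P240.V.LDefs
import Vale.Agent.P240.V.PADefs

namespace Vale.Agent.P240.K

open Subgroup

section
variable {G : Type*} [Group G]

/-- The subgroup generated by `L`, `C_G(L)` and the elements of `N_G(L)` that commute with some
`a ∈ S ∩ X ∩ L` and whose `p`-th power centralizes `L`. -/
def Mid (p : ℕ) (S X : Set G) (L : Subgroup G) : Subgroup G :=
  L ⊔ centralizer (L : Set G) ⊔ Subgroup.closure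
    {x | ∃ a ∈ S ∩ X, a ∈ L ∧ x ∈ Cn L a ∧ x ^ p ∈ centralizer (L : Set G)}

/-- The local condition on `L`, `S ∩ L` and `X ∩ L`. -/
structure TwinGood (p : ℕ) (S X : Set G) (L : Subgroup G) : Prop where
  ne : ∃ s ∈ S \ X, s ∈ L
  move : ∀ h : G, h ^ p = 1 → h ∉ normalizer (L : Set G) → ∀ s ∈ L,
    (s ∈ S → h * s * h⁻¹ ∈ S) ∧ (s ∈ X → h * s * h⁻¹ ∈ X)
  zero : ∀ E ≤ normalizer (L : Set G), E = ⊥ ∨ ElemAb p E →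
    wsum p X (L ⊓ centralizer (E : Set G)) = 0
  order : ∀ s ∈ S, s ∈ L → ¬ p ∣ orderOf s
  fix : ∀ s ∈ S, s ∈ L → ∀ E ≤ normalizer (L : Set G), ElemAb p E →
    (∀ e ∈ E, s * e * s⁻¹ ∈ E ⊔ centralizer (L : Set G)) →
    (∀ e ∈ E, s * e * s⁻¹ * e⁻¹ ∈ centralizer (L : Set G) → e ∈ centralizer (L : Set G)) →
    E ≤ centralizer (L : Set G)
  kernel : ∀ s ∈ S, s ∈ L → ∃ W ≤ L ⊓ Cn L s, Group.IsSolvable W ∧ ¬ p ∣ Nat.card W ∧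
    (∀ x ∈ Cn L s, ∀ w ∈ W, x * w * x⁻¹ ∈ W) ∧
    ∀ x ∈ Cn L s, x ^ p = 1 →
      ((∀ w ∈ W, x * w = w * x) → s ∈ X ∨ x ∈ centralizer (L : Set G)) ∧
      ∀ y ∈ Cn L s, y ^ p = 1 → x * y * x⁻¹ * y⁻¹ ∈ W ⊔ centralizer (L : Set G)
  same : ∀ s ∈ S, s ∈ L → ∀ t ∈ S, t ∈ L → (s ∈ X ↔ t ∈ X) →
    ∃ g ∈ normalizer (L : Set G), g * s * g⁻¹ = t
  index : (L ⊔ centralizer (L : Set G)).relIndex (Mid p S X L) ∣ p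
  inner : ∀ s ∈ S, s ∈ L → ∀ x ∈ Cn L s, x ^ p = 1 →
    (s ∈ X → x ∈ L ⊔ centralizer (L : Set G) → x ∈ centralizer (L : Set G)) ∧
    (s ∉ X → x ∈ Mid p S X L → x ∈ L ⊔ centralizer (L : Set G))
  lift : ∀ s ∈ S \ X, s ∈ L → ∀ t ∈ S \ X, t ∈ L → ∀ x ∈ Cn L s, x ^ p = 1 →
    ∃ n ∈ Mid p S X L, x * n ∈ Cn L t ∧ (x * n) ^ p ∈ centralizer (L : Set G)
  mid : ∀ t ∈ S ∩ X, t ∈ L → ∀ m ∈ Mid p S X L,
    ∃ n ∈ L, m * n ∈ Cn L t ∧ (m * n) ^ p ∈ centralizer (L : Set G)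

end

end Vale.Agent.P240.K
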