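import Vale.Agent.P240.Bdl.B1
import Vale.Agent.P240.V.TDefs

namespace Vale.Agent.P240.K

open Finsupp Subgroup

universe u

section
variable {G : Type u} [Group G] {p : ℕ}

/-- products of elements `s ∈ S ∩ L` (`L ∈ D`) with `s ∈ X` exactly for `L ∈ D2` -/
def Sel2 (D D2 : Set (Subgroup G)) (S X : Set G) : Set G :=
  {z | z ∈ Gn D ∧ ∀ L ∈ D, ∃ s ∈ S, s ∈ L ∧ s⁻¹ * z ∈ centralizer (L : Set G) ∧ (s ∈ X ↔ L ∈ D2)}

/-- the elements of `Rz (Rest F D) D` lying in all `Mid p S X L` -/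
def Zn (p : ℕ) (F D : Set (Subgroup G)) (S X : Set G) : Subgroup G :=
  Rz (Rest F D) D ⊓ ⨅ L ∈ D, Mid p S X L

/-- `D \ D2` detects the elements of `Zn` modulo `Gn D` -/
def Hit (p : ℕ) (F D D2 : Set (Subgroup G)) (S X : Set G) : Prop :=
  ∀ x ∈ Zn p F D S X, (∀ L ∈ D, L ∉ D2 → x ∈ L ⊔ centralizer (L : Set G)) → x ∈ Gn D

/-- the elements of `Zn` have arbitrary classes at `D \ D2` -/
def Full (p : ℕ) (F D D2 : Set (Subgroup G)) (S X : Set G) : Prop :=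
  ∀ m : Subgroup G → G, (∀ L ∈ D, m L ∈ Mid p S X L) →
    ∃ x ∈ Zn p F D S X, ∀ L ∈ D, L ∉ D2 → (m L)⁻¹ * x ∈ L ⊔ centralizer (L : Set G)

lemma mem_Zn {F D : Set (Subgroup G)} {S X : Set G} {x : G} :
    x ∈ Zn p F D S X ↔ x ∈ Rz (Rest F D) D ∧ ∀ L ∈ D, x ∈ Mid p S X L := by
  rw [Zn, Subgroup.mem_inf]
  simp only [mem_iInf]

lemma le_Mid {S X : Set G} {L : Subgroup G} : L ⊔ centralizer (L : Set G) ≤ Mid p S X L :=
  le_sup_left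

lemma mem_Mid {S X : Set G} {L : Subgroup G} {a x : G} (ha : a ∈ S) (haX : a ∈ X) (haL : a ∈ L)
    (hx : x ∈ Cn L a) (hxp : x ^ p ∈ centralizer (L : Set G)) : x ∈ Mid p S X L :=
  (le_sup_right : _ ≤ Mid p S X L) (Subgroup.subset_closure ⟨a, ⟨ha, haX⟩, haL, hx, hxp⟩)

end

end Vale.Agent.P240.K
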