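import Vale.Agent.P240.V.Webb
import Vale.Agent.P240.V.Fix
import Vale.Agent.P240.V.ProdF
import Vale.Agent.P240.V.Att
import Vale.Agent.P240.V.Orbit
import Vale.Agent.P240.V.PDefs

namespace Vale.Agent.P240.K

open Finsupp Subgroup

section
variable {G : Type*} [Group G] {p : ℕ}

lemma stable_diff {D O : Set (Subgroup G)} {F : Subgroup G} (hO : ∀ f ∈ F, ∀ L ∈ O, cj f L ∈ O)
    (hD : ∀ f ∈ F, ∀ L ∈ D, cj f L ∈ D) : ∀ f ∈ F, ∀ L ∈ D \ O, cj f L ∈ D \ O := by
  rintro f hf L ⟨h1, h2⟩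
  refine ⟨hD f hf L h1, fun h => h2 ?_⟩
  have h3 := hO f⁻¹ (inv_mem hf) _ h
  rwa [← cj_mul, inv_mul_cancel, cj_one] at h3

lemma mem_normalizer_of_comm {A : Subgroup G} {g : G} (h : ∀ x ∈ A, g * x = x * g) :
    g ∈ normalizer (A : Set G) := mem_of_comm h

/-- zero sum over a stable nonempty part -/
lemma Fam.zero_sum [hp : Fact p.Prime] [Finite G] {R : Subgroup G} {D O : Set (Subgroup G)}
    (hD : Fam p R D) (hO : O ⊆ D) (hne : O.Nonempty) {F : Subgroup G} (hFp : IsPGroup p F)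
    (hFR : F ≤ R) (hF : ∀ f ∈ F, ∀ L ∈ O, cj f L ∈ O) {y : G}
    (hy : y ∈ Gn (D \ O) ⊓ centralizer (F : Set G)) :
    ∑ x ∈ (Set.toFinite ((Gn O ⊓ centralizer (F : Set G) : Subgroup G) : Set G)).toFinset,
      lam p (Gn D ⊓ centralizer (F : Set G)) (x * y) = 0 := by
  have hdis : Disjoint O (D \ O) := Set.disjoint_sdiff_right
  have hF' := stable_diff hF (fun f hf L hL => hD.conj L hL f (hFR hf))
  have hdec := hD.inf_centralizer hO Set.sdiff_subset hdis hF hF'
  rw [Set.union_sdiff_cancel hO] at hdec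
  set A : Subgroup G := Gn O ⊓ centralizer (F : Set G) with hA
  set B : Subgroup G := Gn (D \ O) ⊓ centralizer (F : Set G) with hB
  have hcomm : ∀ x ∈ A, ∀ y ∈ B, x * y = y * x := fun x hx y hy =>
    hD.gn_comm hO Set.sdiff_subset hdis x (Subgroup.mem_inf.1 hx).1 y (Subgroup.mem_inf.1 hy).1
  have hint : A ⊓ B = ⊥ := by
    rw [eq_bot_iff, ← hD.gn_inf hO Set.sdiff_subset hdis]
    exact inf_le_inf inf_le_left inf_le_left
  have hcard : p ∣ Nat.card A := by
    obtain ⟨L, hL⟩ := hne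
    refine dvd_card_inf_centralizer hFp (fun f hf => mem_normalizer_Gn (hF f hf)) ?_
    exact (hD.dvd L (hO hL)).trans (Subgroup.card_dvd_of_le (le_Gn hL))
  rw [hdec]
  have hterm : ∀ x ∈ (Set.toFinite (A : Set G)).toFinset,
      lam p (A ⊔ B) (x * y) = lam p A x * lam p B y := by
    intro x hx
    rw [Set.Finite.mem_toFinset] at hx
    have hyA : ∀ z ∈ A, y * z = z * y := fun z hz => (hcomm z hz y hy).symm
    have hxB : ∀ z ∈ B, x * z = z * x := fun z hz => hcomm x hx z hz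
    rw [lam_sup hcomm hint (mul_mem (Subgroup.le_normalizer hx) (mem_normalizer_of_comm hyA))
      (mul_mem (mem_normalizer_of_comm hxB) (Subgroup.le_normalizer hy)),
      lam_mul_right hyA, lam_mul_left hxB]
  rw [Finset.sum_congr rfl hterm, ← Finset.sum_mul, webb A hcard, zero_mul]

/-- sum over the fixed points: the general scheme -/
lemma Fam.sum_zero [hp : Fact p.Prime] [Finite G] {R : Subgroup G} {D O : Set (Subgroup G)}
    (hD : Fam p R D) (hO : O ⊆ D) (hne : O.Nonempty) {F : Subgroup G} (hFp : IsPGroup p F)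
    (hFR : F ≤ R) (hF : ∀ f ∈ F, ∀ L ∈ O, cj f L ∈ O) {K : Type*} [CommRing K] (φ : G → K)
    (hφ : ∀ x ∈ Gn O ⊓ centralizer (F : Set G), ∀ y ∈ Gn (D \ O) ⊓ centralizer (F : Set G),
      φ (x * y) = φ y) :
    ∑ g ∈ (Set.toFinite ((Gn D ⊓ centralizer (F : Set G) : Subgroup G) : Set G)).toFinset,
      φ g * (lam p (Gn D ⊓ centralizer (F : Set G)) g : K) = 0 := by
  have hdis : Disjoint O (D \ O) := Set.disjoint_sdiff_right
  have hF' := stable_diff hF (fun f hf L hL => hD.conj L hL f (hFR hf))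
  have hdec := hD.inf_centralizer hO Set.sdiff_subset hdis hF hF'
  rw [Set.union_sdiff_cancel hO] at hdec
  have hcomm : ∀ x ∈ Gn O ⊓ centralizer (F : Set G),
      ∀ y ∈ Gn (D \ O) ⊓ centralizer (F : Set G), x * y = y * x := fun x hx y hy =>
    hD.gn_comm hO Set.sdiff_subset hdis x (Subgroup.mem_inf.1 hx).1 y (Subgroup.mem_inf.1 hy).1
  have hint : (Gn O ⊓ centralizer (F : Set G)) ⊓ (Gn (D \ O) ⊓ centralizer (F : Set G)) = ⊥ := by
    rw [eq_bot_iff, ← hD.gn_inf hO Set.sdiff_subset hdis]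
    exact inf_le_inf inf_le_left inf_le_left
  have h1 : ∀ f : G → K,
      ∑ g ∈ (Set.toFinite ((Gn D ⊓ centralizer (F : Set G) : Subgroup G) : Set G)).toFinset, f g =
      ∑ g ∈ (Set.toFinite (((Gn O ⊓ centralizer (F : Set G)) ⊔
        (Gn (D \ O) ⊓ centralizer (F : Set G)) : Subgroup G) : Set G)).toFinset, f g := by
    intro f
    refine Finset.sum_congr ?_ fun _ _ => rfl
    ext g
    rw [Set.Finite.mem_toFinset, Set.Finite.mem_toFinset, hdec]
  rw [h1, sum_sup hcomm hint, Finset.sum_comm]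
  refine Finset.sum_eq_zero fun y hy => ?_
  rw [Set.Finite.mem_toFinset] at hy
  have h2 : ∀ x ∈ (Set.toFinite ((Gn O ⊓ centralizer (F : Set G) : Subgroup G) : Set G)).toFinset,
      φ (x * y) * (lam p (Gn D ⊓ centralizer (F : Set G)) (x * y) : K) =
        φ y * (lam p (Gn D ⊓ centralizer (F : Set G)) (x * y) : K) := by
    intro x hx
    rw [Set.Finite.mem_toFinset] at hx
    rw [hφ x hx y hy]
  rw [Finset.sum_congr rfl h2, ← Finset.mul_sum, ← Int.cast_sum,
    hD.zero_sum hO hne hFp hFR hF hy, Int.cast_zero, mul_zero]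

lemma isPGroup_of_ApS {F : Subgroup G} (hF : F ∈ ApS p G) : IsPGroup p F := fun x =>
  ⟨1, by rw [pow_one]; exact Subtype.ext (hF.2.2 x x.2)⟩

lemma isPGroup_of_ApB {F : Subgroup G} (hF : F ∈ ApB p G) : IsPGroup p F := by
  rcases hF with h | h
  · rw [h]; exact IsPGroup.of_bot
  · exact isPGroup_of_ApS h

lemma Fam.kill [hp : Fact p.Prime] [Finite G] {R : Subgroup G} {D : Set (Subgroup G)}
    (hD : Fam p R D) {S : Set G}
    (hS : ∀ L ∈ D, ∀ h ∈ R, h ^ p = 1 → h ∉ normalizer (L : Set G) → ∀ s ∈ S, s ∈ L →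
      h * s * h⁻¹ ∈ S)
    {K : Type*} [CommRing K] {ζ : K} (hζ : ζ ^ p = 1) {F : Subgroup G} (hF : F ∈ ApB p G)
    (hFR : F ≤ R) (hmove : ∃ L ∈ D, ¬ F ≤ normalizer (L : Set G)) :
    ∑ g ∈ (Set.toFinite ((Gn D ⊓ centralizer (F : Set G) : Subgroup G) : Set G)).toFinset,
      ζ ^ cnt S D g * (lam p (Gn D ⊓ centralizer (F : Set G)) g : K) = 0 := by
  obtain ⟨L, hL, hmv⟩ := hmove
  have hFS : F ∈ ApS p G := by
    rcases hF with h | h
    · exact absurd (by rw [h]; exact bot_le) hmv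
    · exact h
  have hO : {M | ∃ f ∈ F, M = cj f L} ⊆ D := by
    rintro M ⟨f, hf, rfl⟩
    exact hD.conj L hL f (hFR hf)
  have hst : ∀ f ∈ F, ∀ M ∈ {M | ∃ f ∈ F, M = cj f L}, cj f M ∈ {M | ∃ f ∈ F, M = cj f L} := by
    rintro f hf M ⟨f', hf', rfl⟩
    exact ⟨f * f', mul_mem hf hf', by rw [cj_mul]⟩
  refine hD.sum_zero hO ⟨L, 1, one_mem _, by rw [cj_one]⟩ (isPGroup_of_ApS hFS) hFR hst _ ?_
  intro x hx y hy
  have h1 := hD.cnt_mul hO Set.sdiff_subset Set.disjoint_sdiff_right S (Subgroup.mem_inf.1 hx).1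
    (Subgroup.mem_inf.1 hy).1
  rw [Set.union_sdiff_cancel hO] at h1
  have h2 := hD.cnt_mul hO Set.sdiff_subset Set.disjoint_sdiff_right S (one_mem (Gn _))
    (Subgroup.mem_inf.1 hy).1
  rw [Set.union_sdiff_cancel hO, one_mul] at h2
  obtain ⟨a, ha⟩ := hD.dvd_cnt hS hFS hFR hL hmv (Subgroup.mem_inf.1 hx).2
  obtain ⟨b, hb⟩ := hD.dvd_cnt hS hFS hFR hL hmv (one_mem (centralizer (F : Set G)))
  rw [h1, h2, ha, hb, pow_add, pow_add, pow_mul, pow_mul, hζ, one_pow, one_pow]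

/-- exchange of sums -/
lemma sum_attach [hp : Fact p.Prime] [Finite G] {H N : Subgroup G} (hNH : N ≤ H)
    (hN : ∀ h ∈ H, ∀ n ∈ N, h * n * h⁻¹ ∈ N) {K : Type*} [CommRing K] (φ : G → K) :
    ∑ g ∈ (Set.toFinite (N : Set G)).toFinset, φ g * (lam p H g : K) =
      ∑ F ∈ (Set.toFinite {F | F ∈ ApB p G ∧ F ≤ H ∧ F ⊓ N = ⊥}).toFinset,
        (mb p F : K) * ∑ g ∈ (Set.toFinite
          ((N ⊓ centralizer (F : Set G) : Subgroup G) : Set G)).toFinset,
            φ g * (lam p (N ⊓ centralizer (F : Set G)) g : K) := by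
  have h1 : ∀ g ∈ (Set.toFinite (N : Set G)).toFinset, φ g * (lam p H g : K) =
      ∑ F ∈ (Set.toFinite {F | F ∈ ApB p G ∧ F ≤ H ∧ F ⊓ N = ⊥ ∧
        F ≤ centralizer ({g} : Set G)}).toFinset,
        (mb p F : K) * (φ g * (lam p (N ⊓ centralizer (F : Set G)) g : K)) := by
    intro g hg
    rw [Set.Finite.mem_toFinset] at hg
    rw [lam_attach hNH hN hg]
    push_cast
    rw [Finset.mul_sum]
    exact Finset.sum_congr rfl fun F _ => by ring
  rw [Finset.sum_congr rfl h1]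
  simp only [Finset.mul_sum]
  refine Finset.sum_comm' ?_
  intro g F
  rw [Set.Finite.mem_toFinset, Set.Finite.mem_toFinset, Set.Finite.mem_toFinset,
    Set.Finite.mem_toFinset]
  have h2 : F ≤ centralizer ({g} : Set G) ↔ g ∈ centralizer (F : Set G) := by
    constructor
    · intro h
      rw [mem_centralizer_iff]
      intro f hf
      exact ((mem_centralizer_iff.1 (h hf)) g rfl).symm
    · intro h f hf
      rw [mem_centralizer_iff]
      intro y hy
      rw [Set.mem_singleton_iff.1 hy]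
      exact ((mem_centralizer_iff.1 h) f hf).symm
  constructor
  · rintro ⟨hg, h3, h4, h5, h6⟩
    exact ⟨Subgroup.mem_inf.2 ⟨hg, h2.1 h6⟩, h3, h4, h5⟩
  · rintro ⟨hg, h3, h4, h5⟩
    exact ⟨(Subgroup.mem_inf.1 hg).1, h3, h4, h5, h2.2 (Subgroup.mem_inf.1 hg).2⟩

lemma Fam.gn_le {R : Subgroup G} {D : Set (Subgroup G)} (hD : Fam p R D) : Gn D ≤ R :=
  iSup₂_le hD.le

lemma Fam.gn_normal [Finite G] {R : Subgroup G} {D : Set (Subgroup G)} (hD : Fam p R D) :
    ∀ h ∈ R, ∀ n ∈ Gn D, h * n * h⁻¹ ∈ Gn D := by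
  intro h hh n hn
  have h1 : h ∈ normalizer (Gn D : Set G) := mem_normalizer_Gn fun L hL => hD.conj L hL h hh
  exact (mem_normalizer_iff.1 h1 n).1 hn

/-- the elements of `R` normalizing all members of `D` -/
def Rz (R : Subgroup G) (D : Set (Subgroup G)) : Subgroup G :=
  R ⊓ ⨅ L ∈ D, normalizer (L : Set G)

lemma mem_Rz {R : Subgroup G} {D : Set (Subgroup G)} {x : G} :
    x ∈ Rz R D ↔ x ∈ R ∧ ∀ L ∈ D, x ∈ normalizer (L : Set G) := by
  rw [Rz, Subgroup.mem_inf]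
  simp only [mem_iInf]

lemma Fam.gn_le_Rz {R : Subgroup G} {D : Set (Subgroup G)} (hD : Fam p R D) :
    Gn D ≤ Rz R D := by
  refine iSup₂_le fun M hM x hx => mem_Rz.2 ⟨hD.le M hM hx, fun L hL => ?_⟩
  by_cases h : M = L
  · rw [← h]; exact Subgroup.le_normalizer hx
  · exact mem_of_comm fun y hy => hD.comm M hM L hL h x hx y hy

lemma Fam.mass_zero [hp : Fact p.Prime] [Finite G] {R : Subgroup G} {D J : Set (Subgroup G)}
    (hD : Fam p R D) (S : Set G) (hJ : J ⊆ D) (hne : J ≠ D) {K : Type*} [CommRing K] (ψ : G → K)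
    (hψ : ∀ L ∈ D, L ∉ J → ∀ x ∈ L, ∀ y, ψ (x * y) = ψ y) :
    ∑ g ∈ (Set.toFinite (Gn D : Set G)).toFinset, ψ g * (lam p (Rz R D) g : K) = 0 := by
  obtain ⟨M, hM, hMJ⟩ : ∃ M ∈ D, M ∉ J := by
    by_contra h
    push Not at h
    exact hne (Set.Subset.antisymm hJ h)
  rw [sum_attach hD.gn_le_Rz (fun h hh => hD.gn_normal h (mem_Rz.1 hh).1)]
  refine Finset.sum_eq_zero fun F hF => ?_
  rw [Set.Finite.mem_toFinset] at hF
  have hO : ({M} : Set (Subgroup G)) ⊆ D := by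
    intro L hL
    rw [Set.mem_singleton_iff.1 hL]
    exact hM
  rw [hD.sum_zero hO ⟨M, rfl⟩ (isPGroup_of_ApB hF.1) (hF.2.1.trans inf_le_left) ?_ ψ ?_, mul_zero]
  · intro f hf L hL
    rw [Set.mem_singleton_iff.1 hL, Set.mem_singleton_iff, cj_eq_iff]
    exact (mem_Rz.1 (hF.2.1 hf)).2 M hM
  · intro x hx y hy
    refine hψ M hM hMJ x ?_ y
    have h1 := (Subgroup.mem_inf.1 hx).1
    rw [Gn] at h1
    simpa using h1

/-- permutations do not contribute -/
theorem Fam.trick_one [hp : Fact p.Prime] [Finite G] {R : Subgroup G} {D : Set (Subgroup G)}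
    (hD : Fam p R D) {S : Set G}
    (hS : ∀ L ∈ D, ∀ h ∈ R, h ^ p = 1 → h ∉ normalizer (L : Set G) → ∀ s ∈ S, s ∈ L →
      h * s * h⁻¹ ∈ S)
    {K : Type*} [CommRing K] {ζ : K} (hζ : ζ ^ p = 1) :
    ∑ g ∈ (Set.toFinite (Gn D : Set G)).toFinset, ζ ^ cnt S D g * (lam p R g : K) =
      ∑ g ∈ (Set.toFinite (Gn D : Set G)).toFinset, ζ ^ cnt S D g * (lam p (Rz R D) g : K) := by
  rw [sum_attach hD.gn_le hD.gn_normal,
    sum_attach hD.gn_le_Rz (fun h hh => hD.gn_normal h (mem_Rz.1 hh).1)]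
  symm
  refine Finset.sum_subset ?_ ?_
  · intro F hF
    rw [Set.Finite.mem_toFinset] at hF ⊢
    exact ⟨hF.1, hF.2.1.trans inf_le_left, hF.2.2⟩
  · intro F hF hF'
    rw [Set.Finite.mem_toFinset] at hF hF'
    rw [hD.kill hS hζ hF.1 hF.2.1 ?_, mul_zero]
    by_contra h
    push Not at h
    exact hF' ⟨hF.1, fun x hx => mem_Rz.2 ⟨hF.2.1 hx, fun L hL => h L hL hx⟩, hF.2.2⟩

/-- **The trick**: a twisted sum of Lefschetz numbers does not see the permutations. -/
theorem Fam.trick [hp : Fact p.Prime] [Finite G] {R : Subgroup G} {D : Set (Subgroup G)}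
    (hD : Fam p R D) {S : Set G}
    (hS : ∀ L ∈ D, ∀ h ∈ R, h ^ p = 1 → h ∉ normalizer (L : Set G) → ∀ s ∈ S, s ∈ L →
      h * s * h⁻¹ ∈ S)
    {K : Type*} [CommRing K] {ζ : K} (hζ : ζ ^ p = 1) :
    ∑ g ∈ (Set.toFinite (Gn D : Set G)).toFinset, ζ ^ cnt S D g * (lam p R g : K) =
      (ζ - 1) ^ D.ncard *
        ∑ g ∈ (Set.toFinite (Sel D S)).toFinset, (lam p (Rz R D) g : K) := by
  classical
  rw [hD.trick_one hS hζ]
  have hfin : D.Finite := Set.toFinite D
  have hpow : ∀ g : G, ζ ^ cnt S D g = ∑ J ∈ hfin.toFinset.powerset,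
      (ζ - 1) ^ J.card * (if ∀ L ∈ J, At S L g then (1 : K) else 0) := by
    intro g
    have h1 : ζ ^ cnt S D g = ∏ L ∈ hfin.toFinset, (1 + if At S L g then ζ - 1 else 0) := by
      have h2 : ∀ L ∈ hfin.toFinset, (1 + if At S L g then ζ - 1 else 0) =
          if At S L g then ζ else 1 := by
        intro L _
        split_ifs <;> ring
      rw [Finset.prod_congr rfl h2, Finset.prod_ite, Finset.prod_const, Finset.prod_const_one,
        mul_one]
      congr 1
      rw [cnt, Set.ncard_eq_toFinset_card _ (Set.toFinite _)]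
      congr 1
      ext L
      rw [Set.Finite.mem_toFinset, Finset.mem_filter, Set.Finite.mem_toFinset]
      rfl
    rw [h1, Finset.prod_one_add]
    refine Finset.sum_congr rfl fun J _ => ?_
    rw [Finset.prod_ite_zero, Finset.prod_const]
    split_ifs <;> ring
  have hstep : ∀ J ∈ hfin.toFinset.powerset, J ≠ hfin.toFinset →
      ∑ g ∈ (Set.toFinite (Gn D : Set G)).toFinset,
        (ζ - 1) ^ J.card * (if ∀ L ∈ J, At S L g then (1 : K) else 0) *
          (lam p (Rz R D) g : K) = 0 := by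
    intro J hJ hne
    rw [Finset.mem_powerset] at hJ
    have hJD : (J : Set (Subgroup G)) ⊆ D := by
      intro L hL
      exact (Set.Finite.mem_toFinset hfin).1 (hJ hL)
    refine hD.mass_zero S hJD ?_ (fun g => (ζ - 1) ^ J.card *
      (if ∀ L ∈ J, At S L g then (1 : K) else 0)) ?_
    · intro h
      apply hne
      ext L
      rw [Set.Finite.mem_toFinset, ← h]
      rfl
    · intro M hM hMJ x hx y
      have h1 : (∀ L ∈ J, At S L (x * y)) ↔ ∀ L ∈ J, At S L y := by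
        refine forall₂_congr fun L hL => At_mul_left ?_
        rw [mem_centralizer_iff]
        intro z hz
        refine hD.comm L (hJD hL) M hM ?_ z hz x hx
        rintro rfl
        exact hMJ hL
      simp only [h1]
  have hsum : ∑ g ∈ (Set.toFinite (Gn D : Set G)).toFinset,
      ζ ^ cnt S D g * (lam p (Rz R D) g : K) =
      ∑ g ∈ (Set.toFinite (Gn D : Set G)).toFinset,
        (ζ - 1) ^ hfin.toFinset.card *
          (if ∀ L ∈ hfin.toFinset, At S L g then (1 : K) else 0) * (lam p (Rz R D) g : K) := by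
    rw [Finset.sum_congr rfl fun g _ => by rw [hpow g, Finset.sum_mul], Finset.sum_comm]
    exact Finset.sum_eq_single _ hstep fun h => absurd (Finset.mem_powerset.2 subset_rfl) h
  rw [hsum, ← Set.ncard_eq_toFinset_card D hfin, Finset.mul_sum]
  have h5 : ∀ g ∈ (Set.toFinite (Gn D : Set G)).toFinset,
      (ζ - 1) ^ D.ncard * (if ∀ L ∈ hfin.toFinset, At S L g then (1 : K) else 0) *
        (lam p (Rz R D) g : K) =
      if g ∈ Sel D S then (ζ - 1) ^ D.ncard * (lam p (Rz R D) g : K) else 0 := by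
    intro g hg
    rw [Set.Finite.mem_toFinset] at hg
    have h6 : (∀ L ∈ hfin.toFinset, At S L g) ↔ g ∈ Sel D S := by
      constructor
      · intro h
        exact ⟨hg, fun L hL => h L ((Set.Finite.mem_toFinset hfin).2 hL)⟩
      · intro h L hL
        exact h.2 L ((Set.Finite.mem_toFinset hfin).1 hL)
    by_cases h7 : g ∈ Sel D S
    · rw [if_pos h7, if_pos (h6.2 h7), mul_one]
    · rw [if_neg h7, if_neg (fun h => h7 (h6.1 h)), mul_zero, zero_mul]
  rw [Finset.sum_congr rfl h5, ← Finset.sum_filter]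
  refine Finset.sum_congr ?_ fun _ _ => rfl
  ext g
  rw [Finset.mem_filter, Set.Finite.mem_toFinset, Set.Finite.mem_toFinset]
  exact ⟨fun h => h.2, fun h => ⟨h.1, h⟩⟩

end

end Vale.Agent.P240.K
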