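import Vale.Agent.P240.V.WebbRel
import Vale.Agent.P240.V.SpEq

namespace Vale.Agent.P240.K

open Finsupp Subgroup

section
variable {G : Type*} [Group G] {p : ℕ}

/-- **Webb** -/
theorem webb [hp : Fact p.Prime] [Finite G] (K : Subgroup G) (hK : p ∣ Nat.card K) :
    ∑ x ∈ (Set.toFinite (K : Set G)).toFinset, lam p K x = 0 := by
  have hex : ∃ Q : Subgroup G, IsPGroup p Q ∧ ⊥ < Q ∧ Q ≤ K := by
    obtain ⟨x, hx⟩ := exists_prime_orderOf_dvd_card' p hK
    have hxp : (x : G) ^ p = 1 := by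
      have h1 : x ^ p = 1 := by rw [← hx]; exact pow_orderOf_eq_one x
      simpa using congrArg Subtype.val h1
    have hx1 : (x : G) ≠ 1 := by
      intro h
      have : x = 1 := Subtype.ext h
      rw [this, orderOf_one] at hx
      exact hp.out.one_lt.ne hx
    refine ⟨zpowers (x : G), ?_, ?_, ?_⟩
    · intro y
      refine ⟨1, ?_⟩
      rw [pow_one]
      exact Subtype.ext ((zpowers_mem_ApS hxp hx1).2.2 y y.2)
    · rw [bot_lt_iff_ne_bot]
      exact (zpowers_mem_ApS hxp hx1).1
    · rw [Subgroup.zpowers_le]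
      exact x.2
  have h := webb_rel (p := p) ⊥ K bot_le IsPGroup.of_bot
    (fun g _ => by rw [mem_normalizer_iff]; intro y; simp [mem_bot]) hex
  rw [← h]
  refine Finset.sum_congr rfl fun x _ => ?_
  rw [lam_eq]
  congr 1
  ext Q
  simp only [Set.mem_setOf_eq, bot_lt_iff_ne_bot]

end

end Vale.Agent.P240.K
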